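import Mathlib
import Crest.Prelude.Def_BoxFlow

/-!
# S0170: shared definitions (no proofs)

Plan: the velocity field is a finite sum of "elementary moves".  An elementary move is a
cut-off of the nilpotent affine field `y ↦ (c₀ + c₁ * y_b) • e_a` (`a ≠ b`): a translation
(`c₁ = 0`) or a shear.  On the plateau of the cut-off the flow is explicit:
`y ↦ y + τ(t) * (c₀ + c₁ * y_b) • e_a`.  Everything is a finite sum of tensor products of
one-dimensional functions `base …`, built from `Real.smoothTransition` and polynomials.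
-/

set_option autoImplicit false

namespace Crest.Agent.S0170

open Crest.AnalysisR.BoxFlow
open scoped ContDiff

/-- Space. -/
abbrev V : Type := Fin 3 → ℝ

/-- The smooth step: `0` on `(-∞, 0]`, `1` on `[1, ∞)`. -/
noncomputable def stp (x : ℝ) : ℝ := Real.smoothTransition x

/-- One-dimensional building block:
`stp (a₁ x + b₁) * stp (a₂ x + b₂) * (c₀ + c₁ x + c₂ x²)` with rational parameters. -/
noncomputable def base (a₁ b₁ a₂ b₂ c₀ c₁ c₂ : ℚ) (x : ℝ) : ℝ :=
  stp ((a₁ : ℝ) * x + (b₁ : ℝ)) * stp ((a₂ : ℝ) * x + (b₂ : ℝ)) *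
    ((c₀ : ℝ) + (c₁ : ℝ) * x + (c₂ : ℝ) * x ^ 2)

/-- An effective smooth function of one real variable: all derivatives are computably
approximable at rational points and computably bounded. -/
def Eff1 (f : ℝ → ℝ) : Prop :=
  ContDiff ℝ ∞ f ∧
  ∃ (A : ℕ × ℚ × ℕ → ℚ) (B : ℕ → ℕ), Computable A ∧ Computable B ∧
    (∀ (m : ℕ) (q : ℚ) (n : ℕ),
      |iteratedDeriv m f (q : ℝ) - (A (m, q, n) : ℝ)| ≤ 1 / ((n : ℝ) + 1)) ∧
    (∀ (m : ℕ) (x : ℝ), |iteratedDeriv m f x| ≤ (B m : ℝ))

/-- The field `(t, x) ↦ T t * F 0 (x 0) * F 1 (x 1) * F 2 (x 2) • e_j`. -/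
noncomputable def tensorTerm (j : Fin 3) (T : ℝ → ℝ) (F : Fin 3 → ℝ → ℝ) : Field :=
  fun p => Pi.single j (T p.1 * ∏ i, F i (p.2 i))

/-- Spatial data of an elementary move. -/
structure SMove where
  /-- direction of motion -/
  a : Fin 3
  /-- the shear variable -/
  b : Fin 3
  hab : a ≠ b
  /-- lower corner of the plateau box -/
  lo : Fin 3 → ℚ
  /-- upper corner of the plateau box -/
  hi : Fin 3 → ℚ
  /-- width of the cut-off collar -/
  δ : ℚ
  hδ : 0 < δ
  /-- the field on the plateau is `(c₀ + c₁ * y b) • e_a` -/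
  c₀ : ℚ
  c₁ : ℚ

namespace SMove

variable (m : SMove)

/-- The time-one map of the move on the plateau: `y ↦ y + (c₀ + c₁ * y_b) • e_a`. -/
def map (y : V) : V := Function.update y m.a (y m.a + ((m.c₀ : ℝ) + (m.c₁ : ℝ) * y m.b))

/-- The (closed) plateau box, where the field is exactly the affine field. -/
def plateau : Set V := {y | ∀ i, (m.lo i : ℝ) ≤ y i ∧ y i ≤ (m.hi i : ℝ)}

/-- The open box outside of which the field vanishes. -/
def support : Set V := {y | ∀ i, (m.lo i : ℝ) - (m.δ : ℝ) < y i ∧ y i < (m.hi i : ℝ) + (m.δ : ℝ)}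

/-- Cut-off in coordinate `i`: `1` on `[lo i, hi i]`, `0` outside `(lo i - δ, hi i + δ)`. -/
noncomputable def cut (i : Fin 3) : ℝ → ℝ :=
  base (1 / m.δ) (1 - m.lo i / m.δ) (-(1 / m.δ)) (1 + m.hi i / m.δ) 1 0 0

/-- Cut-off in coordinate `b` times the stream polynomial `ψ x = c₀ x + c₁ x² / 2`. -/
noncomputable def cutPsi : ℝ → ℝ :=
  base (1 / m.δ) (1 - m.lo m.b / m.δ) (-(1 / m.δ)) (1 + m.hi m.b / m.δ) 0 m.c₀ (m.c₁ / 2)

/-- Cut-off in coordinate `b` times `-ψ`. -/
noncomputable def cutNegPsi : ℝ → ℝ :=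
  base (1 / m.δ) (1 - m.lo m.b / m.δ) (-(1 / m.δ)) (1 + m.hi m.b / m.δ) 0 (-m.c₀) (-(m.c₁ / 2))

/-- Spatial factors of the `e_a` component: `χ_a(x_a) (χ_b ψ)'(x_b) χ_g(x_g)`. -/
noncomputable def facA (i : Fin 3) : ℝ → ℝ :=
  if i = m.b then deriv m.cutPsi else m.cut i

/-- Spatial factors of the `e_b` component: `χ_a'(x_a) (-χ_b ψ)(x_b) χ_g(x_g)`. -/
noncomputable def facB (i : Fin 3) : ℝ → ℝ :=
  if i = m.a then deriv (m.cut m.a) else if i = m.b then m.cutNegPsi else m.cut i

/-- The autonomous cut-off field of the move (divergence free, supported in `support`,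
equal to `(c₀ + c₁ y_b) • e_a` on `plateau`). -/
noncomputable def field (y : V) : V :=
  Pi.single m.a (∏ i, m.facA i (y i)) + Pi.single m.b (∏ i, m.facB i (y i))

end SMove

/-- The time profile of a move with window `[t₀, t₀ + Δ]`: `0` for `t ≤ t₀`, `1` for
`t ≥ t₀ + Δ`. -/
noncomputable def timeStep (t₀ Δ : ℚ) : ℝ → ℝ :=
  base (1 / Δ) (-(t₀ / Δ)) 0 1 1 0 0

/-- The time-dependent field of a move run during the window `[t₀, t₀ + Δ]`:
`(t, y) ↦ τ'(t) • m.field y`. -/
noncomputable def moveField (m : SMove) (t₀ Δ : ℚ) : Field :=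
  tensorTerm m.a (deriv (timeStep t₀ Δ)) m.facA + tensorTerm m.b (deriv (timeStep t₀ Δ)) m.facB

/-- The field of a list of timed moves. -/
noncomputable def listField : List (SMove × ℚ × ℚ) → Field
  | [] => 0
  | (m, t₀, Δ) :: l => moveField m t₀ Δ + listField l

section States

variable {n : ℕ}

/-- The move `m` is valid for the state `G` (box `i` currently sits at `G i '' nbhd i`):
boxes with `mv i = true` stay in the plateau during the move, the others stay outside the
support. -/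
def MoveValid (nbhd : Fin n → Set V) (m : SMove) (mv : Fin n → Bool) (G : Fin n → V → V) :
    Prop :=
  ∀ i, (mv i = true → ∀ x ∈ nbhd i, G i x ∈ m.plateau ∧ m.map (G i x) ∈ m.plateau) ∧
       (mv i = false → ∀ x ∈ nbhd i, G i x ∉ m.support)

/-- One valid move leads from the state `G` to the state `G'`. -/
def Step (nbhd : Fin n → Set V) (G G' : Fin n → V → V) : Prop :=
  ∃ (m : SMove) (mv : Fin n → Bool), MoveValid nbhd m mv G ∧
    ∀ i, ∀ x ∈ nbhd i, G' i x = if mv i = true then m.map (G i x) else G i x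

/-- Finitely many valid moves lead from `G` to `G'`. -/
def Reach (nbhd : Fin n → Set V) : (Fin n → V → V) → (Fin n → V → V) → Prop :=
  Relation.ReflTransGen (Step nbhd)

/-- `TimedSeq nbhd T G l G'`: the timed moves of `l`, with pairwise disjoint time windows in
increasing order, all inside `[T, 3/4]`, lead from the state `G` to the state `G'`. -/
inductive TimedSeq (nbhd : Fin n → Set V) :
    ℚ → (Fin n → V → V) → List (SMove × ℚ × ℚ) → (Fin n → V → V) → Prop
  | nil (T : ℚ) (G : Fin n → V → V) (hT : T ≤ 3 / 4) : TimedSeq nbhd T G [] G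
  | cons (T : ℚ) (G G' G'' : Fin n → V → V) (m : SMove) (mv : Fin n → Bool) (t₀ Δ : ℚ)
      (l : List (SMove × ℚ × ℚ)) (hT : T ≤ t₀) (hΔ : 0 < Δ)
      (hv : MoveValid nbhd m mv G)
      (hG : ∀ i, ∀ x ∈ nbhd i, G' i x = if mv i = true then m.map (G i x) else G i x)
      (hl : TimedSeq nbhd (t₀ + Δ) G' l G'') :
      TimedSeq nbhd T G ((m, t₀, Δ) :: l) G''

/-- Open box neighbourhoods: box `i` has centre `a i` and half-widths `w i`. -/
def obox (a w : Fin n → Fin 3 → ℚ) (i : Fin n) : Set V :=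
  {x | ∀ j, |x j - (a i j : ℝ)| < (w i j : ℝ)}

/-- Diagonal state: the box `i` (centre `a i`) sits at centre `c i`, rescaled by `Λ i`. -/
def dstate (a c Λ : Fin n → Fin 3 → ℚ) : Fin n → V → V :=
  fun i x j => (c i j : ℝ) + (Λ i j : ℝ) * (x j - (a i j : ℝ))

/-- Radius of the private cube needed to rescale a box of sup-radius `R₀` by the ratio `r`
with four shears. -/
def rescaleRadius (r R₀ : ℚ) : ℚ :=
  2 * (1 + 1 / r) * (1 + |r - 1|) * (1 + |1 - r| / r) * R₀ + 1

end States

end Crest.Agent.S0170
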