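import Crest.Agent.Lib.S0170.Defs

/-!
# S0170, module M8a (helper18): elementary planning steps

`step_symm`, `reach_symm`, `step_translate`, `reach_rescale` with exactly the types of
`team/S0170/Interface.lean`, in the namespace `Crest.Agent.S0170.Helper18`.
-/

set_option autoImplicit false

namespace Crest.Agent.S0170.Helper18

open Crest.Agent.S0170

variable {n : ℕ}

/-! ### Reversing a move -/

/-- The reverse of a move: same plateau and support, opposite field. -/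
def revMove (m : SMove) : SMove :=
  { a := m.a, b := m.b, hab := m.hab, lo := m.lo, hi := m.hi, δ := m.δ, hδ := m.hδ,
    c₀ := -m.c₀, c₁ := -m.c₁ }

lemma revMove_map_map (m : SMove) (y : V) : (revMove m).map (m.map y) = y := by
  funext j
  by_cases hj : j = m.a
  · subst hj
    simp only [SMove.map, revMove, Function.update_self, Function.update_of_ne (Ne.symm m.hab)]
    push_cast
    ring
  · simp only [SMove.map, revMove, Function.update_of_ne hj]

theorem step_symm {n : ℕ} (nbhd : Fin n → Set V) {G G' : Fin n → V → V}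
    (h : Step nbhd G G') : Step nbhd G' G := by
  obtain ⟨m, mv, hv, hG⟩ := h
  refine ⟨revMove m, mv, ?_, ?_⟩
  · intro i
    refine ⟨fun hi x hx => ?_, fun hi x hx => ?_⟩
    · have h1 := (hv i).1 hi x hx
      have h2 := hG i x hx
      rw [if_pos hi] at h2
      rw [h2]
      refine ⟨h1.2, ?_⟩
      rw [revMove_map_map]
      exact h1.1
    · have h1 := (hv i).2 hi x hx
      have h2 := hG i x hx
      rw [if_neg (by simp [hi])] at h2
      rw [h2]
      exact h1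
  · intro i x hx
    have h2 := hG i x hx
    by_cases hi : mv i = true
    · rw [if_pos hi] at h2 ⊢
      rw [h2, revMove_map_map]
    · rw [if_neg hi] at h2 ⊢
      exact h2.symm

theorem reach_symm {n : ℕ} (nbhd : Fin n → Set V) {G G' : Fin n → V → V}
    (h : Reach nbhd G G') : Reach nbhd G' G := by
  induction h with
  | refl => exact Relation.ReflTransGen.refl
  | tail _ hbc ih => exact Relation.ReflTransGen.head (step_symm nbhd hbc) ih

/-! ### Auxiliary lemmas -/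

/-- Some axis different from `α`. -/
def other (α : Fin 3) : Fin 3 := if α = 0 then 1 else 0

lemma ne_other (α : Fin 3) : α ≠ other α := by
  unfold other
  split_ifs with h
  · rw [h]; decide
  · exact h

lemma exists_pos_forall_le {ι : Type} [DecidableEq ι] (s : Finset ι) (f : ι → ℚ)
    (hf : ∀ i ∈ s, 0 < f i) : ∃ δ : ℚ, 0 < δ ∧ ∀ i ∈ s, δ ≤ f i := by
  induction s using Finset.induction_on with
  | empty => exact ⟨1, one_pos, by simp⟩
  | insert i s hi ih =>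
    obtain ⟨δ, hδ, h⟩ := ih (fun j hj => hf j (Finset.mem_insert_of_mem hj))
    refine ⟨min δ (f i), lt_min hδ (hf i (Finset.mem_insert_self i s)), ?_⟩
    intro j hj
    rcases Finset.mem_insert.1 hj with rfl | hj
    · exact min_le_right _ _
    · exact (min_le_left _ _).trans (h j hj)

lemma dstate_sub_lt (a w c Λ : Fin n → Fin 3 → ℚ) (hΛ : ∀ i j, 0 < Λ i j) (i : Fin n) {x : V}
    (hx : x ∈ obox a w i) (j : Fin 3) :
    |dstate a c Λ i x j - (c i j : ℝ)| < (Λ i j : ℝ) * (w i j : ℝ) := by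
  have h := hx j
  have hΛ' : (0 : ℝ) < Λ i j := by exact_mod_cast hΛ i j
  simp only [dstate, add_sub_cancel_left]
  rw [abs_mul, abs_of_pos hΛ']
  exact mul_lt_mul_of_pos_left h hΛ'

/-- A single-box step: the box `i₀` moves by `m`, the others stay outside the support. -/
lemma step_single (nbhd : Fin n → Set V) (G G' : Fin n → V → V) (m : SMove) (i₀ : Fin n)
    (h1 : ∀ x ∈ nbhd i₀, G i₀ x ∈ m.plateau ∧ m.map (G i₀ x) ∈ m.plateau)
    (h2 : ∀ i, i ≠ i₀ → ∀ x ∈ nbhd i, G i x ∉ m.support)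
    (h3 : ∀ x ∈ nbhd i₀, G' i₀ x = m.map (G i₀ x))
    (h4 : ∀ i, i ≠ i₀ → ∀ x ∈ nbhd i, G' i x = G i x) : Step nbhd G G' := by
  classical
  refine ⟨m, fun i => decide (i = i₀), ?_, ?_⟩
  · intro i
    refine ⟨fun hi x hx => ?_, fun hi x hx => ?_⟩
    · have hi' : i = i₀ := of_decide_eq_true hi
      subst hi'
      exact h1 x hx
    · have hi' : i ≠ i₀ := of_decide_eq_false hi
      exact h2 i hi' x hx
  · intro i x hx
    by_cases hi : i = i₀
    · subst hi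
      simp only [decide_true, if_true]
      exact h3 x hx
    · have : decide (i = i₀) = false := decide_eq_false hi
      simp only [this, Bool.false_eq_true, if_false]
      exact h4 i hi x hx

/-! ### Translation -/

theorem step_translate {n : ℕ} (a w c Λ : Fin n → Fin 3 → ℚ) (hw : ∀ i j, 0 < w i j)
    (hΛ : ∀ i j, 0 < Λ i j) (i₀ : Fin n) (α : Fin 3) (d : ℚ)
    (hsep : ∀ i, i ≠ i₀ → ∃ j,
      c i j + Λ i j * w i j < c i₀ j - Λ i₀ j * w i₀ j + (if j = α then min 0 d else 0) ∨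
      c i₀ j + Λ i₀ j * w i₀ j + (if j = α then max 0 d else 0) < c i j - Λ i j * w i j) :
    Step (obox a w) (dstate a c Λ)
      (dstate a (Function.update c i₀ (Function.update (c i₀) α (c i₀ α + d))) Λ) := by
  classical
  -- the plateau box: the hull swept by the moving box
  obtain ⟨lo, hlo⟩ : ∃ lo : Fin 3 → ℚ, lo = fun j =>
      c i₀ j - Λ i₀ j * w i₀ j + (if j = α then min 0 d else 0) := ⟨_, rfl⟩
  obtain ⟨hi, hhi⟩ : ∃ hi : Fin 3 → ℚ, hi = fun j =>
      c i₀ j + Λ i₀ j * w i₀ j + (if j = α then max 0 d else 0) := ⟨_, rfl⟩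
  have L1 : ∀ j, lo j ≤ c i₀ j - Λ i₀ j * w i₀ j := by
    intro j
    rw [hlo]
    dsimp only
    split_ifs
    · linarith [min_le_left 0 d]
    · linarith
  have L2 : lo α ≤ c i₀ α - Λ i₀ α * w i₀ α + d := by
    rw [hlo]
    dsimp only
    rw [if_pos rfl]
    linarith [min_le_right 0 d]
  have H1 : ∀ j, c i₀ j + Λ i₀ j * w i₀ j ≤ hi j := by
    intro j
    rw [hhi]
    dsimp only
    split_ifs
    · linarith [le_max_left 0 d]
    · linarith
  have H2 : c i₀ α + Λ i₀ α * w i₀ α + d ≤ hi α := by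
    rw [hhi]
    dsimp only
    rw [if_pos rfl]
    linarith [le_max_right 0 d]
  -- the margin
  have hgap : ∀ i, ∃ g : ℚ, 0 < g ∧ (i ≠ i₀ → ∃ j,
      c i j + Λ i j * w i j + g ≤ lo j ∨ hi j + g ≤ c i j - Λ i j * w i j) := by
    intro i
    by_cases hi0 : i = i₀
    · exact ⟨1, one_pos, fun h => absurd hi0 h⟩
    · obtain ⟨j, hj⟩ := hsep i hi0
      rcases hj with hj | hj
      · refine ⟨lo j - (c i j + Λ i j * w i j), ?_, fun _ => ⟨j, Or.inl (by linarith)⟩⟩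
        rw [hlo]
        dsimp only
        linarith
      · refine ⟨c i j - Λ i j * w i j - hi j, ?_, fun _ => ⟨j, Or.inr (by linarith)⟩⟩
        rw [hhi]
        dsimp only
        linarith
  choose g hg0 hg using hgap
  obtain ⟨δ, hδ, hδg⟩ := exists_pos_forall_le Finset.univ g (fun i _ => hg0 i)
  -- the move
  let m : SMove := ⟨α, other α, ne_other α, lo, hi, δ, hδ, d, 0⟩
  have hmap : ∀ y : V, m.map y = Function.update y α (y α + (d : ℝ)) := by
    intro y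
    simp only [SMove.map, m, Rat.cast_zero, zero_mul, add_zero]
  refine step_single (obox a w) _ _ m i₀ ?_ ?_ ?_ ?_
  · intro x hx
    have hy : ∀ j, (lo j : ℝ) ≤ dstate a c Λ i₀ x j ∧ dstate a c Λ i₀ x j ≤ (hi j : ℝ) := by
      intro j
      have h := abs_lt.1 (dstate_sub_lt a w c Λ hΛ i₀ hx j)
      have l1 : (lo j : ℝ) ≤ (c i₀ j : ℝ) - (Λ i₀ j : ℝ) * (w i₀ j : ℝ) := by
        exact_mod_cast L1 j
      have h1 : (c i₀ j : ℝ) + (Λ i₀ j : ℝ) * (w i₀ j : ℝ) ≤ (hi j : ℝ) := by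
        exact_mod_cast H1 j
      constructor <;> linarith [h.1, h.2]
    refine ⟨hy, ?_⟩
    rw [hmap]
    intro j
    by_cases hj : j = α
    · subst hj
      rw [Function.update_self]
      have h := abs_lt.1 (dstate_sub_lt a w c Λ hΛ i₀ hx j)
      have l2 : (lo j : ℝ) ≤ (c i₀ j : ℝ) - (Λ i₀ j : ℝ) * (w i₀ j : ℝ) + (d : ℝ) := by
        exact_mod_cast L2
      have h2 : (c i₀ j : ℝ) + (Λ i₀ j : ℝ) * (w i₀ j : ℝ) + (d : ℝ) ≤ (hi j : ℝ) := by
        exact_mod_cast H2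
      constructor <;> linarith [h.1, h.2]
    · rw [Function.update_of_ne hj]
      exact hy j
  · intro i hi0 x hx hsupp
    obtain ⟨j, hj⟩ := hg i hi0
    have h := abs_lt.1 (dstate_sub_lt a w c Λ hΛ i hx j)
    have hs := hsupp j
    have hδ' : (δ : ℝ) ≤ (g i : ℝ) := by exact_mod_cast hδg i (Finset.mem_univ i)
    rcases hj with hj | hj
    · have hj' : (c i j : ℝ) + (Λ i j : ℝ) * (w i j : ℝ) + (g i : ℝ) ≤ (lo j : ℝ) := by
        exact_mod_cast hj
      have hs1 : (lo j : ℝ) - (δ : ℝ) < dstate a c Λ i x j := hs.1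
      linarith [h.1, h.2]
    · have hj' : (hi j : ℝ) + (g i : ℝ) ≤ (c i j : ℝ) - (Λ i j : ℝ) * (w i j : ℝ) := by
        exact_mod_cast hj
      have hs2 : dstate a c Λ i x j < (hi j : ℝ) + (δ : ℝ) := hs.2
      linarith [h.1, h.2]
  · intro x _
    rw [hmap]
    funext j
    by_cases hj : j = α
    · subst hj
      simp only [dstate, Function.update_self]
      push_cast
      ring
    · simp only [dstate, Function.update_self, Function.update_of_ne hj]
  · intro i hi0 x _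
    funext j
    simp only [dstate, Function.update_of_ne hi0]

/-! ### Rescaling by four shears -/

/-- Planar affine state: the box `i₀` sits at `c i₀ + M (Λ (x - a))`, where `M` acts on the
coordinates `p`, `q` by the matrix `(m11 m12; m21 m22)`; all other boxes are as in `dstate`. -/
def pstate (a c Λ : Fin n → Fin 3 → ℚ) (i₀ : Fin n) (p q : Fin 3) (m11 m12 m21 m22 : ℚ) :
    Fin n → V → V :=
  fun i x j =>
    if i = i₀ then
      if j = p then
        (c i p : ℝ) + ((m11 : ℝ) * ((Λ i p : ℝ) * (x p - (a i p : ℝ))) +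
          (m12 : ℝ) * ((Λ i q : ℝ) * (x q - (a i q : ℝ))))
      else if j = q then
        (c i q : ℝ) + ((m21 : ℝ) * ((Λ i p : ℝ) * (x p - (a i p : ℝ))) +
          (m22 : ℝ) * ((Λ i q : ℝ) * (x q - (a i q : ℝ))))
      else (c i j : ℝ) + (Λ i j : ℝ) * (x j - (a i j : ℝ))
    else (c i j : ℝ) + (Λ i j : ℝ) * (x j - (a i j : ℝ))

lemma pstate_of_ne (a c Λ : Fin n → Fin 3 → ℚ) (i₀ : Fin n) (p q : Fin 3)
    (m11 m12 m21 m22 : ℚ) {i : Fin n} (hi : i ≠ i₀) (x : V) :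
    pstate a c Λ i₀ p q m11 m12 m21 m22 i x = dstate a c Λ i x := by
  funext j
  simp only [pstate, dstate, if_neg hi]

lemma pstate_self_p (a c Λ : Fin n → Fin 3 → ℚ) (i₀ : Fin n) (p q : Fin 3)
    (m11 m12 m21 m22 : ℚ) (x : V) :
    pstate a c Λ i₀ p q m11 m12 m21 m22 i₀ x p =
      (c i₀ p : ℝ) + ((m11 : ℝ) * ((Λ i₀ p : ℝ) * (x p - (a i₀ p : ℝ))) +
          (m12 : ℝ) * ((Λ i₀ q : ℝ) * (x q - (a i₀ q : ℝ)))) := by
  simp only [pstate, if_true]

lemma pstate_self_q (a c Λ : Fin n → Fin 3 → ℚ) (i₀ : Fin n) (p q : Fin 3) (hpq : p ≠ q)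
    (m11 m12 m21 m22 : ℚ) (x : V) :
    pstate a c Λ i₀ p q m11 m12 m21 m22 i₀ x q =
      (c i₀ q : ℝ) + ((m21 : ℝ) * ((Λ i₀ p : ℝ) * (x p - (a i₀ p : ℝ))) +
          (m22 : ℝ) * ((Λ i₀ q : ℝ) * (x q - (a i₀ q : ℝ)))) := by
  simp only [pstate, if_true, if_neg (Ne.symm hpq)]

lemma pstate_self_other (a c Λ : Fin n → Fin 3 → ℚ) (i₀ : Fin n) (p q : Fin 3)
    (m11 m12 m21 m22 : ℚ) (x : V) {j : Fin 3} (hjp : j ≠ p) (hjq : j ≠ q) :
    pstate a c Λ i₀ p q m11 m12 m21 m22 i₀ x j =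
      (c i₀ j : ℝ) + (Λ i₀ j : ℝ) * (x j - (a i₀ j : ℝ)) := by
  simp only [pstate, if_true, if_neg hjp, if_neg hjq]

lemma pstate_swap (a c Λ : Fin n → Fin 3 → ℚ) (i₀ : Fin n) (p q : Fin 3) (hpq : p ≠ q)
    (m11 m12 m21 m22 : ℚ) :
    pstate a c Λ i₀ p q m11 m12 m21 m22 = pstate a c Λ i₀ q p m22 m21 m12 m11 := by
  funext i x j
  by_cases hi : i = i₀
  · subst hi
    by_cases hjp : j = p
    · subst hjp
      rw [pstate_self_p, pstate_self_q _ _ _ _ _ _ (Ne.symm hpq)]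
      ring
    · by_cases hjq : j = q
      · subst hjq
        rw [pstate_self_q _ _ _ _ _ _ hpq, pstate_self_p]
        ring
      · rw [pstate_self_other _ _ _ _ _ _ _ _ _ _ _ hjp hjq,
          pstate_self_other _ _ _ _ _ _ _ _ _ _ _ hjq hjp]
  · rw [pstate_of_ne _ _ _ _ _ _ _ _ _ _ hi, pstate_of_ne _ _ _ _ _ _ _ _ _ _ hi]

lemma abs_u_le (a w Λ : Fin n → Fin 3 → ℚ) (hΛ : ∀ i j, 0 < Λ i j) (i₀ : Fin n) (R₀ : ℚ)
    (hR₀ : ∀ j, Λ i₀ j * w i₀ j ≤ R₀) {x : V} (hx : x ∈ obox a w i₀) (j : Fin 3) :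
    |(Λ i₀ j : ℝ) * (x j - (a i₀ j : ℝ))| ≤ (R₀ : ℝ) := by
  have h := hx j
  have hΛ' : (0 : ℝ) < Λ i₀ j := by exact_mod_cast hΛ i₀ j
  have hR : (Λ i₀ j : ℝ) * (w i₀ j : ℝ) ≤ (R₀ : ℝ) := by exact_mod_cast hR₀ j
  rw [abs_mul, abs_of_pos hΛ']
  exact (mul_lt_mul_of_pos_left h hΛ').le.trans hR

lemma abs_comb_le {m1 m2 K R u v : ℝ} (hu : |u| ≤ R) (hv : |v| ≤ R) (hK : |m1| + |m2| ≤ K) :
    |m1 * u + m2 * v| ≤ K * R := by
  have hR : 0 ≤ R := (abs_nonneg u).trans hu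
  calc |m1 * u + m2 * v| ≤ |m1 * u| + |m2 * v| := abs_add_le _ _
    _ = |m1| * |u| + |m2| * |v| := by rw [abs_mul, abs_mul]
    _ ≤ |m1| * R + |m2| * R :=
        add_le_add (mul_le_mul_of_nonneg_left hu (abs_nonneg _))
          (mul_le_mul_of_nonneg_left hv (abs_nonneg _))
    _ = (|m1| + |m2|) * R := by ring
    _ ≤ K * R := mul_le_mul_of_nonneg_right hK hR

lemma pstate_sub_le (a w c Λ : Fin n → Fin 3 → ℚ) (hΛ : ∀ i j, 0 < Λ i j) (i₀ : Fin n)
    (p q : Fin 3) (hpq : p ≠ q) (m11 m12 m21 m22 K R₀ : ℚ)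
    (hR₀ : ∀ j, Λ i₀ j * w i₀ j ≤ R₀) (h1 : |m11| + |m12| ≤ K) (h2 : |m21| + |m22| ≤ K)
    (hK : 1 ≤ K) {x : V} (hx : x ∈ obox a w i₀) (j : Fin 3) :
    |pstate a c Λ i₀ p q m11 m12 m21 m22 i₀ x j - (c i₀ j : ℝ)| ≤ (K : ℝ) * (R₀ : ℝ) := by
  have hu := abs_u_le a w Λ hΛ i₀ R₀ hR₀ hx
  have h1' : |(m11 : ℝ)| + |(m12 : ℝ)| ≤ (K : ℝ) := by exact_mod_cast h1
  have h2' : |(m21 : ℝ)| + |(m22 : ℝ)| ≤ (K : ℝ) := by exact_mod_cast h2
  by_cases hjp : j = p
  · subst hjp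
    rw [pstate_self_p, add_sub_cancel_left]
    exact abs_comb_le (hu j) (hu q) h1'
  · by_cases hjq : j = q
    · subst hjq
      rw [pstate_self_q _ _ _ _ _ _ hpq, add_sub_cancel_left]
      exact abs_comb_le (hu p) (hu j) h2'
    · rw [pstate_self_other _ _ _ _ _ _ _ _ _ _ _ hjp hjq, add_sub_cancel_left]
      have hK' : (1 : ℝ) ≤ (K : ℝ) := by exact_mod_cast hK
      have hR : (0 : ℝ) ≤ (R₀ : ℝ) := (abs_nonneg _).trans (hu j)
      calc |(Λ i₀ j : ℝ) * (x j - (a i₀ j : ℝ))| ≤ (R₀ : ℝ) := hu j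
        _ = 1 * (R₀ : ℝ) := (one_mul _).symm
        _ ≤ (K : ℝ) * (R₀ : ℝ) := mul_le_mul_of_nonneg_right hK' hR

/-- A shear `y_p ↦ y_p + κ (y_q - c_q)` of the box `i₀` about its centre, inside the cube of
radius `K * R₀` around the centre. -/
lemma step_shearU (a w c Λ : Fin n → Fin 3 → ℚ) (hΛ : ∀ i j, 0 < Λ i j) (i₀ : Fin n)
    (p q : Fin 3) (hpq : p ≠ q) (m11 m12 m21 m22 m11' m12' κ K R₀ : ℚ)
    (hR₀ : ∀ j, Λ i₀ j * w i₀ j ≤ R₀)
    (h1 : |m11| + |m12| ≤ K) (h2 : |m21| + |m22| ≤ K) (h1' : |m11'| + |m12'| ≤ K)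
    (e1 : m11' = m11 + κ * m21) (e2 : m12' = m12 + κ * m22) (hK : 1 ≤ K)
    (hfar : ∀ i, i ≠ i₀ → ∃ j, Λ i j * w i j + (K * R₀ + 1) < |c i j - c i₀ j|) :
    Step (obox a w) (pstate a c Λ i₀ p q m11 m12 m21 m22)
      (pstate a c Λ i₀ p q m11' m12' m21 m22) := by
  let m : SMove := ⟨p, q, hpq, fun j => c i₀ j - K * R₀, fun j => c i₀ j + K * R₀, 1, one_pos,
    -(κ * c i₀ q), κ⟩
  have hmap : ∀ x : V, m.map (pstate a c Λ i₀ p q m11 m12 m21 m22 i₀ x) =
      pstate a c Λ i₀ p q m11' m12' m21 m22 i₀ x := by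
    intro x
    funext j
    by_cases hjp : j = p
    · subst hjp
      simp only [SMove.map, m, Function.update_self]
      rw [pstate_self_p, pstate_self_p, pstate_self_q _ _ _ _ _ _ hpq, e1, e2]
      push_cast
      ring
    · simp only [SMove.map, m, Function.update_of_ne hjp]
      by_cases hjq : j = q
      · subst hjq
        rw [pstate_self_q _ _ _ _ _ _ hpq, pstate_self_q _ _ _ _ _ _ hpq]
      · rw [pstate_self_other _ _ _ _ _ _ _ _ _ _ _ hjp hjq,
          pstate_self_other _ _ _ _ _ _ _ _ _ _ _ hjp hjq]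
  have hplat : ∀ (y : V), (∀ j, |y j - (c i₀ j : ℝ)| ≤ (K : ℝ) * (R₀ : ℝ)) → y ∈ m.plateau := by
    intro y hy j
    have h := abs_le.1 (hy j)
    simp only [m]
    push_cast
    constructor <;> linarith [h.1, h.2]
  refine step_single (obox a w) _ _ m i₀ ?_ ?_ ?_ ?_
  · intro x hx
    refine ⟨hplat _ (pstate_sub_le a w c Λ hΛ i₀ p q hpq m11 m12 m21 m22 K R₀ hR₀ h1 h2 hK hx),
      ?_⟩
    rw [hmap]
    exact hplat _ (pstate_sub_le a w c Λ hΛ i₀ p q hpq m11' m12' m21 m22 K R₀ hR₀ h1' h2 hK hx)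
  · intro i hi x hx hsupp
    rw [pstate_of_ne _ _ _ _ _ _ _ _ _ _ hi] at hsupp
    obtain ⟨j, hj⟩ := hfar i hi
    have hj' : (Λ i j : ℝ) * (w i j : ℝ) + ((K : ℝ) * (R₀ : ℝ) + 1) <
        |(c i j : ℝ) - (c i₀ j : ℝ)| := by exact_mod_cast hj
    have h := abs_lt.1 (dstate_sub_lt a w c Λ hΛ i hx j)
    have hs := hsupp j
    simp only [m] at hs
    push_cast at hs
    rcases abs_cases ((c i j : ℝ) - (c i₀ j : ℝ)) with ⟨h', _⟩ | ⟨h', _⟩ <;> rw [h'] at hj' <;>
      linarith [h.1, h.2, hs.1, hs.2]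
  · intro x _
    exact (hmap x).symm
  · intro i hi x _
    rw [pstate_of_ne _ _ _ _ _ _ _ _ _ _ hi, pstate_of_ne _ _ _ _ _ _ _ _ _ _ hi]

/-- A shear `y_q ↦ y_q + κ (y_p - c_p)` of the box `i₀` about its centre. -/
lemma step_shearL (a w c Λ : Fin n → Fin 3 → ℚ) (hΛ : ∀ i j, 0 < Λ i j) (i₀ : Fin n)
    (p q : Fin 3) (hpq : p ≠ q) (m11 m12 m21 m22 m21' m22' κ K R₀ : ℚ)
    (hR₀ : ∀ j, Λ i₀ j * w i₀ j ≤ R₀)
    (h1 : |m11| + |m12| ≤ K) (h2 : |m21| + |m22| ≤ K) (h2' : |m21'| + |m22'| ≤ K)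
    (e1 : m21' = m21 + κ * m11) (e2 : m22' = m22 + κ * m12) (hK : 1 ≤ K)
    (hfar : ∀ i, i ≠ i₀ → ∃ j, Λ i j * w i j + (K * R₀ + 1) < |c i j - c i₀ j|) :
    Step (obox a w) (pstate a c Λ i₀ p q m11 m12 m21 m22)
      (pstate a c Λ i₀ p q m11 m12 m21' m22') := by
  rw [pstate_swap a c Λ i₀ p q hpq m11 m12 m21 m22, pstate_swap a c Λ i₀ p q hpq m11 m12 m21' m22']
  exact step_shearU a w c Λ hΛ i₀ q p (Ne.symm hpq) m22 m21 m12 m11 m22' m21' κ K R₀ hR₀
    (by rw [add_comm]; exact h2) (by rw [add_comm]; exact h1) (by rw [add_comm]; exact h2')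
    e2 e1 hK hfar

theorem reach_rescale {n : ℕ} (a w c Λ : Fin n → Fin 3 → ℚ) (hw : ∀ i j, 0 < w i j)
    (hΛ : ∀ i j, 0 < Λ i j) (i₀ : Fin n) (p q : Fin 3) (hpq : p ≠ q) (r : ℚ) (hr : 0 < r)
    (R₀ : ℚ) (hR₀ : ∀ j, Λ i₀ j * w i₀ j ≤ R₀)
    (hfar : ∀ i, i ≠ i₀ → ∃ j, Λ i j * w i j + rescaleRadius r R₀ < |c i j - c i₀ j|) :
    Reach (obox a w) (dstate a c Λ)
      (dstate a c (Function.update Λ i₀
        (Function.update (Function.update (Λ i₀) p (r * Λ i₀ p)) q (Λ i₀ q / r)))) := by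
  obtain ⟨K, hKdef⟩ : ∃ K : ℚ, K = 2 * (1 + 1 / r) * (1 + |r - 1|) * (1 + |1 - r| / r) :=
    ⟨_, rfl⟩
  have hfar' : ∀ i, i ≠ i₀ → ∃ j, Λ i j * w i j + (K * R₀ + 1) < |c i j - c i₀ j| := by
    rw [hKdef]
    exact hfar
  have hs : 0 < 1 / r := one_div_pos.2 hr
  have ht : 0 ≤ |r - 1| := abs_nonneg _
  have hC : 0 ≤ |1 - r| / r := div_nonneg (abs_nonneg _) hr.le
  have hAB : (1 + 1 / r) * (1 + |r - 1|) ≤ K := by
    have hAB0 : 0 ≤ (1 + 1 / r) * (1 + |r - 1|) := by positivity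
    rw [hKdef]
    nlinarith [mul_nonneg hAB0 hC]
  have hst : 0 ≤ 1 / r * |r - 1| := mul_nonneg hs.le ht
  have hK1 : 1 ≤ K := le_trans (by nlinarith) hAB
  have hKA : 1 + 1 / r ≤ K := le_trans (by nlinarith) hAB
  have hKB : 1 + |r - 1| ≤ K := le_trans (by nlinarith) hAB
  -- row bounds of the five matrices
  have b0 : |(1 : ℚ)| + |(0 : ℚ)| ≤ K := by simpa using hK1
  have b1 : |(1 : ℚ)| + |-(1 / r)| ≤ K := by
    rw [abs_one, abs_neg, abs_of_pos hs]
    exact hKA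
  have b2 : |r - 1| + |1 / r| ≤ K := by
    rw [abs_of_pos hs]
    refine le_trans ?_ hAB
    nlinarith
  have b3 : |r| + |(0 : ℚ)| ≤ K := by
    rw [abs_zero, add_zero, abs_of_pos hr]
    refine le_trans ?_ hKB
    linarith [le_abs_self (r - 1)]
  have b4 : |(0 : ℚ)| + |1 / r| ≤ K := by
    rw [abs_zero, zero_add, abs_of_pos hs]
    linarith
  have hr0 : r ≠ 0 := hr.ne'
  -- the four shears
  have s1 : Step (obox a w) (pstate a c Λ i₀ p q 1 0 0 1)
      (pstate a c Λ i₀ p q 1 (-(1 / r)) 0 1) :=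
    step_shearU a w c Λ hΛ i₀ p q hpq 1 0 0 1 1 (-(1 / r)) (-(1 / r)) K R₀ hR₀ b0
      (by rw [add_comm]; exact b0) b1 (by ring) (by ring) hK1 hfar'
  have s2 : Step (obox a w) (pstate a c Λ i₀ p q 1 (-(1 / r)) 0 1)
      (pstate a c Λ i₀ p q 1 (-(1 / r)) (r - 1) (1 / r)) :=
    step_shearL a w c Λ hΛ i₀ p q hpq 1 (-(1 / r)) 0 1 (r - 1) (1 / r) (r - 1) K R₀ hR₀ b1
      (by rw [add_comm]; exact b0) b2 (by ring) (by field_simp; ring) hK1 hfar'
  have s3 : Step (obox a w) (pstate a c Λ i₀ p q 1 (-(1 / r)) (r - 1) (1 / r))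
      (pstate a c Λ i₀ p q r 0 (r - 1) (1 / r)) :=
    step_shearU a w c Λ hΛ i₀ p q hpq 1 (-(1 / r)) (r - 1) (1 / r) r 0 1 K R₀ hR₀ b1 b2 b3
      (by ring) (by ring) hK1 hfar'
  have s4 : Step (obox a w) (pstate a c Λ i₀ p q r 0 (r - 1) (1 / r))
      (pstate a c Λ i₀ p q r 0 0 (1 / r)) :=
    step_shearL a w c Λ hΛ i₀ p q hpq r 0 (r - 1) (1 / r) 0 (1 / r) ((1 - r) / r) K R₀ hR₀ b3 b2
      b4 (by field_simp; ring) (by ring) hK1 hfar'
  have e0 : dstate a c Λ = pstate a c Λ i₀ p q 1 0 0 1 := by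
    funext i x j
    by_cases hi : i = i₀
    · subst hi
      by_cases hjp : j = p
      · subst hjp
        rw [pstate_self_p]
        simp only [dstate]
        push_cast
        ring
      · by_cases hjq : j = q
        · subst hjq
          rw [pstate_self_q _ _ _ _ _ _ hpq]
          simp only [dstate]
          push_cast
          ring
        · rw [pstate_self_other _ _ _ _ _ _ _ _ _ _ _ hjp hjq]
          simp only [dstate]
    · rw [pstate_of_ne _ _ _ _ _ _ _ _ _ _ hi]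
  have e4 : dstate a c (Function.update Λ i₀
      (Function.update (Function.update (Λ i₀) p (r * Λ i₀ p)) q (Λ i₀ q / r))) =
      pstate a c Λ i₀ p q r 0 0 (1 / r) := by
    funext i x j
    by_cases hi : i = i₀
    · subst hi
      by_cases hjp : j = p
      · subst hjp
        rw [pstate_self_p]
        simp only [dstate, Function.update_self, Function.update_of_ne hpq]
        push_cast
        ring
      · by_cases hjq : j = q
        · subst hjq
          rw [pstate_self_q _ _ _ _ _ _ hpq]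
          simp only [dstate, Function.update_self]
          push_cast
          ring
        · rw [pstate_self_other _ _ _ _ _ _ _ _ _ _ _ hjp hjq]
          simp only [dstate, Function.update_self, Function.update_of_ne hjp,
            Function.update_of_ne hjq]
    · rw [pstate_of_ne _ _ _ _ _ _ _ _ _ _ hi]
      simp only [dstate, Function.update_of_ne hi]
  rw [e0, e4]
  exact (((Relation.ReflTransGen.single s1).tail s2).tail s3).tail s4

end Crest.Agent.S0170.Helper18
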