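import Crest.Agent.Lib.S0170.Defs

/-!
# S0170, module M5 (analysis half): tensor-product fields

`tensorTerm j T F (t, x) = T t * F 0 (x 0) * F 1 (x 1) * F 2 (x 2) • e_j`.
Mixed derivatives of such a field are again tensor terms (differentiate the matching factor),
and the field is `Effective` when the factors are `Eff1`.
-/

set_option autoImplicit false

namespace Crest.Agent.S0170.Helper26

open Crest.AnalysisR.BoxFlow
open scoped ContDiff

/-- the scalar coefficient of a tensor term -/
noncomputable def coeff (T : ℝ → ℝ) (F : Fin 3 → ℝ → ℝ) (p : ℝ × V) : ℝ :=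
  T p.1 * (F 0 (p.2 0) * F 1 (p.2 1) * F 2 (p.2 2))

theorem tensorTerm_eq (j : Fin 3) (T : ℝ → ℝ) (F : Fin 3 → ℝ → ℝ) (p : ℝ × V) :
    tensorTerm j T F p = Pi.single j (coeff T F p) := by
  simp [tensorTerm, coeff, Fin.prod_univ_three]

theorem coeff_contDiff {T : ℝ → ℝ} {F : Fin 3 → ℝ → ℝ}
    (hT : ContDiff ℝ ∞ T) (hF : ∀ i, ContDiff ℝ ∞ (F i)) : ContDiff ℝ ∞ (coeff T F) := by
  unfold coeff
  have h1 : ContDiff ℝ ∞ (fun p : ℝ × V => T p.1) := hT.comp contDiff_fst
  have h2 : ∀ i : Fin 3, ContDiff ℝ ∞ (fun p : ℝ × V => F i (p.2 i)) := fun i =>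
    (hF i).comp ((contDiff_apply ℝ ℝ i).comp contDiff_snd)
  exact h1.mul (((h2 0).mul (h2 1)).mul (h2 2))

theorem tensorTerm_contDiff (j : Fin 3) {T : ℝ → ℝ} {F : Fin 3 → ℝ → ℝ}
    (hT : ContDiff ℝ ∞ T) (hF : ∀ i, ContDiff ℝ ∞ (F i)) : ContDiff ℝ ∞ (tensorTerm j T F) := by
  have h : tensorTerm j T F = fun p => Pi.single j (coeff T F p) := by
    funext p; exact tensorTerm_eq j T F p
  rw [h, contDiff_pi]
  intro i
  by_cases hij : i = j
  · subst hij
    simpa using coeff_contDiff hT hF
  · simp only [Pi.single_apply, if_neg hij]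
    exact contDiff_const

/-- derivative of a tensor term in the time direction -/
theorem fderiv_tensorTerm_time (j : Fin 3) {T : ℝ → ℝ} {F : Fin 3 → ℝ → ℝ}
    (hT : ContDiff ℝ ∞ T) (hF : ∀ i, ContDiff ℝ ∞ (F i)) (p : ℝ × V) :
    fderiv ℝ (tensorTerm j T F) p (direction 0) = tensorTerm j (deriv T) F p := by
  have hdiff : DifferentiableAt ℝ (tensorTerm j T F) p :=
    ((tensorTerm_contDiff j hT hF).differentiable (by simp)) p
  rw [← hdiff.lineDeriv_eq_fderiv]
  have hd : direction 0 = ((1 : ℝ), (0 : V)) := by simp [direction]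
  rw [hd]
  have hT' : HasDerivAt T (deriv T p.1) p.1 :=
    ((hT.differentiable (by simp)) p.1).hasDerivAt
  have key : HasDerivAt (fun s : ℝ => tensorTerm j T F (p + s • ((1 : ℝ), (0 : V))))
      (tensorTerm j (deriv T) F p) 0 := by
    have e1 : (fun s : ℝ => tensorTerm j T F (p + s • ((1 : ℝ), (0 : V)))) =
        fun s : ℝ => Pi.single j (T (p.1 + s) * (F 0 (p.2 0) * F 1 (p.2 1) * F 2 (p.2 2))) := by
      funext s
      rw [tensorTerm_eq]
      simp [coeff]
    rw [e1, tensorTerm_eq, hasDerivAt_pi]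
    intro i
    by_cases hij : i = j
    · subst hij
      simp only [Pi.single_eq_same, coeff]
      have h1 : HasDerivAt (fun s : ℝ => T (p.1 + s)) (deriv T p.1) 0 := by
        have h3 : HasDerivAt T (deriv T p.1) (p.1 + 0) := by simpa using hT'
        exact h3.comp_const_add p.1 0
      exact h1.mul_const _
    · simp only [Pi.single_apply, if_neg hij]
      exact hasDerivAt_const _ _
  exact HasLineDerivAt.lineDeriv key

/-- replace the `k`-th factor by its derivative -/
noncomputable def derivAt (k : Fin 3) (F : Fin 3 → ℝ → ℝ) : Fin 3 → ℝ → ℝ :=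
  fun i => if i = k then deriv (F i) else F i

/-- derivative of a tensor term in the `k`-th space direction -/
theorem fderiv_tensorTerm_space (j : Fin 3) {T : ℝ → ℝ} {F : Fin 3 → ℝ → ℝ}
    (hT : ContDiff ℝ ∞ T) (hF : ∀ i, ContDiff ℝ ∞ (F i)) (k : Fin 3) (p : ℝ × V) :
    fderiv ℝ (tensorTerm j T F) p (direction k.succ) = tensorTerm j T (derivAt k F) p := by
  have hdiff : DifferentiableAt ℝ (tensorTerm j T F) p :=
    ((tensorTerm_contDiff j hT hF).differentiable (by simp)) p
  rw [← hdiff.lineDeriv_eq_fderiv]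
  have hd : direction k.succ = ((0 : ℝ), (Pi.single k 1 : V)) := by
    simp [direction, Fin.succ_ne_zero]
  rw [hd]
  have hF' : ∀ i : Fin 3, HasDerivAt (fun s : ℝ => F i (p.2 i + s)) (deriv (F i) (p.2 i)) 0 := by
    intro i
    have h3 : HasDerivAt (F i) (deriv (F i) (p.2 i)) (p.2 i + 0) := by
      simpa using (((hF i).differentiable (by simp)) (p.2 i)).hasDerivAt
    exact h3.comp_const_add (p.2 i) 0
  have key : HasDerivAt (fun s : ℝ => tensorTerm j T F (p + s • ((0 : ℝ), (Pi.single k 1 : V))))
      (tensorTerm j T (derivAt k F) p) 0 := by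
    have e1 : (fun s : ℝ => tensorTerm j T F (p + s • ((0 : ℝ), (Pi.single k 1 : V)))) =
        fun s : ℝ => Pi.single j (T p.1 * (F 0 (p.2 0 + s * (Pi.single k 1 : V) 0) *
          F 1 (p.2 1 + s * (Pi.single k 1 : V) 1) * F 2 (p.2 2 + s * (Pi.single k 1 : V) 2))) := by
      funext s
      rw [tensorTerm_eq]
      simp [coeff]
    rw [e1, tensorTerm_eq, hasDerivAt_pi]
    intro i
    by_cases hij : i = j
    · subst hij
      simp only [Pi.single_eq_same, coeff]
      fin_cases k
      · have := ((hF' 0).mul_const (F 1 (p.2 1))).mul_const (F 2 (p.2 2))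
        have := this.const_mul (T p.1)
        simpa [derivAt] using this
      · have := ((hF' 1).const_mul (F 0 (p.2 0))).mul_const (F 2 (p.2 2))
        have := this.const_mul (T p.1)
        simpa [derivAt] using this
      · have := (hF' 2).const_mul (F 0 (p.2 0) * F 1 (p.2 1))
        have := this.const_mul (T p.1)
        simpa [derivAt] using this
    · simp only [Pi.single_apply, if_neg hij]
      exact hasDerivAt_const _ _
  exact HasLineDerivAt.lineDeriv key

theorem contDiff_iteratedDeriv {f : ℝ → ℝ} (hf : ContDiff ℝ ∞ f) (n : ℕ) :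
    ContDiff ℝ ∞ (iteratedDeriv n f) := by
  rw [iteratedDeriv_eq_iterate]
  exact ContDiff.iterate_deriv n hf

/-- derivative of a tensor term in a space-time direction: differentiate the matching factor -/
theorem mixedDeriv_tensorTerm (ds : List (Fin 4)) (j : Fin 3) {T : ℝ → ℝ} {F : Fin 3 → ℝ → ℝ}
    (hT : ContDiff ℝ ∞ T) (hF : ∀ i, ContDiff ℝ ∞ (F i)) :
    mixedDeriv ds (tensorTerm j T F) =
      tensorTerm j (iteratedDeriv (ds.count 0) T) (fun i => iteratedDeriv (ds.count i.succ) (F i)) := by
  induction ds with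
  | nil =>
    simp [mixedDeriv, iteratedDeriv_zero]
  | cons d ds ih =>
    have hT' := contDiff_iteratedDeriv hT (ds.count 0)
    have hF' : ∀ i : Fin 3, ContDiff ℝ ∞ (iteratedDeriv (ds.count i.succ) (F i)) :=
      fun i => contDiff_iteratedDeriv (hF i) _
    funext p
    show fderiv ℝ (mixedDeriv ds (tensorTerm j T F)) p (direction d) = _
    rw [ih]
    rcases Fin.eq_zero_or_eq_succ d with rfl | ⟨k, rfl⟩
    · rw [fderiv_tensorTerm_time j hT' hF']
      have h0 : ∀ i : Fin 3, (0 : Fin 4) ≠ i.succ := fun i => (Fin.succ_ne_zero i).symm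
      simp only [List.count_cons_self, iteratedDeriv_succ]
      congr 1
    · rw [fderiv_tensorTerm_space j hT' hF' k]
      have h0 : k.succ ≠ (0 : Fin 4) := Fin.succ_ne_zero k
      rw [List.count_cons_of_ne h0]
      congr 1
      funext i
      by_cases hik : i = k
      · subst hik
        simp [derivAt, iteratedDeriv_succ]
      · have : i.succ ≠ k.succ := fun h => hik (Fin.succ_injective _ h)
        simp [derivAt, hik, List.count_cons_of_ne this.symm]

/-- mixed derivatives of a smooth field are smooth -/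
theorem mixedDeriv_contDiff (ds : List (Fin 4)) {U : Field} (hU : ContDiff ℝ ∞ U) :
    ContDiff ℝ ∞ (mixedDeriv ds U) := by
  induction ds with
  | nil => exact hU
  | cons d ds ih =>
    show ContDiff ℝ ∞ (fun p => fderiv ℝ (mixedDeriv ds U) p (direction d))
    exact (ih.fderiv_right (by simp)).clm_apply contDiff_const

theorem mixedDeriv_zero (ds : List (Fin 4)) : mixedDeriv ds (0 : Field) = 0 := by
  induction ds with
  | nil => rfl
  | cons d ds ih =>
    funext p
    show fderiv ℝ (mixedDeriv ds (0 : Field)) p (direction d) = 0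
    rw [ih]
    simp

theorem mixedDeriv_add (ds : List (Fin 4)) {U W : Field} (hU : ContDiff ℝ ∞ U)
    (hW : ContDiff ℝ ∞ W) : mixedDeriv ds (U + W) = mixedDeriv ds U + mixedDeriv ds W := by
  induction ds with
  | nil => rfl
  | cons d ds ih =>
    funext p
    show fderiv ℝ (mixedDeriv ds (U + W)) p (direction d) =
      fderiv ℝ (mixedDeriv ds U) p (direction d) + fderiv ℝ (mixedDeriv ds W) p (direction d)
    have h1 : DifferentiableAt ℝ (mixedDeriv ds U) p :=
      ((mixedDeriv_contDiff ds hU).differentiable (by simp)) p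
    have h2 : DifferentiableAt ℝ (mixedDeriv ds W) p :=
      ((mixedDeriv_contDiff ds hW).differentiable (by simp)) p
    rw [ih, fderiv_add h1 h2]
    rfl

theorem mixedDeriv_add_apply (ds : List (Fin 4)) {U W : Field} (hU : ContDiff ℝ ∞ U)
    (hW : ContDiff ℝ ∞ W) (p : ℝ × V) (j : Fin 3) :
    mixedDeriv ds (U + W) p j = mixedDeriv ds U p j + mixedDeriv ds W p j := by
  rw [mixedDeriv_add ds hU hW]
  rfl

end Crest.Agent.S0170.Helper26
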