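import Crest.Agent.Lib.S0170.Helper26Tensor

/-!
# S0170, module M5 (computability half): `Effective` for tensor-product fields and sums

The computability of `+` and `*` on `ℚ` (module M1) enters as explicit hypotheses.
-/

set_option autoImplicit false

namespace Crest.Agent.S0170.Helper26

open Crest.AnalysisR.BoxFlow
open scoped ContDiff

/-! ### structural computability facts (independent of the coding of `ℚ`) -/

theorem computable_finArrow_mk {α σ : Type} [Primcodable α] [Primcodable σ] {n : ℕ}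
    {f : α → Fin n → σ} (hf : ∀ j, Computable (fun a => f a j)) : Computable f :=
  (Primrec.vector_get'.to_comp.comp (Computable.vector_ofFn hf)).of_eq fun a => by
    funext i; simp

theorem computable_finArrow_app {α σ : Type} [Primcodable α] [Primcodable σ] {n : ℕ}
    {f : α → Fin n → σ} (hf : Computable f) (j : Fin n) : Computable (fun a => f a j) :=
  Computable.fin_app.comp hf (Computable.const j)

theorem computable_count {α : Type} [Primcodable α] {f : α → List (Fin 4)} (hf : Computable f)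
    (d : Fin 4) : Computable (fun a => (f a).count d) := by
  have h1 : PrimrecPred (fun x : Fin 4 => x = d) :=
    Primrec.eq.comp Primrec.id (Primrec.const d)
  have h2 : Primrec (fun L : List (Fin 4) => (L.filter (fun x => decide (x = d))).length) :=
    Primrec.list_length.comp (Primrec.listFilter h1)
  refine (h2.to_comp.comp hf).of_eq fun a => ?_
  rw [List.count_eq_length_filter]
  congr 2

/-! ### `Effective` for `0` and for sums -/

theorem effective_zero : Effective (0 : Field) := by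
  refine ⟨fun _ => 0, fun _ => 0, Computable.const _, Computable.const _, ?_, ?_⟩
  · intro ds t q n j
    rw [mixedDeriv_zero]
    simp
    positivity
  · intro ds p j
    rw [mixedDeriv_zero]
    simp

theorem effective_add_of (hadd : Computable₂ (fun a b : ℚ => a + b)) {U W : Field}
    (hU : ContDiff ℝ ∞ U) (hW : ContDiff ℝ ∞ W)
    (eU : Effective U) (eW : Effective W) : Effective (U + W) := by
  obtain ⟨EU, bU, hEU, hbU, eEU, ebU⟩ := eU
  obtain ⟨EW, bW, hEW, hbW, eEW, ebW⟩ := eW
  -- the refined precision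
  have hN : Computable (fun x : List (Fin 4) × (ℚ × (Fin 3 → ℚ)) × ℕ =>
      (x.1, x.2.1, 2 * x.2.2 + 1)) := by
    refine Computable.pair Computable.fst (Computable.pair (Computable.fst.comp Computable.snd) ?_)
    have h2 : Computable (fun x : List (Fin 4) × (ℚ × (Fin 3 → ℚ)) × ℕ => x.2.2) :=
      Computable.snd.comp Computable.snd
    exact (Primrec.succ.to_comp).comp
      ((Primrec.nat_mul.to_comp).comp (Computable.const 2) h2)
  refine ⟨fun x j => EU (x.1, x.2.1, 2 * x.2.2 + 1) j + EW (x.1, x.2.1, 2 * x.2.2 + 1) j,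
    fun ds => bU ds + bW ds, ?_, ?_, ?_, ?_⟩
  · refine computable_finArrow_mk fun j => ?_
    exact hadd.comp (computable_finArrow_app (hEU.comp hN) j)
      (computable_finArrow_app (hEW.comp hN) j)
  · exact (Primrec.nat_add.to_comp).comp hbU hbW
  · intro ds t q n j
    rw [mixedDeriv_add_apply ds hU hW]
    have h1 := eEU ds t q (2 * n + 1) j
    have h2 := eEW ds t q (2 * n + 1) j
    have hn : (0 : ℝ) < (n : ℝ) + 1 := by positivity
    have e : (1 : ℝ) / ((((2 * n + 1 : ℕ) : ℝ)) + 1) = 1 / ((n : ℝ) + 1) / 2 := by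
      push_cast
      field_simp
      ring
    rw [e] at h1 h2
    push_cast
    calc |mixedDeriv ds U ((t : ℝ), ratPoint q) j + mixedDeriv ds W ((t : ℝ), ratPoint q) j -
          ((EU (ds, (t, q), 2 * n + 1) j : ℝ) + (EW (ds, (t, q), 2 * n + 1) j : ℝ))|
        = |(mixedDeriv ds U ((t : ℝ), ratPoint q) j - (EU (ds, (t, q), 2 * n + 1) j : ℝ)) +
          (mixedDeriv ds W ((t : ℝ), ratPoint q) j - (EW (ds, (t, q), 2 * n + 1) j : ℝ))| := by
          congr 1; ring
      _ ≤ 1 / ((n : ℝ) + 1) / 2 + 1 / ((n : ℝ) + 1) / 2 := (abs_add_le _ _).trans (add_le_add h1 h2)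
      _ = 1 / ((n : ℝ) + 1) := by ring
  · intro ds p j
    rw [mixedDeriv_add_apply ds hU hW]
    push_cast
    exact (abs_add_le _ _).trans (add_le_add (ebU ds p j) (ebW ds p j))

/-! ### products of approximations -/

theorem abs_mul_le_mul {x y X Y : ℝ} (hx : |x| ≤ X) (hy : |y| ≤ Y) : |x * y| ≤ X * Y := by
  rw [abs_mul]
  exact mul_le_mul hx hy (abs_nonneg _) ((abs_nonneg _).trans hx)

/-- one step of the product estimate: `B ≥ 1` bounds `a` and `D` bounds `γ`. -/
theorem approx_mul_step {a α c γ B D δ K : ℝ} (hδ : 0 ≤ δ) (hB : 1 ≤ B)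
    (ha : |a| ≤ B) (haα : |a - α| ≤ δ) (hγ : |γ| ≤ D) (hcγ : |c - γ| ≤ K * δ * D) :
    |a * c - α * γ| ≤ (K + 1) * δ * (B * D) := by
  have hD : 0 ≤ D := (abs_nonneg _).trans hγ
  have e : a * c - α * γ = a * (c - γ) + (a - α) * γ := by ring
  rw [e]
  have h1 : |a * (c - γ)| ≤ B * (K * δ * D) := abs_mul_le_mul ha hcγ
  have h2 : |(a - α) * γ| ≤ δ * D := abs_mul_le_mul haα hγ
  have h3 : δ * D ≤ δ * (B * D) := by
    have : D ≤ B * D := by nlinarith
    exact mul_le_mul_of_nonneg_left this hδ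
  calc |a * (c - γ) + (a - α) * γ| ≤ |a * (c - γ)| + |(a - α) * γ| := abs_add_le _ _
    _ ≤ B * (K * δ * D) + δ * (B * D) := add_le_add h1 (h2.trans h3)
    _ = (K + 1) * δ * (B * D) := by ring

/-- the product of four approximations -/
theorem approx_prod4 {a0 a1 a2 a3 α0 α1 α2 α3 b0 b1 b2 b3 δ : ℝ}
    (hδ0 : 0 ≤ δ) (hδ1 : δ ≤ 1)
    (h0 : |a0| ≤ b0) (h1 : |a1| ≤ b1) (h2 : |a2| ≤ b2) (h3 : |a3| ≤ b3)
    (e0 : |a0 - α0| ≤ δ) (e1 : |a1 - α1| ≤ δ) (e2 : |a2 - α2| ≤ δ) (e3 : |a3 - α3| ≤ δ) :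
    |a0 * (a1 * a2 * a3) - α0 * (α1 * α2 * α3)| ≤
      4 * δ * ((b0 + 1) * ((b1 + 1) * (b2 + 1) * (b3 + 1))) := by
  have p0 : 0 ≤ b0 := (abs_nonneg _).trans h0
  have p1 : 0 ≤ b1 := (abs_nonneg _).trans h1
  have p2 : 0 ≤ b2 := (abs_nonneg _).trans h2
  have p3 : 0 ≤ b3 := (abs_nonneg _).trans h3
  have key : ∀ {a α b : ℝ}, |a| ≤ b → |a - α| ≤ δ → |α| ≤ b + 1 := by
    intro a α b hab haα
    have : α = a - (a - α) := by ring
    rw [this]
    calc |a - (a - α)| ≤ |a| + |a - α| := abs_sub _ _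
      _ ≤ b + 1 := add_le_add hab (haα.trans hδ1)
  have g1 := key h1 e1
  have g2 := key h2 e2
  have g3 := key h3 e3
  -- two factors
  have s3 : |a3 - α3| ≤ 1 * δ * (b3 + 1) := by
    refine e3.trans ?_
    nlinarith
  have s23 : |a2 * a3 - α2 * α3| ≤ (1 + 1) * δ * ((b2 + 1) * (b3 + 1)) :=
    approx_mul_step hδ0 (by linarith) (h2.trans (by linarith)) e2 g3 s3
  have g23 : |α2 * α3| ≤ (b2 + 1) * (b3 + 1) := abs_mul_le_mul g2 g3
  have s123 : |a1 * (a2 * a3) - α1 * (α2 * α3)| ≤
      (1 + 1 + 1) * δ * ((b1 + 1) * ((b2 + 1) * (b3 + 1))) :=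
    approx_mul_step hδ0 (by linarith) (h1.trans (by linarith)) e1 g23 s23
  have g123 : |α1 * (α2 * α3)| ≤ (b1 + 1) * ((b2 + 1) * (b3 + 1)) := abs_mul_le_mul g1 g23
  have s0123 : |a0 * (a1 * (a2 * a3)) - α0 * (α1 * (α2 * α3))| ≤
      (1 + 1 + 1 + 1) * δ * ((b0 + 1) * ((b1 + 1) * ((b2 + 1) * (b3 + 1)))) :=
    approx_mul_step hδ0 (by linarith) (h0.trans (by linarith)) e0 g123 s123
  have e : a0 * (a1 * a2 * a3) - α0 * (α1 * α2 * α3) =
      a0 * (a1 * (a2 * a3)) - α0 * (α1 * (α2 * α3)) := by ring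
  rw [e]
  refine s0123.trans (le_of_eq ?_)
  ring

/-! ### `Effective` for tensor terms -/

theorem tensorTerm_effective_of (hmul : Computable₂ (fun a b : ℚ => a * b)) (j : Fin 3)
    {T : ℝ → ℝ} {F : Fin 3 → ℝ → ℝ} (hT : Eff1 T) (hF : ∀ i, Eff1 (F i)) :
    Effective (tensorTerm j T F) := by
  obtain ⟨cT, AT, BT, hAT, hBT, eT, bT⟩ := hT
  have cF : ∀ i, ContDiff ℝ ∞ (F i) := fun i => (hF i).1
  choose AF BF hAF hBF eF bF using fun i => (hF i).2
  -- notation for the input type
  let X : Type := List (Fin 4) × (ℚ × (Fin 3 → ℚ)) × ℕ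
  -- the product of the bounds (+1)
  let P : List (Fin 4) → ℕ := fun ds =>
    (BT (ds.count 0) + 1) * ((BF 0 (ds.count (Fin.succ 0)) + 1) *
      (BF 1 (ds.count (Fin.succ 1)) + 1) * (BF 2 (ds.count (Fin.succ 2)) + 1))
  let N : X → ℕ := fun x => 4 * (x.2.2 + 1) * P x.1
  let val : X → ℚ := fun x =>
    AT (x.1.count 0, x.2.1.1, N x) *
      (AF 0 (x.1.count (Fin.succ 0), x.2.1.2 0, N x) *
        AF 1 (x.1.count (Fin.succ 1), x.2.1.2 1, N x) *
        AF 2 (x.1.count (Fin.succ 2), x.2.1.2 2, N x))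
  let bd : List (Fin 4) → ℕ := fun ds =>
    BT (ds.count 0) * (BF 0 (ds.count (Fin.succ 0)) *
      BF 1 (ds.count (Fin.succ 1)) * BF 2 (ds.count (Fin.succ 2)))
  -- computability
  have nmul := Primrec.nat_mul.to_comp
  have nadd := Primrec.nat_add.to_comp
  have hcnt : ∀ d : Fin 4, Computable (fun ds : List (Fin 4) => ds.count d) :=
    fun d => computable_count Computable.id d
  have hP : Computable P := by
    have hb0 : Computable (fun ds : List (Fin 4) => BT (ds.count 0) + 1) :=
      Primrec.succ.to_comp.comp (hBT.comp (hcnt 0))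
    have hb : ∀ i : Fin 3, Computable (fun ds : List (Fin 4) => BF i (ds.count (Fin.succ i)) + 1) :=
      fun i => Primrec.succ.to_comp.comp ((hBF i).comp (hcnt _))
    exact nmul.comp hb0 (nmul.comp (nmul.comp (hb 0) (hb 1)) (hb 2))
  have hbd : Computable bd := by
    have hb0 : Computable (fun ds : List (Fin 4) => BT (ds.count 0)) := hBT.comp (hcnt 0)
    have hb : ∀ i : Fin 3, Computable (fun ds : List (Fin 4) => BF i (ds.count (Fin.succ i))) :=
      fun i => (hBF i).comp (hcnt _)
    exact nmul.comp hb0 (nmul.comp (nmul.comp (hb 0) (hb 1)) (hb 2))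
  have hds : Computable (fun x : X => x.1) := Computable.fst
  have hn : Computable (fun x : X => x.2.2) := Computable.snd.comp Computable.snd
  have ht : Computable (fun x : X => x.2.1.1) :=
    Computable.fst.comp (Computable.fst.comp Computable.snd)
  have hq : ∀ i : Fin 3, Computable (fun x : X => x.2.1.2 i) := fun i =>
    computable_finArrow_app (Computable.snd.comp (Computable.fst.comp Computable.snd)) i
  have hN : Computable N :=
    nmul.comp (nmul.comp (Computable.const 4) (Primrec.succ.to_comp.comp hn)) (hP.comp hds)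
  have hc : ∀ d : Fin 4, Computable (fun x : X => x.1.count d) :=
    fun d => computable_count hds d
  have hval : Computable val := by
    have h0 : Computable (fun x : X => AT (x.1.count 0, x.2.1.1, N x)) :=
      hAT.comp (Computable.pair (hc 0) (Computable.pair ht hN))
    have h : ∀ i : Fin 3, Computable (fun x : X => AF i (x.1.count (Fin.succ i), x.2.1.2 i, N x)) :=
      fun i => (hAF i).comp (Computable.pair (hc _) (Computable.pair (hq i) hN))
    exact hmul.comp h0 (hmul.comp (hmul.comp (h 0) (h 1)) (h 2))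
  refine ⟨fun x => Pi.single j (val x), bd, ?_, hbd, ?_, ?_⟩
  · refine computable_finArrow_mk fun j' => ?_
    by_cases hj : j' = j
    · subst hj
      simpa using hval
    · simp only [Pi.single_apply, if_neg hj]
      exact Computable.const 0
  · intro ds t q n j'
    rw [mixedDeriv_tensorTerm ds j cT cF, tensorTerm_eq]
    by_cases hj : j' = j
    · subst hj
      simp only [Pi.single_eq_same, coeff, ratPoint]
      -- the precision
      set M : ℕ := N (ds, (t, q), n) with hM
      have hPpos : (1 : ℝ) ≤ (P ds : ℝ) := by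
        have : 1 ≤ P ds := Nat.succ_le_of_lt (by positivity)
        exact_mod_cast this
      have hδ0 : (0 : ℝ) ≤ 1 / ((M : ℝ) + 1) := by positivity
      have hδ1 : (1 : ℝ) / ((M : ℝ) + 1) ≤ 1 := by
        rw [div_le_one (by positivity)]
        have : (0 : ℝ) ≤ (M : ℝ) := Nat.cast_nonneg _
        linarith
      have main := approx_prod4 hδ0 hδ1 (bT (ds.count 0) (t : ℝ))
        (bF 0 (ds.count (Fin.succ 0)) ((q 0 : ℚ) : ℝ))
        (bF 1 (ds.count (Fin.succ 1)) ((q 1 : ℚ) : ℝ))
        (bF 2 (ds.count (Fin.succ 2)) ((q 2 : ℚ) : ℝ))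
        (eT (ds.count 0) t M) (eF 0 (ds.count (Fin.succ 0)) (q 0) M)
        (eF 1 (ds.count (Fin.succ 1)) (q 1) M) (eF 2 (ds.count (Fin.succ 2)) (q 2) M)
      have hcast : ((val (ds, (t, q), n) : ℚ) : ℝ) =
          (AT (ds.count 0, t, M) : ℝ) * ((AF 0 (ds.count (Fin.succ 0), q 0, M) : ℝ) *
            (AF 1 (ds.count (Fin.succ 1), q 1, M) : ℝ) *
            (AF 2 (ds.count (Fin.succ 2), q 2, M) : ℝ)) := by
        simp only [val]
        push_cast
        rfl
      rw [hcast]
      refine main.trans ?_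
      have hMeq : (M : ℝ) = 4 * ((n : ℝ) + 1) * (P ds : ℝ) := by
        rw [hM]
        simp only [N]
        push_cast
        ring
      have hPeq : ((BT (ds.count 0) : ℝ) + 1) * (((BF 0 (ds.count (Fin.succ 0)) : ℝ) + 1) *
          ((BF 1 (ds.count (Fin.succ 1)) : ℝ) + 1) * ((BF 2 (ds.count (Fin.succ 2)) : ℝ) + 1)) =
          (P ds : ℝ) := by
        simp only [P]
        push_cast
        ring
      rw [hPeq, hMeq]
      have hn0 : (0 : ℝ) < (n : ℝ) + 1 := by positivity
      have hP0 : (0 : ℝ) < (P ds : ℝ) := by linarith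
      have e : 4 * (1 / (4 * ((n : ℝ) + 1) * (P ds : ℝ) + 1)) * (P ds : ℝ) =
          (4 * (P ds : ℝ)) / (4 * ((n : ℝ) + 1) * (P ds : ℝ) + 1) := by ring
      rw [e, div_le_div_iff₀ (by positivity) hn0]
      nlinarith [mul_pos hn0 hP0]
    · simp only [Pi.single_apply, if_neg hj]
      simp
      positivity
  · intro ds p j'
    rw [mixedDeriv_tensorTerm ds j cT cF, tensorTerm_eq]
    by_cases hj : j' = j
    · subst hj
      simp only [Pi.single_eq_same, coeff, bd]
      push_cast
      exact abs_mul_le_mul (bT _ _) (abs_mul_le_mul (abs_mul_le_mul (bF 0 _ _) (bF 1 _ _)) (bF 2 _ _))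
    · simp only [Pi.single_apply, if_neg hj]
      simp

end Crest.Agent.S0170.Helper26
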