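import Mathlib

/-!
# S0170, module M1b: computability (primitive recursiveness) of integer arithmetic

`Primcodable ℤ` is `Primcodable.ofDenumerable ℤ` with `Denumerable.int`
(`encode (n : ℤ) = 2 * n`, `encode (Int.negSucc n) = 2 * n + 1`).  Everything is done through
the positive part `Int.toNat z`, the negative part `Int.toNat (-z)` and the difference
`(m : ℤ) - (n : ℤ)` of naturals.
-/

set_option autoImplicit false

namespace Crest.Agent.S0170.Helper35

open Denumerable Encodable

lemma encode_int_ofNat (k : ℕ) : encode ((k : ℤ)) = 2 * k := rfl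

lemma encode_int_negSucc (k : ℕ) : encode (Int.negSucc k) = 2 * k + 1 := rfl

lemma ofNat_int_even (k : ℕ) : ofNat ℤ (2 * k) = (k : ℤ) := by
  rw [← encode_int_ofNat, ofNat_encode]

lemma ofNat_int_odd (k : ℕ) : ofNat ℤ (2 * k + 1) = Int.negSucc k := by
  rw [← encode_int_negSucc, ofNat_encode]

/-- the natural-number cast `ℕ → ℤ` is primitive recursive -/
theorem primrec_int_ofNat : Primrec (fun n : ℕ => (n : ℤ)) :=
  Primrec.encode_iff.1 (Primrec.nat_double.of_eq fun n => (encode_int_ofNat n).symm)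

theorem primrec_int_negSucc : Primrec Int.negSucc :=
  Primrec.encode_iff.1 (Primrec.nat_double_succ.of_eq fun n => (encode_int_negSucc n).symm)

lemma primrec_nat_even : PrimrecPred (fun n : ℕ => n % 2 = 0) :=
  Primrec.eq.comp (Primrec.nat_mod.comp Primrec.id (Primrec.const 2)) (Primrec.const 0)

/-- positive part -/
theorem primrec_int_toNat : Primrec Int.toNat := by
  refine Primrec.ofNat_iff.2 ?_
  have h : Primrec (fun n : ℕ => if n % 2 = 0 then n / 2 else 0) :=
    Primrec.ite primrec_nat_even (Primrec.nat_div.comp Primrec.id (Primrec.const 2))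
      (Primrec.const 0)
  refine h.of_eq fun n => ?_
  rcases Nat.even_or_odd' n with ⟨k, rfl | rfl⟩
  · rw [ofNat_int_even]; simp
  · rw [ofNat_int_odd]
    simp

/-- negative part -/
theorem primrec_int_negPart : Primrec (fun z : ℤ => (-z).toNat) := by
  refine Primrec.ofNat_iff.2 ?_
  have h : Primrec (fun n : ℕ => if n % 2 = 0 then 0 else n / 2 + 1) :=
    Primrec.ite primrec_nat_even (Primrec.const 0)
      (Primrec.succ.comp (Primrec.nat_div.comp Primrec.id (Primrec.const 2)))
  refine h.of_eq fun n => ?_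
  rcases Nat.even_or_odd' n with ⟨k, rfl | rfl⟩
  · rw [ofNat_int_even]; simp
  · rw [ofNat_int_odd]
    have h1 : (2 * k + 1) % 2 ≠ 0 := by omega
    have h2 : (2 * k + 1) / 2 = k := by omega
    simp only [h1, if_false, h2]
    rw [Int.neg_negSucc]
    omega

/-- difference of two naturals as an integer -/
theorem primrec_int_subNat : Primrec₂ (fun m n : ℕ => (m : ℤ) - (n : ℤ)) := by
  refine Primrec₂.encode_iff.1 ?_
  have h : Primrec (fun p : ℕ × ℕ =>
      if p.2 ≤ p.1 then 2 * (p.1 - p.2) else 2 * (p.2 - p.1 - 1) + 1) :=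
    Primrec.ite (Primrec.nat_le.comp Primrec.snd Primrec.fst)
      (Primrec.nat_double.comp (Primrec.nat_sub.comp Primrec.fst Primrec.snd))
      (Primrec.nat_double_succ.comp
        (Primrec.nat_sub.comp (Primrec.nat_sub.comp Primrec.snd Primrec.fst) (Primrec.const 1)))
  have h : Primrec₂ (fun m n : ℕ => if n ≤ m then 2 * (m - n) else 2 * (n - m - 1) + 1) := h
  refine h.of_eq fun m n => ?_
  by_cases hnm : n ≤ m
  · rw [if_pos hnm]
    have : (m : ℤ) - (n : ℤ) = ((m - n : ℕ) : ℤ) := by omega
    rw [this, encode_int_ofNat]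
  · rw [if_neg hnm]
    have : (m : ℤ) - (n : ℤ) = Int.negSucc (n - m - 1) := by
      rw [Int.negSucc_eq]; omega
    rw [this, encode_int_negSucc]

lemma int_eq_parts (a : ℤ) : a = (a.toNat : ℤ) - ((-a).toNat : ℤ) := by omega

theorem primrec_int_neg : Primrec (fun a : ℤ => -a) := by
  have h : Primrec (fun a : ℤ => (((-a).toNat : ℕ) : ℤ) - ((a.toNat : ℕ) : ℤ)) :=
    primrec_int_subNat.comp primrec_int_negPart primrec_int_toNat
  exact h.of_eq fun a => by omega

theorem primrec_int_add : Primrec₂ (fun a b : ℤ => a + b) := by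
  have hp : Primrec₂ (fun a b : ℤ => a.toNat + b.toNat) :=
    Primrec.nat_add.comp₂ (primrec_int_toNat.comp₂ Primrec₂.left)
      (primrec_int_toNat.comp₂ Primrec₂.right)
  have hn : Primrec₂ (fun a b : ℤ => (-a).toNat + (-b).toNat) :=
    Primrec.nat_add.comp₂ (primrec_int_negPart.comp₂ Primrec₂.left)
      (primrec_int_negPart.comp₂ Primrec₂.right)
  have h : Primrec₂ (fun a b : ℤ =>
      ((a.toNat + b.toNat : ℕ) : ℤ) - (((-a).toNat + (-b).toNat : ℕ) : ℤ)) :=
    primrec_int_subNat.comp₂ hp hn
  exact h.of_eq fun a b => by omega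

theorem primrec_int_mul : Primrec₂ (fun a b : ℤ => a * b) := by
  have p1 : Primrec₂ (fun a _b : ℤ => a.toNat) := primrec_int_toNat.comp₂ Primrec₂.left
  have p2 : Primrec₂ (fun _a b : ℤ => b.toNat) := primrec_int_toNat.comp₂ Primrec₂.right
  have n1 : Primrec₂ (fun a _b : ℤ => (-a).toNat) := primrec_int_negPart.comp₂ Primrec₂.left
  have n2 : Primrec₂ (fun _a b : ℤ => (-b).toNat) := primrec_int_negPart.comp₂ Primrec₂.right
  have hp : Primrec₂ (fun a b : ℤ => a.toNat * b.toNat + (-a).toNat * (-b).toNat) :=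
    Primrec.nat_add.comp₂ (Primrec.nat_mul.comp₂ p1 p2) (Primrec.nat_mul.comp₂ n1 n2)
  have hn : Primrec₂ (fun a b : ℤ => a.toNat * (-b).toNat + (-a).toNat * b.toNat) :=
    Primrec.nat_add.comp₂ (Primrec.nat_mul.comp₂ p1 n2) (Primrec.nat_mul.comp₂ n1 p2)
  have h : Primrec₂ (fun a b : ℤ =>
      ((a.toNat * b.toNat + (-a).toNat * (-b).toNat : ℕ) : ℤ)
        - ((a.toNat * (-b).toNat + (-a).toNat * b.toNat : ℕ) : ℤ)) :=
    primrec_int_subNat.comp₂ hp hn
  refine h.of_eq fun a b => ?_
  have ha := int_eq_parts a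
  have hb := int_eq_parts b
  push_cast
  generalize (a.toNat : ℤ) = p at ha ⊢
  generalize ((-a).toNat : ℤ) = q at ha ⊢
  generalize (b.toNat : ℤ) = r at hb ⊢
  generalize ((-b).toNat : ℤ) = s at hb ⊢
  rw [ha, hb]; ring

theorem primrec_int_natAbs : Primrec (fun a : ℤ => a.natAbs) := by
  have h : Primrec (fun a : ℤ => a.toNat + (-a).toNat) :=
    Primrec.nat_add.comp primrec_int_toNat primrec_int_negPart
  exact h.of_eq fun a => by omega

theorem primrec_int_le : Primrec₂ (fun a b : ℤ => decide (a ≤ b)) := by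
  have h1 : Primrec₂ (fun a b : ℤ => a.toNat + (-b).toNat) :=
    Primrec.nat_add.comp₂ (primrec_int_toNat.comp₂ Primrec₂.left)
      (primrec_int_negPart.comp₂ Primrec₂.right)
  have h2 : Primrec₂ (fun a b : ℤ => b.toNat + (-a).toNat) :=
    Primrec.nat_add.comp₂ (primrec_int_toNat.comp₂ Primrec₂.right)
      (primrec_int_negPart.comp₂ Primrec₂.left)
  have h : Primrec₂ (fun a b : ℤ => decide (a.toNat + (-b).toNat ≤ b.toNat + (-a).toNat)) :=
    (Primrec.nat_le.comp₂ h1 h2).decide
  refine h.of_eq fun a b => ?_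
  congr 1
  apply propext
  omega

theorem primrec_int_lt : Primrec₂ (fun a b : ℤ => decide (a < b)) := by
  have h : Primrec₂ (fun a b : ℤ => !decide (b ≤ a)) :=
    Primrec.not.comp₂ primrec_int_le.swap
  refine h.of_eq fun a b => ?_
  rcases lt_or_ge a b with hlt | hge
  · simp [hlt, not_le.mpr hlt]
  · simp [hge, not_lt.mpr hge]

theorem primrec_int_sub : Primrec₂ (fun a b : ℤ => a - b) := by
  have h : Primrec₂ (fun a b : ℤ => a + -b) :=
    primrec_int_add.comp₂ Primrec₂.left (primrec_int_neg.comp₂ Primrec₂.right)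
  exact h.of_eq fun a b => by ring

/-! ### The statements of `Interface.lean`, section M1 (integer part) -/

theorem computable_int_add : Computable₂ (fun a b : ℤ => a + b) := primrec_int_add.to_comp
theorem computable_int_mul : Computable₂ (fun a b : ℤ => a * b) := primrec_int_mul.to_comp
theorem computable_int_neg : Computable (fun a : ℤ => -a) := primrec_int_neg.to_comp
theorem computable_int_natAbs : Computable (fun a : ℤ => a.natAbs) := primrec_int_natAbs.to_comp
theorem computable_int_ofNat : Computable (fun a : ℕ => (a : ℤ)) := primrec_int_ofNat.to_comp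
theorem computable_int_le : Computable₂ (fun a b : ℤ => decide (a ≤ b)) := primrec_int_le.to_comp

end Crest.Agent.S0170.Helper35
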