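import Crest.Agent.Lib.S0170.Defs

/-!
# S0170, module M3 `StpBound` (helper35's independent version; the primary one is
`Crest.Agent.Lib.S0170.Helper82StepBounds`)

`stp = Real.smoothTransition` is smooth and all its iterated derivatives are bounded by a
computable (primitive recursive) function of the order.
-/

set_option autoImplicit false

namespace Crest.Agent.S0170.Helper35

open scoped ContDiff Nat
open Polynomial

namespace StpBound

/-- `h k x = x⁻¹ ^ k * expNegInvGlue x` -/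
noncomputable def h (k : ℕ) (x : ℝ) : ℝ := x⁻¹ ^ k * expNegInvGlue x

lemma h_eq (k : ℕ) : h k = fun x => (X ^ k : ℝ[X]).eval x⁻¹ * expNegInvGlue x := by
  funext x; simp [h]

lemma h_contDiff (k : ℕ) : ContDiff ℝ ∞ (h k) := by
  rw [h_eq]; exact expNegInvGlue.contDiff_polynomial_eval_inv_mul _

lemma h_zero : h 0 = expNegInvGlue := by funext x; simp [h]

lemma deriv_h (k : ℕ) : deriv (h k) = fun x => h (k + 2) x - (k : ℝ) * h (k + 1) x := by
  funext x
  have := (expNegInvGlue.hasDerivAt_polynomial_eval_inv_mul (X ^ k) x).deriv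
  rw [h_eq, this]
  cases k with
  | zero => simp [h, pow_succ]
  | succ j =>
    simp only [Polynomial.derivative_X_pow, Polynomial.eval_mul, Polynomial.eval_pow,
      Polynomial.eval_X, Polynomial.eval_sub, Polynomial.eval_C, Nat.add_sub_cancel, h]
    push_cast
    ring

lemma abs_h_le (k : ℕ) (x : ℝ) : |h k x| ≤ (k ! : ℝ) := by
  rcases le_or_gt x 0 with hx | hx
  · simp [h, expNegInvGlue.zero_of_nonpos hx]
  · have hu : 0 ≤ x⁻¹ := (inv_pos.mpr hx).le
    have h1 := Real.pow_div_factorial_le_exp x⁻¹ hu k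
    have hk : (0 : ℝ) < (k ! : ℝ) := by positivity
    rw [div_le_iff₀ hk] at h1
    simp only [h, expNegInvGlue, not_le.mpr hx, if_false]
    rw [abs_of_nonneg (by positivity), Real.exp_neg, ← div_eq_mul_inv,
      div_le_iff₀ (Real.exp_pos _)]
    linarith

lemma abs_iteratedDeriv_h_le (m : ℕ) :
    ∀ (k : ℕ) (x : ℝ), |iteratedDeriv m (h k) x| ≤ 2 ^ m * ((k + 2 * m) ! : ℝ) := by
  induction m with
  | zero => intro k x; simpa using abs_h_le k x
  | succ m ih =>
    intro k x
    rw [iteratedDeriv_succ', deriv_h]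
    have e : (fun x => h (k + 2) x - (k : ℝ) * h (k + 1) x)
        = h (k + 2) - (fun x => (k : ℝ) * h (k + 1) x) := rfl
    have c1 : ContDiffAt ℝ m (h (k + 2)) x :=
      ((h_contDiff (k + 2)).of_le (by exact_mod_cast le_top)).contDiffAt
    have c2 : ContDiffAt ℝ m (fun x => (k : ℝ) * h (k + 1) x) x :=
      (contDiff_const.mul ((h_contDiff (k + 1)).of_le (by exact_mod_cast le_top))).contDiffAt
    rw [e, iteratedDeriv_sub c1 c2, iteratedDeriv_const_mul_field]
    have h1 := ih (k + 2) x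
    have h2 := ih (k + 1) x
    have e1 : k + 2 + 2 * m = k + 2 * (m + 1) := by ring
    have e2 : k + 2 * (m + 1) = (k + 1 + 2 * m) + 1 := by ring
    rw [e1] at h1
    have hfac : ((k + 2 * (m + 1)) ! : ℝ) = ((k + 1 + 2 * m : ℕ) + 1 : ℝ) * ((k + 1 + 2 * m) ! : ℝ) := by
      rw [e2, Nat.factorial_succ]; push_cast; ring
    have hk0 : (0 : ℝ) ≤ (k : ℝ) := Nat.cast_nonneg k
    have hf0 : (0 : ℝ) ≤ ((k + 1 + 2 * m) ! : ℝ) := by positivity
    have hp0 : (0 : ℝ) < (2 : ℝ) ^ m := by positivity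
    calc |iteratedDeriv m (h (k + 2)) x - (k : ℝ) * iteratedDeriv m (h (k + 1)) x|
        ≤ |iteratedDeriv m (h (k + 2)) x| + |(k : ℝ) * iteratedDeriv m (h (k + 1)) x| :=
          abs_sub _ _
      _ = |iteratedDeriv m (h (k + 2)) x| + (k : ℝ) * |iteratedDeriv m (h (k + 1)) x| := by
          rw [abs_mul, abs_of_nonneg hk0]
      _ ≤ 2 ^ m * ((k + 2 * (m + 1)) ! : ℝ) + (k : ℝ) * (2 ^ m * ((k + 1 + 2 * m) ! : ℝ)) := by
          gcongr
      _ ≤ 2 ^ (m + 1) * ((k + 2 * (m + 1)) ! : ℝ) := by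
          rw [hfac, pow_succ]
          push_cast
          have : (k : ℝ) * (2 ^ m * ((k + 1 + 2 * m) ! : ℝ))
              ≤ ((k : ℝ) + 1 + 2 * m + 1) * (2 ^ m * ((k + 1 + 2 * m) ! : ℝ)) := by
            apply mul_le_mul_of_nonneg_right _ (by positivity)
            have : (0 : ℝ) ≤ (m : ℝ) := Nat.cast_nonneg m
            linarith
          nlinarith [this]

/-- derivative bound for `expNegInvGlue` -/
lemma abs_iteratedDeriv_glue_le (m : ℕ) (x : ℝ) :
    |iteratedDeriv m expNegInvGlue x| ≤ 2 ^ m * ((2 * m) ! : ℝ) := by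
  have := abs_iteratedDeriv_h_le m 0 x
  rwa [h_zero, zero_add] at this

/-- the denominator of `Real.smoothTransition` -/
noncomputable def D (x : ℝ) : ℝ := expNegInvGlue x + expNegInvGlue (1 - x)

lemma D_contDiff : ContDiff ℝ ∞ D :=
  expNegInvGlue.contDiff.add (expNegInvGlue.contDiff.comp (contDiff_const.sub contDiff_id))

lemma stp_mul_D : stp * D = expNegInvGlue := by
  funext x
  have := (Real.smoothTransition.pos_denom x).ne'
  simp only [Pi.mul_apply, stp, D, Real.smoothTransition]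
  field_simp

lemma exp_two_le : Real.exp 2 ≤ 8 := by
  have h1 := Real.exp_one_lt_d9
  have : Real.exp 2 = Real.exp 1 * Real.exp 1 := by rw [← Real.exp_add]; norm_num
  rw [this]; nlinarith [Real.exp_pos 1]

lemma D_ge (x : ℝ) : (1 : ℝ) / 8 ≤ D x := by
  have key : ∀ y : ℝ, (1 : ℝ) / 2 ≤ y → (1 : ℝ) / 8 ≤ expNegInvGlue y := by
    intro y hy
    have h1 : expNegInvGlue (1 / 2) ≤ expNegInvGlue y := expNegInvGlue.monotone hy
    have h2 : expNegInvGlue (1 / 2 : ℝ) = Real.exp (-2) := by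
      simp [expNegInvGlue]
    have h3 : (1 : ℝ) / 8 ≤ Real.exp (-2) := by
      rw [Real.exp_neg, one_div, inv_le_inv₀ (by norm_num) (Real.exp_pos 2)]
      exact exp_two_le
    linarith
  rcases le_total (1 / 2 : ℝ) x with hx | hx
  · have h1 := key x hx
    have h2 := expNegInvGlue.nonneg (1 - x)
    unfold D; linarith
  · have h1 := key (1 - x) (by linarith)
    have h2 := expNegInvGlue.nonneg x
    unfold D; linarith

lemma iteratedDeriv_D (j : ℕ) (x : ℝ) :
    iteratedDeriv j D x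
      = iteratedDeriv j expNegInvGlue x + (-1) ^ j * iteratedDeriv j expNegInvGlue (1 - x) := by
  have e : D = expNegInvGlue + (fun z => expNegInvGlue (1 - z)) := rfl
  have c1 : ContDiffAt ℝ j expNegInvGlue x :=
    (expNegInvGlue.contDiff (n := (j : ℕ∞))).contDiffAt
  have c2 : ContDiffAt ℝ j (fun z => expNegInvGlue (1 - z)) x :=
    ((expNegInvGlue.contDiff (n := (j : ℕ∞))).comp (contDiff_const.sub contDiff_id)).contDiffAt
  rw [e, iteratedDeriv_add c1 c2, iteratedDeriv_comp_const_sub]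
  simp

/-- abstract form of the derivative bound for `stp` -/
theorem stp_iter_bound (G B : ℕ → ℕ) (hG1 : ∀ m, 1 ≤ G m) (hmono : Monotone G)
    (hG : ∀ m x, |iteratedDeriv m expNegInvGlue x| ≤ (G m : ℝ))
    (hB0 : 1 ≤ B 0)
    (hB : ∀ m, 8 * (G (m + 1) + 2 ^ (m + 1) * (2 * G (m + 1)) * B m) ≤ B (m + 1)) :
    ∀ m, ∀ i ≤ m, ∀ x, |iteratedDeriv i stp x| ≤ (B m : ℝ) := by
  have hD : ∀ j x, |iteratedDeriv j D x| ≤ 2 * (G j : ℝ) := by
    intro j x
    rw [iteratedDeriv_D]
    have h1 := hG j x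
    have h2 := hG j (1 - x)
    calc |iteratedDeriv j expNegInvGlue x + (-1) ^ j * iteratedDeriv j expNegInvGlue (1 - x)|
        ≤ |iteratedDeriv j expNegInvGlue x| + |(-1) ^ j * iteratedDeriv j expNegInvGlue (1 - x)| :=
          abs_add_le _ _
      _ = |iteratedDeriv j expNegInvGlue x| + |iteratedDeriv j expNegInvGlue (1 - x)| := by
          rw [abs_mul, abs_pow, abs_neg, abs_one, one_pow, one_mul]
      _ ≤ 2 * (G j : ℝ) := by linarith
  have hBmono : ∀ m, B m ≤ B (m + 1) := by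
    intro m
    refine le_trans ?_ (hB m)
    have h1 := hG1 (m + 1)
    have h2 : 1 ≤ 2 ^ (m + 1) := Nat.one_le_two_pow
    have h3 : 1 * B m ≤ 2 ^ (m + 1) * (2 * G (m + 1)) * B m :=
      Nat.mul_le_mul_right _ (by nlinarith)
    omega
  intro m
  induction m with
  | zero =>
    intro i hi x
    obtain rfl : i = 0 := Nat.le_zero.mp hi
    rw [iteratedDeriv_zero]
    have h0 := Real.smoothTransition.nonneg x
    have h1 := Real.smoothTransition.le_one x
    have h2 : (1 : ℝ) ≤ (B 0 : ℝ) := by exact_mod_cast hB0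
    show |Real.smoothTransition x| ≤ _
    rw [abs_of_nonneg h0]; linarith
  | succ m ih =>
    intro i hi x
    rcases Nat.lt_or_ge i (m + 1) with hlt | hge
    · have := ih i (Nat.lt_succ_iff.mp hlt) x
      have h2 : (B m : ℝ) ≤ (B (m + 1) : ℝ) := by exact_mod_cast hBmono m
      linarith
    · obtain rfl : i = m + 1 := le_antisymm hi hge
      have c1 : ContDiffAt ℝ ((m + 1 : ℕ) : WithTop ℕ∞) stp x :=
        ((Real.smoothTransition.contDiff (n := ((m + 1 : ℕ) : ℕ∞)))).contDiffAt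
      have c2 : ContDiffAt ℝ ((m + 1 : ℕ) : WithTop ℕ∞) D x :=
        (D_contDiff.of_le (by exact_mod_cast le_top)).contDiffAt
      have hL := iteratedDeriv_mul c1 c2
      rw [stp_mul_D, Finset.sum_range_succ] at hL
      simp only [Nat.choose_self, Nat.cast_one, one_mul, Nat.sub_self, iteratedDeriv_zero] at hL
      set S := ∑ i ∈ Finset.range (m + 1),
        ((m + 1).choose i : ℝ) * iteratedDeriv i stp x * iteratedDeriv (m + 1 - i) D x with hS
      have hSb : |S| ≤ (2 : ℝ) ^ (m + 1) * ((B m : ℝ) * (2 * (G (m + 1) : ℝ))) := by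
        have h1 : |S| ≤ ∑ i ∈ Finset.range (m + 1),
            ((m + 1).choose i : ℝ) * ((B m : ℝ) * (2 * (G (m + 1) : ℝ))) := by
          refine (Finset.abs_sum_le_sum_abs _ _).trans (Finset.sum_le_sum fun i hi => ?_)
          rw [abs_mul, abs_mul, abs_of_nonneg (Nat.cast_nonneg _), mul_assoc]
          have hi' : i ≤ m := Nat.lt_succ_iff.mp (Finset.mem_range.mp hi)
          have h1 := ih i hi' x
          have h2 := hD (m + 1 - i) x
          have h3 : (G (m + 1 - i) : ℝ) ≤ (G (m + 1) : ℝ) := by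
            exact_mod_cast hmono (Nat.sub_le _ _)
          have h4 : |iteratedDeriv (m + 1 - i) D x| ≤ 2 * (G (m + 1) : ℝ) := by linarith
          have h5 : (0 : ℝ) ≤ (B m : ℝ) := Nat.cast_nonneg _
          have h6 : (0 : ℝ) ≤ ((m + 1).choose i : ℝ) := Nat.cast_nonneg _
          apply mul_le_mul_of_nonneg_left _ h6
          exact mul_le_mul h1 h4 (abs_nonneg _) h5
        have h2 : ∑ i ∈ Finset.range (m + 1), ((m + 1).choose i : ℝ) ≤ (2 : ℝ) ^ (m + 1) := by
          have h3 := Nat.sum_range_choose (m + 1)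
          have h4 : ∑ i ∈ Finset.range (m + 1), (m + 1).choose i
              ≤ ∑ i ∈ Finset.range (m + 1 + 1), (m + 1).choose i :=
            Finset.sum_le_sum_of_subset (Finset.range_mono (Nat.le_succ _))
          rw [h3] at h4
          exact_mod_cast h4
        rw [← Finset.sum_mul] at h1
        refine h1.trans (mul_le_mul_of_nonneg_right h2 ?_)
        positivity
      have hDpos : (1 : ℝ) / 8 ≤ D x := D_ge x
      have hDpos' : 0 < D x := by linarith
      have hg := hG (m + 1) x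
      have heq : iteratedDeriv (m + 1) stp x * D x = iteratedDeriv (m + 1) expNegInvGlue x - S := by
        linarith
      have habs : |iteratedDeriv (m + 1) stp x| * D x
          ≤ (G (m + 1) : ℝ) + (2 : ℝ) ^ (m + 1) * ((B m : ℝ) * (2 * (G (m + 1) : ℝ))) := by
        rw [← abs_of_pos hDpos', ← abs_mul, heq]
        exact (abs_sub _ _).trans (add_le_add hg hSb)
      have hfin : (8 * (G (m + 1) + 2 ^ (m + 1) * (2 * G (m + 1)) * B m) : ℝ) ≤ (B (m + 1) : ℝ) := by
        exact_mod_cast hB m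
      have hnn : 0 ≤ |iteratedDeriv (m + 1) stp x| := abs_nonneg _
      nlinarith

lemma primrec_pow : Primrec₂ ((· ^ ·) : ℕ → ℕ → ℕ) := Primrec₂.unpaired'.1 Nat.Primrec.pow

/-- `G m = 2 ^ m * (2 m)!`, by primitive recursion -/
def G : ℕ → ℕ := fun m => Nat.rec 1 (fun k g => 2 * ((2 * k + 1) * (2 * k + 2)) * g) m

lemma G_succ (m : ℕ) : G (m + 1) = 2 * ((2 * m + 1) * (2 * m + 2)) * G m := rfl

lemma G_eq (m : ℕ) : G m = 2 ^ m * (2 * m)! := by
  induction m with
  | zero => rfl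
  | succ m ih =>
    rw [G_succ, ih]
    have e : 2 * (m + 1) = (2 * m + 1) + 1 := by ring
    rw [e, Nat.factorial_succ, Nat.factorial_succ, pow_succ]
    ring

lemma G_pos (m : ℕ) : 1 ≤ G m := by
  rw [G_eq]; exact Nat.succ_le_of_lt (by positivity)

lemma G_mono : Monotone G := by
  refine monotone_nat_of_le_succ fun m => ?_
  rw [G_succ]
  have h1 : 1 ≤ 2 * ((2 * m + 1) * (2 * m + 2)) := by nlinarith
  calc G m = 1 * G m := (one_mul _).symm
    _ ≤ 2 * ((2 * m + 1) * (2 * m + 2)) * G m := Nat.mul_le_mul_right _ h1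

lemma primrec_G : Primrec G := by
  have h1 : Primrec₂ (fun (k _g : ℕ) => 2 * k + 1) :=
    Primrec.nat_double_succ.comp₂ Primrec₂.left
  have h2 : Primrec₂ (fun (k _g : ℕ) => 2 * k + 2) := Primrec.succ.comp₂ h1
  have h3 : Primrec₂ (fun (k _g : ℕ) => (2 * k + 1) * (2 * k + 2)) :=
    Primrec.nat_mul.comp₂ h1 h2
  have h4 : Primrec₂ (fun (k _g : ℕ) => 2 * ((2 * k + 1) * (2 * k + 2))) :=
    Primrec.nat_double.comp₂ h3
  have h5 : Primrec₂ (fun (k g : ℕ) => 2 * ((2 * k + 1) * (2 * k + 2)) * g) :=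
    Primrec.nat_mul.comp₂ h4 Primrec₂.right
  exact Primrec.nat_rec₁ 1 h5

/-- the bound for the derivatives of `stp`, by primitive recursion -/
def B : ℕ → ℕ :=
  fun m => Nat.rec 1 (fun k b => 8 * (G (k + 1) + 2 ^ (k + 1) * (2 * G (k + 1)) * b)) m

lemma B_succ (m : ℕ) :
    B (m + 1) = 8 * (G (m + 1) + 2 ^ (m + 1) * (2 * G (m + 1)) * B m) := rfl

lemma primrec_B : Primrec B := by
  have hG1 : Primrec₂ (fun (k _b : ℕ) => G (k + 1)) :=
    (primrec_G.comp Primrec.succ).comp₂ Primrec₂.left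
  have hp : Primrec₂ (fun (k _b : ℕ) => 2 ^ (k + 1)) :=
    primrec_pow.comp₂ (Primrec₂.const 2) (Primrec.succ.comp₂ Primrec₂.left)
  have h2G : Primrec₂ (fun (k _b : ℕ) => 2 * G (k + 1)) := Primrec.nat_double.comp₂ hG1
  have h3 : Primrec₂ (fun (k b : ℕ) => 2 ^ (k + 1) * (2 * G (k + 1)) * b) :=
    Primrec.nat_mul.comp₂ (Primrec.nat_mul.comp₂ hp h2G) Primrec₂.right
  have h4 : Primrec₂ (fun (k b : ℕ) => G (k + 1) + 2 ^ (k + 1) * (2 * G (k + 1)) * b) :=
    Primrec.nat_add.comp₂ hG1 h3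
  have h5 : Primrec₂ (fun (k b : ℕ) => 8 * (G (k + 1) + 2 ^ (k + 1) * (2 * G (k + 1)) * b)) :=
    Primrec.nat_mul.comp₂ (Primrec₂.const 8) h4
  exact Primrec.nat_rec₁ 1 h5

end StpBound

theorem stp_contDiff : ContDiff ℝ ∞ stp := by
  show ContDiff ℝ ∞ Real.smoothTransition
  exact Real.smoothTransition.contDiff

theorem stp_bound : ∃ B : ℕ → ℕ, Computable B ∧
    ∀ (m : ℕ) (x : ℝ), |iteratedDeriv m stp x| ≤ (B m : ℝ) := by
  refine ⟨StpBound.B, StpBound.primrec_B.to_comp, fun m x => ?_⟩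
  refine StpBound.stp_iter_bound StpBound.G StpBound.B StpBound.G_pos StpBound.G_mono ?_
    le_rfl (fun k => (StpBound.B_succ k).ge) m m le_rfl x
  intro k y
  have := StpBound.abs_iteratedDeriv_glue_le k y
  rw [StpBound.G_eq]
  push_cast
  exact this

end Crest.Agent.S0170.Helper35
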