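import Mathlib

/-!
# S0170, module M1 `CompQ`: computability toolkit for `ℤ` and `ℚ`

`ℤ` and `ℚ` carry the `Primcodable` instances coming from their `Denumerable` instances
(`Primcodable.ofDenumerable`).  For `ℚ` this is the "rank" encoding produced by
`Denumerable.ofEncodableOfInfinite`: the code of `q` is the number of valid codes
`Nat.pair (encode q.num) q.den` below the one of `q`.  Mathlib provides no computability
lemmas for it.  This file shows that numerator, denominator, `mkRat`, the field operations,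
the order, floor and ceiling of `ℚ` (and the ring operations and order of `ℤ`) are primitive
recursive, hence computable, for these instances.

Everything lives in the namespace `Crest.Agent.S0170.Helper51`: the auxiliary `Primrec`
statements (`primrec_*`, `primrecRel_*`) and the interface theorems `computable_*` of module M1
(with exactly the types of the S0170 interface).
-/

set_option autoImplicit false

open Encodable Denumerable

namespace Crest.Agent.S0170.Helper51

/-! ### Integers -/

theorem encode_int_ofNat (n : ℕ) : encode (n : ℤ) = 2 * n := by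
  change Equiv.intEquivNat (Int.ofNat n) = 2 * n
  rfl

theorem encode_int_negSucc (n : ℕ) : encode (Int.negSucc n) = 2 * n + 1 := by
  change Equiv.intEquivNat (Int.negSucc n) = 2 * n + 1
  simp [Equiv.intEquivNat, Equiv.intEquivNatSumNat, Equiv.natSumNatEquivNat]

theorem int_natAbs_eq (z : ℤ) : z.natAbs = (encode z + 1) / 2 := by
  rcases z with n | n
  · rw [Int.ofNat_eq_natCast, encode_int_ofNat]; simp; omega
  · rw [encode_int_negSucc]; simp; omega

theorem primrec_int_natAbs : Primrec Int.natAbs := by
  have : Primrec (fun z : ℤ => (encode z + 1) / 2) :=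
    Primrec.nat_div.comp (Primrec.succ.comp Primrec.encode) (Primrec.const 2)
  exact this.of_eq fun z => (int_natAbs_eq z).symm

theorem primrec_int_ofNat : Primrec (fun n : ℕ => (n : ℤ)) := by
  refine Primrec.encode_iff.1 ?_
  exact (Primrec.nat_double).of_eq fun n => (encode_int_ofNat n).symm

/-- `isNeg z` is `true` exactly when `z < 0`. -/
def isNeg (z : ℤ) : Bool := decide (z < 0)

theorem isNeg_eq (z : ℤ) : isNeg z = (encode z).bodd := by
  rcases z with n | n
  · rw [Int.ofNat_eq_natCast, encode_int_ofNat]; simp [isNeg]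
  · rw [encode_int_negSucc]; simp [isNeg, Int.negSucc_lt_zero]

theorem primrec_isNeg : Primrec isNeg :=
  (Primrec.nat_bodd.comp Primrec.encode).of_eq fun z => (isNeg_eq z).symm

/-- Sign–magnitude constructor: `mkInt b m = -m` if `b`, else `m`. -/
def mkInt (b : Bool) (m : ℕ) : ℤ := if b then -(m : ℤ) else m

theorem encode_mkInt (b : Bool) (m : ℕ) :
    encode (mkInt b m) = if b = true ∧ 0 < m then 2 * m - 1 else 2 * m := by
  cases b
  · simp [mkInt, encode_int_ofNat]
  · rcases m with _ | m
    · simp [mkInt]; exact encode_int_ofNat 0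
    · have : mkInt true (m + 1) = Int.negSucc m := by
        simp [mkInt, Int.negSucc_eq]
      rw [this, encode_int_negSucc]; simp; omega

theorem primrec_mkInt : Primrec₂ mkInt := by
  refine Primrec₂.encode_iff.1 ?_
  have h1 : PrimrecPred fun p : Bool × ℕ => p.1 = true ∧ 0 < p.2 :=
    (Primrec.eq.comp Primrec.fst (Primrec.const true)).and
      (Primrec.nat_lt.comp (Primrec.const 0) Primrec.snd)
  have h2 : Primrec fun p : Bool × ℕ => 2 * p.2 - 1 :=
    Primrec.nat_sub.comp (Primrec.nat_double.comp Primrec.snd) (Primrec.const 1)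
  have h3 : Primrec fun p : Bool × ℕ => 2 * p.2 := Primrec.nat_double.comp Primrec.snd
  exact (Primrec.ite h1 h2 h3).of_eq fun p => (encode_mkInt p.1 p.2).symm

theorem mkInt_isNeg_natAbs (z : ℤ) : mkInt (isNeg z) z.natAbs = z := by
  unfold mkInt isNeg
  simp only [decide_eq_true_eq]
  split_ifs <;> omega

theorem int_neg_eq (z : ℤ) : -z = mkInt (!isNeg z) z.natAbs := by
  unfold mkInt isNeg
  simp only [Bool.not_eq_true', decide_eq_false_iff_not]
  split_ifs <;> omega

theorem primrec_int_neg : Primrec (fun z : ℤ => -z) :=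
  (primrec_mkInt.comp (Primrec.not.comp primrec_isNeg) primrec_int_natAbs).of_eq
    fun z => (int_neg_eq z).symm

theorem int_add_eq (z w : ℤ) :
    z + w = if isNeg z = isNeg w then mkInt (isNeg z) (z.natAbs + w.natAbs)
      else if w.natAbs ≤ z.natAbs then mkInt (isNeg z) (z.natAbs - w.natAbs)
      else mkInt (isNeg w) (w.natAbs - z.natAbs) := by
  unfold mkInt isNeg
  simp only [decide_eq_true_eq, decide_eq_decide]
  split_ifs <;> omega

theorem primrec_int_add : Primrec₂ ((· + ·) : ℤ → ℤ → ℤ) := by
  have hz : Primrec fun p : ℤ × ℤ => isNeg p.1 := primrec_isNeg.comp Primrec.fst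
  have hw : Primrec fun p : ℤ × ℤ => isNeg p.2 := primrec_isNeg.comp Primrec.snd
  have az : Primrec fun p : ℤ × ℤ => p.1.natAbs := primrec_int_natAbs.comp Primrec.fst
  have aw : Primrec fun p : ℤ × ℤ => p.2.natAbs := primrec_int_natAbs.comp Primrec.snd
  refine (Primrec.ite (Primrec.eq.comp hz hw)
    (primrec_mkInt.comp hz (Primrec.nat_add.comp az aw))
    (Primrec.ite (Primrec.nat_le.comp aw az)
      (primrec_mkInt.comp hz (Primrec.nat_sub.comp az aw))
      (primrec_mkInt.comp hw (Primrec.nat_sub.comp aw az)))).of_eq fun p => ?_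
  exact (int_add_eq p.1 p.2).symm

theorem primrec_int_sub : Primrec₂ ((· - ·) : ℤ → ℤ → ℤ) :=
  (primrec_int_add.comp Primrec.fst (primrec_int_neg.comp Primrec.snd)).of_eq
    fun p => by simp [sub_eq_add_neg]

theorem int_mul_eq (z w : ℤ) :
    z * w = mkInt (xor (isNeg z) (isNeg w)) (z.natAbs * w.natAbs) := by
  conv_lhs => rw [← mkInt_isNeg_natAbs z, ← mkInt_isNeg_natAbs w]
  unfold mkInt
  cases isNeg z <;> cases isNeg w <;> simp

theorem primrec_int_mul : Primrec₂ ((· * ·) : ℤ → ℤ → ℤ) := by
  have hz : Primrec fun p : ℤ × ℤ => isNeg p.1 := primrec_isNeg.comp Primrec.fst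
  have hw : Primrec fun p : ℤ × ℤ => isNeg p.2 := primrec_isNeg.comp Primrec.snd
  have az : Primrec fun p : ℤ × ℤ => p.1.natAbs := primrec_int_natAbs.comp Primrec.fst
  have aw : Primrec fun p : ℤ × ℤ => p.2.natAbs := primrec_int_natAbs.comp Primrec.snd
  have hx : Primrec₂ xor := Primrec.dom_bool₂ _
  exact (primrec_mkInt.comp (hx.comp hz hw) (Primrec.nat_mul.comp az aw)).of_eq
    fun p => (int_mul_eq p.1 p.2).symm

theorem primrecRel_int_lt : PrimrecRel ((· < ·) : ℤ → ℤ → Prop) := by
  have : Primrec fun p : ℤ × ℤ => isNeg (p.1 - p.2) :=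
    primrec_isNeg.comp primrec_int_sub
  refine (primrecPred_iff_primrec_decide.2 (this.of_eq fun p => ?_))
  simp [isNeg]

theorem primrecRel_int_le : PrimrecRel ((· ≤ ·) : ℤ → ℤ → Prop) := by
  have h : PrimrecRel fun z w : ℤ => ¬ (w < z) := (primrecRel_int_lt.swap).not
  exact h.of_eq fun z w => by simp


/-! ### gcd on ℕ -/

theorem primrecRel_nat_dvd : PrimrecRel fun k m : ℕ => k ∣ m := by
  have h : PrimrecRel fun k m : ℕ => m % k = 0 :=
    Primrec.eq.comp (Primrec.nat_mod.comp Primrec.snd Primrec.fst) (Primrec.const 0)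
  exact h.of_eq fun k m => (Nat.dvd_iff_mod_eq_zero).symm

theorem nat_gcd_eq_findGreatest (m n : ℕ) :
    Nat.gcd m n = Nat.findGreatest (fun k => k ∣ m ∧ k ∣ n) (m + n) := by
  symm
  rw [Nat.findGreatest_eq_iff]
  refine ⟨?_, fun _ => ⟨Nat.gcd_dvd_left m n, Nat.gcd_dvd_right m n⟩, ?_⟩
  · rcases Nat.eq_zero_or_pos m with hm | hm
    · subst hm; simp
    · exact (Nat.le_of_dvd hm (Nat.gcd_dvd_left m n)).trans (Nat.le_add_right m n)
  · rintro k hk hk' ⟨h1, h2⟩
    have hdvd : k ∣ Nat.gcd m n := Nat.dvd_gcd h1 h2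
    rcases Nat.eq_zero_or_pos (Nat.gcd m n) with h0 | h0
    · rw [Nat.gcd_eq_zero_iff] at h0
      omega
    · exact absurd (Nat.le_of_dvd h0 hdvd) (by omega)

theorem primrec_nat_gcd : Primrec₂ Nat.gcd := by
  have hp : PrimrecRel fun (p : ℕ × ℕ) (k : ℕ) => k ∣ p.1 ∧ k ∣ p.2 :=
    (primrecRel_nat_dvd.comp Primrec.snd (Primrec.fst.comp Primrec.fst)).and
      (primrecRel_nat_dvd.comp Primrec.snd (Primrec.snd.comp Primrec.fst))
  have hf : Primrec fun p : ℕ × ℕ => p.1 + p.2 := Primrec.nat_add.comp Primrec.fst Primrec.snd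
  classical
  exact (Primrec.nat_findGreatest hf hp).of_eq fun p => by
    rw [nat_gcd_eq_findGreatest]

/-! ### The rank encoding of ℚ -/

/-- The code of a rational w.r.t. the original (non-denumerable) `Encodable ℚ` instance. -/
def ratCode (q : ℚ) : ℕ := Nat.pair (encode q.num) q.den

theorem ratCode_eq (q : ℚ) : ratCode q = @encode ℚ Rat.instEncodable q := rfl

theorem ratCode_injective : Function.Injective ratCode := fun a b h => by
  rw [ratCode_eq, ratCode_eq] at h
  exact @Encodable.encode_injective ℚ Rat.instEncodable _ _ h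

/-- The `n`-th valid code, in increasing order. -/
def nu (n : ℕ) : ℕ := ratCode (ofNat ℚ n)

theorem encode_equivRangeEncode_symm (α : Type) [Encodable α] (x : Set.range (@encode α _)) :
    encode ((equivRangeEncode α).symm x) = (x : ℕ) := by
  have h := (equivRangeEncode α).apply_symm_apply x
  exact congrArg Subtype.val h

theorem ofNat_lt_succ (α : Type) [Encodable α] [Infinite α] (n : ℕ) :
    encode (@Denumerable.ofNat α (Denumerable.ofEncodableOfInfinite α) n) <
    encode (@Denumerable.ofNat α (Denumerable.ofEncodableOfInfinite α) (n+1)) := by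
  have : Infinite (Set.range (@encode α _)) :=
    Infinite.of_injective _ (Equiv.ofInjective _ encode_injective).injective
  unfold Denumerable.ofEncodableOfInfinite
  simp only [Denumerable.ofEquiv_ofNat, Denumerable.ofNat_nat, encode_equivRangeEncode_symm]
  exact @Nat.Subtype.lt_succ_self _ _ (decidableRangeEncode α) _

theorem strictMono_nu : StrictMono nu :=
  strictMono_nat_of_lt_succ fun n => ofNat_lt_succ ℚ n

/-- The code of a rational w.r.t. the `Denumerable ℚ` instance (the one used by `Primrec`). -/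
def encQ (q : ℚ) : ℕ := @encode ℚ Rat.instDenumerable.toEncodable q

theorem nu_encode (q : ℚ) : nu (encQ q) = ratCode q := by
  unfold nu encQ
  rw [ofNat_encode]

/-- Boolean test for valid codes. -/
def validB (y : ℕ) : Bool :=
  decide (0 < y.unpair.2) && decide (Nat.gcd (ofNat ℤ y.unpair.1).natAbs y.unpair.2 = 1)

theorem validB_ratCode (q : ℚ) : validB (ratCode q) = true := by
  unfold validB ratCode
  simp only [Nat.unpair_pair, ofNat_encode, Bool.and_eq_true, decide_eq_true_eq]
  exact ⟨q.den_pos, q.reduced⟩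

theorem validB_iff (y : ℕ) : validB y = true ↔ ∃ q : ℚ, ratCode q = y := by
  constructor
  · intro h
    unfold validB at h
    simp only [Bool.and_eq_true, decide_eq_true_eq] at h
    refine ⟨⟨ofNat ℤ y.unpair.1, y.unpair.2, h.1.ne', h.2⟩, ?_⟩
    unfold ratCode
    simp only [encode_ofNat]
    exact Nat.pair_unpair y
  · rintro ⟨q, rfl⟩
    exact validB_ratCode q

theorem validB_iff_nu (y : ℕ) : validB y = true ↔ ∃ n, nu n = y := by
  rw [validB_iff]
  constructor
  · rintro ⟨q, rfl⟩
    exact ⟨encQ q, nu_encode q⟩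
  · rintro ⟨n, rfl⟩
    exact ⟨ofNat ℚ n, rfl⟩

theorem primrec_validB : Primrec validB := by
  have h1 : Primrec fun y : ℕ => y.unpair.2 := Primrec.snd.comp Primrec.unpair
  have h2 : Primrec fun y : ℕ => (ofNat ℤ y.unpair.1).natAbs :=
    primrec_int_natAbs.comp ((Primrec.ofNat ℤ).comp (Primrec.fst.comp Primrec.unpair))
  have h3 : PrimrecPred fun y : ℕ => 0 < y.unpair.2 :=
    Primrec.nat_lt.comp (Primrec.const 0) h1
  have h4 : PrimrecPred fun y : ℕ => Nat.gcd (ofNat ℤ y.unpair.1).natAbs y.unpair.2 = 1 :=
    Primrec.eq.comp (primrec_nat_gcd.comp h2 h1) (Primrec.const 1)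
  exact Primrec.and.comp h3.decide h4.decide

/-- The number of valid codes below `y`. -/
def rank (y : ℕ) : ℕ := ((List.range y).filter validB).length

theorem primrec_rank : Primrec rank := by
  have h : PrimrecPred fun y : ℕ => validB y = true :=
    Primrec.eq.comp primrec_validB (Primrec.const true)
  have h2 := Primrec.list_length.comp ((Primrec.listFilter h).comp Primrec.list_range)
  refine h2.of_eq fun y => ?_
  unfold rank
  congr 1
  apply List.filter_congr
  intro x _
  simp

theorem rank_eq_card (y : ℕ) :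
    rank y = ((Finset.range y).filter fun z => validB z = true).card := by
  have : rank y = ((List.range y).filter fun z => decide (validB z = true)).length := by
    unfold rank
    congr 1
    apply List.filter_congr
    intro x _
    simp
  rw [this]
  rfl

theorem rank_nu (n : ℕ) : rank (nu n) = n := by
  rw [rank_eq_card]
  have : ((Finset.range (nu n)).filter fun z => validB z = true) = (Finset.range n).image nu := by
    ext z
    simp only [Finset.mem_filter, Finset.mem_range, Finset.mem_image]
    constructor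
    · rintro ⟨h1, h2⟩
      obtain ⟨m, rfl⟩ := (validB_iff_nu z).1 h2
      exact ⟨m, strictMono_nu.lt_iff_lt.1 h1, rfl⟩
    · rintro ⟨m, hm, rfl⟩
      exact ⟨strictMono_nu hm, (validB_iff_nu _).2 ⟨m, rfl⟩⟩
  rw [this, Finset.card_image_of_injective _ strictMono_nu.injective, Finset.card_range]

theorem encQ_eq_rank (q : ℚ) : encQ q = rank (ratCode q) := by
  rw [← nu_encode, rank_nu]

theorem nu_le (n : ℕ) : nu n ≤ Nat.pair (2 * n) 1 := by
  -- the codes of the natural numbers form a strictly increasing sequence of valid codes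
  have hg : ∀ k : ℕ, ratCode (k : ℚ) = Nat.pair (2 * k) 1 := by
    intro k
    unfold ratCode
    simp only [Rat.num_natCast, Rat.den_natCast]
    rw [encode_int_ofNat]
  have hm : StrictMono fun k : ℕ => encQ (k : ℚ) := by
    intro a b hab
    have h1 : nu (encQ (a : ℚ)) < nu (encQ (b : ℚ)) := by
      rw [nu_encode, nu_encode, hg, hg]
      exact Nat.pair_lt_pair_left 1 (by omega)
    exact strictMono_nu.lt_iff_lt.1 h1
  have h2 : n ≤ encQ (n : ℚ) := hm.le_apply
  calc nu n ≤ nu (encQ (n : ℚ)) := strictMono_nu.monotone h2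
    _ = Nat.pair (2 * n) 1 := by rw [nu_encode, hg]

theorem primrec_nu : Primrec nu := by
  refine Primrec.of_graph ⟨fun n => Nat.pair (2 * n) 1,
    Primrec₂.natPair.comp Primrec.nat_double (Primrec.const 1), nu_le⟩ ?_
  have h : PrimrecRel fun n y : ℕ => validB y = true ∧ rank y = n :=
    (Primrec.eq.comp (primrec_validB.comp Primrec.snd) (Primrec.const true)).and
      (Primrec.eq.comp (primrec_rank.comp Primrec.snd) Primrec.fst)
  refine h.of_eq fun n y => ?_
  constructor
  · rintro ⟨h1, h2⟩
    obtain ⟨m, rfl⟩ := (validB_iff_nu y).1 h1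
    rw [rank_nu] at h2
    rw [h2]
  · rintro rfl
    exact ⟨(validB_iff_nu _).2 ⟨n, rfl⟩, rank_nu n⟩

theorem primrec_ratCode : Primrec ratCode :=
  Primrec.ofNat_iff.2 primrec_nu

theorem primrec_rat_num : Primrec fun q : ℚ => q.num := by
  have h : Primrec fun q : ℚ => ofNat ℤ (ratCode q).unpair.1 :=
    (Primrec.ofNat ℤ).comp (Primrec.fst.comp (Primrec.unpair.comp primrec_ratCode))
  exact h.of_eq fun q => by
    show ofNat ℤ (Nat.unpair (Nat.pair (encode q.num) q.den)).1 = q.num
    rw [Nat.unpair_pair]
    exact ofNat_encode _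

theorem primrec_rat_den : Primrec fun q : ℚ => q.den := by
  have h : Primrec fun q : ℚ => (ratCode q).unpair.2 :=
    Primrec.snd.comp (Primrec.unpair.comp primrec_ratCode)
  exact h.of_eq fun q => by simp [ratCode]

/-! ### `mkRat` -/

theorem isNeg_natCast_mul (g : ℕ) (hg : 0 < g) (c : ℤ) : isNeg ((g : ℤ) * c) = isNeg c := by
  unfold isNeg
  have hg' : (0 : ℤ) < g := by exact_mod_cast hg
  have : (g : ℤ) * c < 0 ↔ c < 0 := by
    constructor
    · intro h
      by_contra hc
      have := mul_nonneg hg'.le (not_lt.1 hc)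
      omega
    · intro h
      exact mul_neg_of_pos_of_neg hg' h
  simp only [this]

/-- Exact division of an integer by a natural number dividing it. -/
theorem int_ediv_natCast_of_dvd (z : ℤ) (g : ℕ) (h : (g : ℤ) ∣ z) :
    z / (g : ℤ) = mkInt (isNeg z) (z.natAbs / g) := by
  obtain ⟨c, rfl⟩ := h
  rcases Nat.eq_zero_or_pos g with rfl | hg
  · simp [mkInt, isNeg]
  · have hg' : (g : ℤ) ≠ 0 := by exact_mod_cast hg.ne'
    rw [Int.mul_ediv_cancel_left _ hg', Int.natAbs_mul, Int.natAbs_natCast,
      Nat.mul_div_cancel_left _ hg, isNeg_natCast_mul g hg, mkInt_isNeg_natAbs]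

theorem ratCode_mkRat (z : ℤ) (d : ℕ) :
    ratCode (mkRat z d) = if d = 0 then Nat.pair 0 1
      else Nat.pair (encode (mkInt (isNeg z) (z.natAbs / Nat.gcd d z.natAbs)))
        (d / Nat.gcd d z.natAbs) := by
  unfold ratCode
  rw [Rat.num_mkRat, Rat.den_mkRat]
  split_ifs with h
  · rfl
  · rw [int_ediv_natCast_of_dvd _ _ (Int.natCast_dvd.2 (Nat.gcd_dvd_right d z.natAbs))]

theorem primrec_mkRat : Primrec₂ mkRat := by
  refine Primrec₂.encode_iff.1 ?_
  have hz : Primrec fun p : ℤ × ℕ => p.1.natAbs := primrec_int_natAbs.comp Primrec.fst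
  have hg : Primrec fun p : ℤ × ℕ => Nat.gcd p.2 p.1.natAbs :=
    primrec_nat_gcd.comp Primrec.snd hz
  have hc : Primrec fun p : ℤ × ℕ => if p.2 = 0 then Nat.pair 0 1 else
      Nat.pair (encode (mkInt (isNeg p.1) (p.1.natAbs / Nat.gcd p.2 p.1.natAbs)))
        (p.2 / Nat.gcd p.2 p.1.natAbs) :=
    Primrec.ite (Primrec.eq.comp Primrec.snd (Primrec.const 0)) (Primrec.const _)
      (Primrec₂.natPair.comp
        (Primrec.encode.comp (primrec_mkInt.comp (primrec_isNeg.comp Primrec.fst)
          (Primrec.nat_div.comp hz hg)))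
        (Primrec.nat_div.comp Primrec.snd hg))
  exact (primrec_rank.comp hc).of_eq fun p => by
    rw [← ratCode_mkRat]
    exact (encQ_eq_rank _).symm

/-! ### Field operations and order on ℚ -/

theorem primrec_rat_add : Primrec₂ ((· + ·) : ℚ → ℚ → ℚ) := by
  have n1 : Primrec fun p : ℚ × ℚ => p.1.num := primrec_rat_num.comp Primrec.fst
  have n2 : Primrec fun p : ℚ × ℚ => p.2.num := primrec_rat_num.comp Primrec.snd
  have d1 : Primrec fun p : ℚ × ℚ => p.1.den := primrec_rat_den.comp Primrec.fst
  have d2 : Primrec fun p : ℚ × ℚ => p.2.den := primrec_rat_den.comp Primrec.snd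
  have d1' : Primrec fun p : ℚ × ℚ => (p.1.den : ℤ) := primrec_int_ofNat.comp d1
  have d2' : Primrec fun p : ℚ × ℚ => (p.2.den : ℤ) := primrec_int_ofNat.comp d2
  exact (primrec_mkRat.comp
    (primrec_int_add.comp (primrec_int_mul.comp n1 d2') (primrec_int_mul.comp n2 d1'))
    (Primrec.nat_mul.comp d1 d2)).of_eq fun p => (Rat.add_def' p.1 p.2).symm

theorem primrec_rat_mul : Primrec₂ ((· * ·) : ℚ → ℚ → ℚ) := by
  have n1 : Primrec fun p : ℚ × ℚ => p.1.num := primrec_rat_num.comp Primrec.fst
  have n2 : Primrec fun p : ℚ × ℚ => p.2.num := primrec_rat_num.comp Primrec.snd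
  have d1 : Primrec fun p : ℚ × ℚ => p.1.den := primrec_rat_den.comp Primrec.fst
  have d2 : Primrec fun p : ℚ × ℚ => p.2.den := primrec_rat_den.comp Primrec.snd
  exact (primrec_mkRat.comp (primrec_int_mul.comp n1 n2) (Primrec.nat_mul.comp d1 d2)).of_eq
    fun p => (Rat.mul_def' p.1 p.2).symm

theorem primrec_rat_neg : Primrec (fun q : ℚ => -q) :=
  (primrec_mkRat.comp (primrec_int_neg.comp primrec_rat_num) primrec_rat_den).of_eq fun q => by
    rw [← Rat.neg_mkRat, Rat.mkRat_self]

theorem primrec_rat_sub : Primrec₂ ((· - ·) : ℚ → ℚ → ℚ) :=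
  (primrec_rat_add.comp Primrec.fst (primrec_rat_neg.comp Primrec.snd)).of_eq
    fun p => by simp [sub_eq_add_neg]

theorem divInt_eq_mkRat (a b : ℤ) :
    Rat.divInt a b = mkRat (if b < 0 then -a else a) b.natAbs := by
  rw [Rat.divInt_eq_div, Rat.mkRat_eq_div]
  split_ifs with h
  · have h1 : (b.natAbs : ℤ) = -b := by omega
    have h2 : ((b.natAbs : ℕ) : ℚ) = -(b : ℚ) := by
      have := congrArg (Int.cast : ℤ → ℚ) h1
      simpa using this
    rw [h2, Int.cast_neg, neg_div_neg_eq]
  · have h1 : (b.natAbs : ℤ) = b := by omega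
    have h2 : ((b.natAbs : ℕ) : ℚ) = (b : ℚ) := by
      have := congrArg (Int.cast : ℤ → ℚ) h1
      simpa using this
    rw [h2]

theorem primrec_rat_divInt : Primrec₂ Rat.divInt := by
  have h : Primrec fun p : ℤ × ℤ => mkRat (if p.2 < 0 then -p.1 else p.1) p.2.natAbs :=
    primrec_mkRat.comp
      (Primrec.ite (primrecRel_int_lt.comp Primrec.snd (Primrec.const 0))
        (primrec_int_neg.comp Primrec.fst) Primrec.fst)
      (primrec_int_natAbs.comp Primrec.snd)
  exact h.of_eq fun p => (divInt_eq_mkRat p.1 p.2).symm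

theorem primrec_rat_inv : Primrec (fun q : ℚ => q⁻¹) :=
  (primrec_rat_divInt.comp (primrec_int_ofNat.comp primrec_rat_den) primrec_rat_num).of_eq
    fun q => (Rat.inv_def q).symm

theorem primrec_rat_div : Primrec₂ ((· / ·) : ℚ → ℚ → ℚ) :=
  (primrec_rat_mul.comp Primrec.fst (primrec_rat_inv.comp Primrec.snd)).of_eq
    fun p => (Rat.div_def p.1 p.2).symm

theorem primrec_rat_abs : Primrec (fun q : ℚ => |q|) :=
  (primrec_rat_divInt.comp (primrec_int_ofNat.comp (primrec_int_natAbs.comp primrec_rat_num))
    (primrec_int_ofNat.comp primrec_rat_den)).of_eq fun q => (Rat.abs_def q).symm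

theorem primrec_rat_intCast : Primrec (fun z : ℤ => (z : ℚ)) :=
  (primrec_mkRat.comp Primrec.id (Primrec.const 1)).of_eq fun z => Rat.mkRat_one z

theorem primrec_rat_natCast : Primrec (fun n : ℕ => (n : ℚ)) :=
  (primrec_rat_intCast.comp primrec_int_ofNat).of_eq fun n => Int.cast_natCast n

theorem primrec_rat_pow : Primrec₂ (fun (a : ℚ) (k : ℕ) => a ^ k) := by
  have h : Primrec₂ fun (a : ℚ) (n : ℕ) =>
      Nat.rec (motive := fun _ => ℚ) (1 : ℚ) (fun _ IH => IH * a) n :=
    Primrec.nat_rec (f := fun _ : ℚ => (1 : ℚ)) (g := fun (a : ℚ) (p : ℕ × ℚ) => p.2 * a)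
      (Primrec.const 1)
      (primrec_rat_mul.comp (Primrec.snd.comp Primrec.snd) Primrec.fst)
  refine h.of_eq fun a n => ?_
  induction n with
  | zero => simp
  | succ n ih => simp only [pow_succ, ← ih]

theorem primrecRel_rat_le : PrimrecRel ((· ≤ ·) : ℚ → ℚ → Prop) := by
  have n1 : Primrec fun p : ℚ × ℚ => p.1.num := primrec_rat_num.comp Primrec.fst
  have n2 : Primrec fun p : ℚ × ℚ => p.2.num := primrec_rat_num.comp Primrec.snd
  have d1' : Primrec fun p : ℚ × ℚ => (p.1.den : ℤ) :=
    primrec_int_ofNat.comp (primrec_rat_den.comp Primrec.fst)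
  have d2' : Primrec fun p : ℚ × ℚ => (p.2.den : ℤ) :=
    primrec_int_ofNat.comp (primrec_rat_den.comp Primrec.snd)
  have h : PrimrecPred fun p : ℚ × ℚ => p.1.num * (p.2.den : ℤ) ≤ p.2.num * (p.1.den : ℤ) :=
    primrecRel_int_le.comp (primrec_int_mul.comp n1 d2') (primrec_int_mul.comp n2 d1')
  exact h.of_eq fun p => (Rat.le_iff p.1 p.2).symm

theorem primrecRel_rat_lt : PrimrecRel ((· < ·) : ℚ → ℚ → Prop) := by
  have h : PrimrecRel fun a b : ℚ => ¬ (b ≤ a) := (primrecRel_rat_le.swap).not
  exact h.of_eq fun a b => by simp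

/-! ### Integer division, floor and ceiling -/

theorem int_ediv_natCast (z : ℤ) (d : ℕ) :
    z / (d : ℤ) = if isNeg z = true then mkInt true ((z.natAbs + d - 1) / d)
      else mkInt false (z.natAbs / d) := by
  rcases Nat.eq_zero_or_pos d with rfl | hd
  · simp [mkInt]
  rcases z with m | m
  · have h : isNeg (Int.ofNat m) = false := by simp [isNeg]
    rw [h]
    simp [mkInt]
  · have h : isNeg (Int.negSucc m) = true := by simp [isNeg, Int.negSucc_lt_zero]
    rw [h, Int.negSucc_ediv m (by exact_mod_cast hd)]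
    have h2 : (Int.negSucc m).natAbs + d - 1 = m + d := by
      rw [Int.natAbs_negSucc]; omega
    rw [h2, Nat.add_div_right _ hd]
    simp [mkInt]
    rfl

theorem primrec_int_ediv_natCast : Primrec₂ fun (z : ℤ) (d : ℕ) => z / (d : ℤ) := by
  have hz : Primrec fun p : ℤ × ℕ => p.1.natAbs := primrec_int_natAbs.comp Primrec.fst
  have h : Primrec fun p : ℤ × ℕ =>
      if isNeg p.1 = true then mkInt true ((p.1.natAbs + p.2 - 1) / p.2)
      else mkInt false (p.1.natAbs / p.2) :=
    Primrec.ite (Primrec.eq.comp (primrec_isNeg.comp Primrec.fst) (Primrec.const true))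
      (primrec_mkInt.comp (Primrec.const true)
        (Primrec.nat_div.comp
          (Primrec.nat_sub.comp (Primrec.nat_add.comp hz Primrec.snd) (Primrec.const 1))
          Primrec.snd))
      (primrec_mkInt.comp (Primrec.const false) (Primrec.nat_div.comp hz Primrec.snd))
  exact h.of_eq fun p => (int_ediv_natCast p.1 p.2).symm

theorem primrec_int_toNat : Primrec Int.toNat := by
  have h : Primrec fun z : ℤ => if isNeg z = true then 0 else z.natAbs :=
    Primrec.ite (Primrec.eq.comp primrec_isNeg (Primrec.const true)) (Primrec.const 0)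
      primrec_int_natAbs
  refine h.of_eq fun z => ?_
  unfold isNeg
  simp only [decide_eq_true_eq]
  split_ifs <;> omega

theorem primrec_rat_floor : Primrec (fun q : ℚ => ⌊q⌋) :=
  (primrec_int_ediv_natCast.comp primrec_rat_num primrec_rat_den).of_eq
    fun q => (Rat.floor_def' (q := q)).symm

theorem primrec_rat_ceil : Primrec (fun q : ℚ => ⌈q⌉) :=
  (primrec_int_neg.comp (primrec_int_ediv_natCast.comp
    (primrec_int_neg.comp primrec_rat_num) primrec_rat_den)).of_eq
    fun q => (Rat.ceil_def' q).symm

theorem primrec_rat_natCeil : Primrec (fun q : ℚ => ⌈q⌉₊) :=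
  (primrec_int_toNat.comp primrec_rat_ceil).of_eq fun q => Int.ceil_toNat q

theorem primrec_rat_natFloor : Primrec (fun q : ℚ => ⌊q⌋₊) :=
  (primrec_int_toNat.comp primrec_rat_floor).of_eq fun q => Int.floor_toNat q



/-! ### Interface of module M1 -/

theorem computable_rat_num : Computable (fun q : ℚ => q.num) := primrec_rat_num.to_comp

theorem computable_rat_den : Computable (fun q : ℚ => q.den) := primrec_rat_den.to_comp

theorem computable_rat_divInt : Computable₂ (fun (z : ℤ) (d : ℕ) => (z : ℚ) / (d : ℚ)) :=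
  (primrec_mkRat.to_comp).of_eq fun p => Rat.mkRat_eq_div p.1 p.2

theorem computable_int_add : Computable₂ (fun a b : ℤ => a + b) := primrec_int_add.to_comp

theorem computable_int_mul : Computable₂ (fun a b : ℤ => a * b) := primrec_int_mul.to_comp

theorem computable_int_neg : Computable (fun a : ℤ => -a) := primrec_int_neg.to_comp

theorem computable_int_natAbs : Computable (fun a : ℤ => a.natAbs) := primrec_int_natAbs.to_comp

theorem computable_int_ofNat : Computable (fun a : ℕ => (a : ℤ)) := primrec_int_ofNat.to_comp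

theorem computable_int_le : Computable₂ (fun a b : ℤ => decide (a ≤ b)) :=
  (PrimrecRel.decide primrecRel_int_le).to_comp

theorem computable_rat_add : Computable₂ (fun a b : ℚ => a + b) := primrec_rat_add.to_comp

theorem computable_rat_sub : Computable₂ (fun a b : ℚ => a - b) := primrec_rat_sub.to_comp

theorem computable_rat_mul : Computable₂ (fun a b : ℚ => a * b) := primrec_rat_mul.to_comp

theorem computable_rat_div : Computable₂ (fun a b : ℚ => a / b) := primrec_rat_div.to_comp

theorem computable_rat_neg : Computable (fun a : ℚ => -a) := primrec_rat_neg.to_comp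

theorem computable_rat_inv : Computable (fun a : ℚ => a⁻¹) := primrec_rat_inv.to_comp

theorem computable_rat_abs : Computable (fun a : ℚ => |a|) := primrec_rat_abs.to_comp

theorem computable_rat_pow : Computable₂ (fun (a : ℚ) (k : ℕ) => a ^ k) := primrec_rat_pow.to_comp

theorem computable_rat_natCast : Computable (fun k : ℕ => (k : ℚ)) := primrec_rat_natCast.to_comp

theorem computable_rat_intCast : Computable (fun k : ℤ => (k : ℚ)) := primrec_rat_intCast.to_comp

theorem computable_rat_le : Computable₂ (fun a b : ℚ => decide (a ≤ b)) :=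
  (PrimrecRel.decide primrecRel_rat_le).to_comp

theorem computable_rat_lt : Computable₂ (fun a b : ℚ => decide (a < b)) :=
  (PrimrecRel.decide primrecRel_rat_lt).to_comp

theorem computable_rat_natCeil : Computable (fun a : ℚ => ⌈a⌉₊) := primrec_rat_natCeil.to_comp

/-- sums `∑ i ∈ range k, f a i` of a computable family are computable -/
theorem computable_rat_sum_range {α : Type} [Primcodable α] {f : α → ℕ → ℚ} {k : α → ℕ}
    (hf : Computable₂ f) (hk : Computable k) :
    Computable (fun a => ∑ i ∈ Finset.range (k a), f a i) := by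
  have hh : Computable₂ fun (a : α) (p : ℕ × ℚ) => p.2 + f a p.1 :=
    computable_rat_add.comp (Computable.snd.comp Computable.snd)
      (hf.comp Computable.fst (Computable.fst.comp Computable.snd))
  have h : Computable fun a =>
      Nat.rec (motive := fun _ => ℚ) (0 : ℚ) (fun y IH => IH + f a y) (k a) :=
    Computable.nat_rec (h := fun (a : α) (p : ℕ × ℚ) => p.2 + f a p.1) hk
      (Computable.const 0) hh
  refine h.of_eq fun a => ?_
  induction k a with
  | zero => simp
  | succ n ih => rw [Finset.sum_range_succ, ← ih]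

/-- a vector in `Fin 3 → ℚ` is computable when its components are -/
theorem computable_fin3_mk {α : Type} [Primcodable α] {f : α → Fin 3 → ℚ}
    (hf : ∀ j, Computable (fun a => f a j)) : Computable f := by
  have h1 : Computable fun a => List.Vector.ofFn fun i => f a i :=
    Computable.vector_ofFn (f := fun i a => f a i) hf
  have h2 : Computable (@List.Vector.get ℚ 3) := Primrec.vector_get'.to_comp
  exact (h2.comp h1).of_eq fun a => by
    funext i
    simp

theorem computable_fin3_app {α : Type} [Primcodable α] {f : α → Fin 3 → ℚ} (hf : Computable f)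
    (j : Fin 3) : Computable (fun a => f a j) :=
  Computable.fin_app.comp hf (Computable.const j)

theorem computable_list_count {α : Type} [Primcodable α] {f : α → List (Fin 4)} (hf : Computable f)
    (d : Fin 4) : Computable (fun a => (f a).count d) := by
  have hp : PrimrecPred fun x : Fin 4 => x = d := Primrec.eq.comp Primrec.id (Primrec.const d)
  have h : Primrec fun l : List (Fin 4) => (l.filter fun x => decide (x = d)).length :=
    Primrec.list_length.comp (Primrec.listFilter hp)
  have h' : Primrec fun l : List (Fin 4) => l.count d := h.of_eq fun l => by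
    rw [List.count_eq_length_filter]
    congr 1
  exact h'.to_comp.comp hf

end Crest.Agent.S0170.Helper51
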