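import Crest.Agent.Lib.S0170.Defs

/-!
# S0170, module M2: computable rational approximation of `stp` at rational points

For `0 < q < 1`, `stp q = 1 / (1 + exp w)` with `w = 1/q - 1/(1-q)`.  We approximate
`exp (-y)` (`y = |w| ≥ 0`) by `(clamp (Taylor sum of exp at -y/M)) ^ M`, `M = ⌈y⌉₊ + 1`.
-/

set_option autoImplicit false

namespace Crest.Agent.S0170.Helper52

open Crest.Agent.S0170

/-- The facts of module M1 (`CompQ`) used here; each field is verbatim a statement of the M1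
interface (`sum_range` specialised to `α = ℚ × ℕ`). -/
structure RatComp : Prop where
  le : Computable₂ (fun a b : ℚ => decide (a ≤ b))
  add : Computable₂ (fun a b : ℚ => a + b)
  sub : Computable₂ (fun a b : ℚ => a - b)
  neg : Computable (fun a : ℚ => -a)
  abs : Computable (fun a : ℚ => |a|)
  div : Computable₂ (fun a b : ℚ => a / b)
  pow : Computable₂ (fun (a : ℚ) (k : ℕ) => a ^ k)
  natCast : Computable (fun k : ℕ => (k : ℚ))
  natCeil : Computable (fun a : ℚ => ⌈a⌉₊)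
  sum_range : ∀ {f : ℚ × ℕ → ℕ → ℚ} {k : ℚ × ℕ → ℕ}, Computable₂ f → Computable k →
    Computable (fun a => ∑ i ∈ Finset.range (k a), f a i)

/-- Taylor partial sum of `exp x`. -/
def expSum (x : ℚ) (K : ℕ) : ℚ := ∑ m ∈ Finset.range K, x ^ m / (m.factorial : ℚ)

/-- clamp to `[0,1]` -/
def clamp01 (s : ℚ) : ℚ := max 0 (min 1 s)

/-- approximation of `exp (-y)` for `y ≥ 0` within `1/(n+1)` -/
def expNegApprox (y : ℚ) (n : ℕ) : ℚ :=
  (clamp01 (expSum (-y / ((⌈y⌉₊ + 1 : ℕ) : ℚ)) ((⌈y⌉₊ + 1) * (n + 1) + 3))) ^ (⌈y⌉₊ + 1)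

/-- the approximation of `stp` -/
def A0 (p : ℚ × ℕ) : ℚ :=
  if p.1 ≤ 0 then 0 else if 1 ≤ p.1 then 1 else
    if 0 ≤ 1 / p.1 - 1 / (1 - p.1) then
      expNegApprox |1 / p.1 - 1 / (1 - p.1)| p.2 / (1 + expNegApprox |1 / p.1 - 1 / (1 - p.1)| p.2)
    else 1 / (1 + expNegApprox |1 / p.1 - 1 / (1 - p.1)| p.2)

/-! ### Analysis -/

theorem expSum_cast (x : ℚ) (K : ℕ) :
    ((expSum x K : ℚ) : ℝ) = ∑ m ∈ Finset.range K, (x : ℝ) ^ m / (m.factorial : ℝ) := by
  simp [expSum]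

theorem clamp01_cast (s : ℚ) : ((clamp01 s : ℚ) : ℝ) = max 0 (min 1 (s : ℝ)) := by
  simp [clamp01]

theorem clamp_mem (s : ℝ) : 0 ≤ max 0 (min 1 s) ∧ max 0 (min 1 s) ≤ 1 :=
  ⟨le_max_left _ _, max_le zero_le_one (min_le_left _ _)⟩

theorem abs_sub_clamp_le {a : ℝ} (h0 : 0 ≤ a) (h1 : a ≤ 1) (s : ℝ) :
    |a - max 0 (min 1 s)| ≤ |a - s| := by
  rcases le_total s 0 with h | h
  · rw [max_eq_left (le_trans (min_le_right _ _) h), abs_of_nonneg (by linarith),
      abs_of_nonneg (by linarith)]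
    linarith
  · rcases le_total s 1 with h' | h'
    · rw [min_eq_right h', max_eq_right h]
    · rw [min_eq_left h', max_eq_right zero_le_one, abs_of_nonpos (by linarith),
        abs_of_nonpos (by linarith)]
      linarith

theorem abs_pow_sub_pow_le {a b : ℝ} (ha0 : 0 ≤ a) (ha1 : a ≤ 1) (hb0 : 0 ≤ b) (hb1 : b ≤ 1)
    (M : ℕ) : |a ^ M - b ^ M| ≤ M * |a - b| := by
  induction M with
  | zero => simp
  | succ k ih =>
    have e : a ^ (k + 1) - b ^ (k + 1) = a * (a ^ k - b ^ k) + (a - b) * b ^ k := by ring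
    have hbk : b ^ k ≤ 1 := pow_le_one₀ hb0 hb1
    have hbk0 : 0 ≤ b ^ k := pow_nonneg hb0 k
    calc |a ^ (k + 1) - b ^ (k + 1)| = |a * (a ^ k - b ^ k) + (a - b) * b ^ k| := by rw [e]
      _ ≤ |a * (a ^ k - b ^ k)| + |(a - b) * b ^ k| := abs_add_le _ _
      _ = a * |a ^ k - b ^ k| + |a - b| * b ^ k := by
          rw [abs_mul, abs_mul, abs_of_nonneg ha0, abs_of_nonneg hbk0]
      _ ≤ 1 * (k * |a - b|) + |a - b| * 1 := by
          gcongr
      _ = ((k + 1 : ℕ) : ℝ) * |a - b| := by push_cast; ring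

theorem taylor_err (N : ℕ) :
    (((N + 3 : ℕ).succ : ℝ) / (((N + 3).factorial : ℝ) * ((N + 3 : ℕ) : ℝ))) ≤ 1 / ((N : ℝ) + 1) := by
  have h1 : ((N + 3 : ℕ) : ℝ) ≤ ((N + 3).factorial : ℝ) := by
    exact_mod_cast Nat.self_le_factorial (N + 3)
  have hpos : (0 : ℝ) < ((N + 3 : ℕ) : ℝ) := by positivity
  rw [div_le_div_iff₀ (by positivity) (by positivity)]
  have h2 : ((N + 3 : ℕ) : ℝ) * ((N + 3 : ℕ) : ℝ) ≤ ((N + 3).factorial : ℝ) * ((N + 3 : ℕ) : ℝ) :=
    mul_le_mul_of_nonneg_right h1 hpos.le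
  have h3 : (((N + 3 : ℕ).succ : ℝ)) * ((N : ℝ) + 1) ≤ ((N + 3 : ℕ) : ℝ) * ((N + 3 : ℕ) : ℝ) := by
    push_cast
    nlinarith [Nat.cast_nonneg (α := ℝ) N]
  linarith

theorem expNegApprox_spec (y : ℚ) (hy : 0 ≤ y) (n : ℕ) :
    0 ≤ ((expNegApprox y n : ℚ) : ℝ) ∧
      |Real.exp (-(y : ℝ)) - ((expNegApprox y n : ℚ) : ℝ)| ≤ 1 / ((n : ℝ) + 1) := by
  set M : ℕ := ⌈y⌉₊ + 1 with hM
  set x : ℚ := -y / ((M : ℕ) : ℚ) with hx
  set N : ℕ := M * (n + 1) with hN
  have hMpos : (0 : ℝ) < (M : ℝ) := by positivity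
  have hyM : (y : ℝ) ≤ (M : ℝ) := by
    have : y ≤ (⌈y⌉₊ : ℚ) := Nat.le_ceil y
    have h2 : (y : ℝ) ≤ ((⌈y⌉₊ : ℚ) : ℝ) := by exact_mod_cast this
    rw [hM]; push_cast at h2 ⊢; linarith
  have hy' : (0 : ℝ) ≤ (y : ℝ) := by exact_mod_cast hy
  have hxr : ((x : ℚ) : ℝ) = -(y : ℝ) / (M : ℝ) := by rw [hx]; push_cast; ring
  have hx0 : ((x : ℚ) : ℝ) ≤ 0 := by
    rw [hxr]; exact div_nonpos_of_nonpos_of_nonneg (by linarith) hMpos.le
  have hx1 : |((x : ℚ) : ℝ)| ≤ 1 := by
    rw [hxr, abs_div, abs_neg, abs_of_nonneg hy', abs_of_pos hMpos]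
    exact (div_le_one hMpos).mpr hyM
  set a : ℝ := Real.exp ((x : ℚ) : ℝ) with ha
  have ha0 : 0 ≤ a := (Real.exp_pos _).le
  have ha1 : a ≤ 1 := Real.exp_le_one_iff.mpr hx0
  have haM : Real.exp (-(y : ℝ)) = a ^ M := by
    rw [ha, ← Real.exp_nat_mul, hxr]
    congr 1
    field_simp
  set S : ℚ := expSum x (N + 3) with hS
  set b : ℝ := ((clamp01 S : ℚ) : ℝ) with hb
  have hbm := clamp_mem (S : ℝ)
  rw [← clamp01_cast] at hbm
  have hab : |a - b| ≤ 1 / ((N : ℝ) + 1) := by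
    have h1 : |a - b| ≤ |a - (S : ℝ)| := by
      rw [hb, clamp01_cast]; exact abs_sub_clamp_le ha0 ha1 _
    have h2 : |a - (S : ℝ)| ≤ |((x : ℚ) : ℝ)| ^ (N + 3) *
        (((N + 3 : ℕ).succ : ℝ) / (((N + 3).factorial : ℝ) * ((N + 3 : ℕ) : ℝ))) := by
      rw [hS, expSum_cast]
      exact Real.exp_bound hx1 (by omega)
    have h3 : |((x : ℚ) : ℝ)| ^ (N + 3) ≤ 1 := pow_le_one₀ (abs_nonneg _) hx1
    have h4 := taylor_err N
    have h5 : (0 : ℝ) ≤ (((N + 3 : ℕ).succ : ℝ) / (((N + 3).factorial : ℝ) * ((N + 3 : ℕ) : ℝ))) := by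
      positivity
    calc |a - b| ≤ |a - (S : ℝ)| := h1
      _ ≤ _ := h2
      _ ≤ 1 * (((N + 3 : ℕ).succ : ℝ) / (((N + 3).factorial : ℝ) * ((N + 3 : ℕ) : ℝ))) :=
          mul_le_mul_of_nonneg_right h3 h5
      _ ≤ 1 / ((N : ℝ) + 1) := by rw [one_mul]; exact h4
  have hE : ((expNegApprox y n : ℚ) : ℝ) = b ^ M := by
    simp only [expNegApprox, hb, hS, hx, hN, hM]
    push_cast
    rfl
  rw [hE, haM]
  refine ⟨pow_nonneg hbm.1 _, ?_⟩
  calc |a ^ M - b ^ M| ≤ M * |a - b| := abs_pow_sub_pow_le ha0 ha1 hbm.1 hbm.2 M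
    _ ≤ M * (1 / ((N : ℝ) + 1)) := by gcongr
    _ ≤ 1 / ((n : ℝ) + 1) := by
        rw [mul_one_div, div_le_div_iff₀ (by positivity) (by positivity), hN]
        push_cast
        nlinarith [Nat.cast_nonneg (α := ℝ) n, hMpos]

theorem stp_eq {q : ℝ} (h0 : 0 < q) (h1 : q < 1) :
    stp q = 1 / (1 + Real.exp (1 / q - 1 / (1 - q))) := by
  have h1' : 0 < 1 - q := by linarith
  unfold stp Real.smoothTransition
  rw [expNegInvGlue, expNegInvGlue, if_neg (not_le.mpr h0), if_neg (not_le.mpr h1')]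
  have ha := Real.exp_pos (-q⁻¹)
  have hc := Real.exp_pos (-(1 - q)⁻¹)
  have hw := Real.exp_pos (1 / q - 1 / (1 - q))
  rw [div_eq_div_iff (by positivity) (by positivity)]
  have : Real.exp (-q⁻¹) * Real.exp (1 / q - 1 / (1 - q)) = Real.exp (-(1 - q)⁻¹) := by
    rw [← Real.exp_add]
    congr 1
    ring
  rw [mul_add, mul_one, this, one_mul]

theorem lip_inv {E E' : ℝ} (h : 0 ≤ E) (h' : 0 ≤ E') :
    |1 / (1 + E) - 1 / (1 + E')| ≤ |E - E'| := by
  have e : 1 / (1 + E) - 1 / (1 + E') = (E' - E) / ((1 + E) * (1 + E')) := by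
    field_simp
    ring
  rw [e, abs_div, abs_sub_comm E' E, abs_of_pos (by positivity : 0 < (1 + E) * (1 + E'))]
  apply div_le_self (abs_nonneg _)
  nlinarith

theorem lip_frac {E E' : ℝ} (h : 0 ≤ E) (h' : 0 ≤ E') :
    |E / (1 + E) - E' / (1 + E')| ≤ |E - E'| := by
  have e : E / (1 + E) - E' / (1 + E') = -(1 / (1 + E) - 1 / (1 + E')) := by
    field_simp
    ring
  rw [e, abs_neg]
  exact lip_inv h h'

theorem A0_spec (q : ℚ) (n : ℕ) : |stp (q : ℝ) - (A0 (q, n) : ℝ)| ≤ 1 / ((n : ℝ) + 1) := by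
  have hpos : (0 : ℝ) ≤ 1 / ((n : ℝ) + 1) := by positivity
  unfold A0
  by_cases h0 : q ≤ 0
  · have : stp (q : ℝ) = 0 := Real.smoothTransition.zero_of_nonpos (by exact_mod_cast h0)
    simp [h0, this]
    positivity
  by_cases h1 : 1 ≤ q
  · have : stp (q : ℝ) = 1 := Real.smoothTransition.one_of_one_le (by exact_mod_cast h1)
    simp [h0, h1, this]
    positivity
  simp only [h0, h1, if_false]
  have h0' : (0 : ℝ) < q := by exact_mod_cast not_le.mp h0
  have h1' : (q : ℝ) < 1 := by exact_mod_cast not_le.mp h1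
  rw [stp_eq h0' h1']
  set w : ℚ := 1 / q - 1 / (1 - q) with hw
  have hwr : ((w : ℚ) : ℝ) = 1 / (q : ℝ) - 1 / (1 - (q : ℝ)) := by rw [hw]; push_cast; ring
  rw [← hwr]
  obtain ⟨hE0, hE⟩ := expNegApprox_spec |w| (abs_nonneg w) n
  set E' : ℝ := ((expNegApprox |w| n : ℚ) : ℝ) with hE'
  by_cases hw0 : 0 ≤ w
  · simp only [hw0, if_true]
    have habs : |w| = w := abs_of_nonneg hw0
    rw [habs] at hE
    have hex : 1 / (1 + Real.exp ((w : ℚ) : ℝ)) =
        Real.exp (-((w : ℚ) : ℝ)) / (1 + Real.exp (-((w : ℚ) : ℝ))) := by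
      rw [Real.exp_neg]
      have := Real.exp_pos ((w : ℚ) : ℝ)
      field_simp
      ring
    rw [hex]
    push_cast
    rw [← hE']
    exact (lip_frac (Real.exp_pos _).le hE0).trans hE
  · simp only [hw0, if_false]
    have habs : |w| = -w := abs_of_neg (not_le.mp hw0)
    rw [habs] at hE
    push_cast at hE
    rw [neg_neg] at hE
    push_cast
    rw [← hE']
    exact (lip_inv (Real.exp_pos _).le hE0).trans hE

/-! ### Computability -/

theorem primrec_factorial : Primrec Nat.factorial := by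
  have h : Primrec (fun n : ℕ => Nat.rec (motive := fun _ => ℕ) 1 (fun k ih => (k + 1) * ih) n) :=
    Primrec.nat_rec₁ 1 (Primrec.nat_mul.comp (Primrec.succ.comp Primrec.fst) Primrec.snd)
  refine h.of_eq fun n => ?_
  induction n with
  | zero => rfl
  | succ k ih => rw [Nat.factorial_succ, ← ih]

theorem computable_ite {α σ : Type} [Primcodable α] [Primcodable σ] {c : α → Prop}
    [DecidablePred c] {f g : α → σ} (hc : Computable (fun a => decide (c a)))
    (hf : Computable f) (hg : Computable g) :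
    Computable (fun a => if c a then f a else g a) :=
  (Computable.cond hc hf hg).of_eq fun a => by by_cases h : c a <;> simp [h]

theorem computable_expSum (H : RatComp) : Computable₂ expSum := by
  have hf : Computable₂ (fun (p : ℚ × ℕ) (m : ℕ) => p.1 ^ m / (m.factorial : ℚ)) :=
    H.div.comp
      (H.pow.comp (Computable.fst.comp Computable.fst) Computable.snd)
      (H.natCast.comp (primrec_factorial.to_comp.comp Computable.snd))
  exact H.sum_range hf Computable.snd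

theorem computable_clamp01 (H : RatComp) : Computable clamp01 := by
  have hmin : Computable (fun s : ℚ => min 1 s) :=
    (computable_ite (c := fun s : ℚ => (1 : ℚ) ≤ s)
      (H.le.comp (Computable.const 1) Computable.id) (Computable.const 1)
      Computable.id).of_eq fun s => by simp [min_def]
  have hmax : Computable (fun s : ℚ => max 0 s) :=
    (computable_ite (c := fun s : ℚ => (0 : ℚ) ≤ s)
      (H.le.comp (Computable.const 0) Computable.id) Computable.id
      (Computable.const 0)).of_eq fun s => by simp [max_def]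
  exact hmax.comp hmin

theorem computable_expNegApprox (H : RatComp) : Computable₂ expNegApprox := by
  have hM : Computable (fun p : ℚ × ℕ => ⌈p.1⌉₊ + 1) :=
    Primrec.succ.to_comp.comp (H.natCeil.comp Computable.fst)
  have hx : Computable (fun p : ℚ × ℕ => -p.1 / ((⌈p.1⌉₊ + 1 : ℕ) : ℚ)) :=
    H.div.comp (H.neg.comp Computable.fst)
      (H.natCast.comp hM)
  have hK : Computable (fun p : ℚ × ℕ => (⌈p.1⌉₊ + 1) * (p.2 + 1) + 3) :=
    (Primrec.nat_add.to_comp.comp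
      (Primrec.nat_mul.to_comp.comp hM (Primrec.succ.to_comp.comp Computable.snd))
      (Computable.const 3))
  exact H.pow.comp ((computable_clamp01 H).comp ((computable_expSum H).comp hx hK)) hM

theorem computable_A0 (H : RatComp) : Computable A0 := by
  have hw : Computable (fun p : ℚ × ℕ => 1 / p.1 - 1 / (1 - p.1)) :=
    H.sub.comp
      (H.div.comp (Computable.const 1) Computable.fst)
      (H.div.comp (Computable.const 1)
        (H.sub.comp (Computable.const 1) Computable.fst))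
  have hE : Computable (fun p : ℚ × ℕ => expNegApprox |1 / p.1 - 1 / (1 - p.1)| p.2) :=
    (computable_expNegApprox H).comp (H.abs.comp hw) Computable.snd
  have h1E : Computable (fun p : ℚ × ℕ => 1 + expNegApprox |1 / p.1 - 1 / (1 - p.1)| p.2) :=
    H.add.comp (Computable.const 1) hE
  unfold A0
  refine computable_ite (H.le.comp Computable.fst (Computable.const 0))
    (Computable.const 0) ?_
  refine computable_ite (H.le.comp (Computable.const 1) Computable.fst)
    (Computable.const 1) ?_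
  refine computable_ite (H.le.comp (Computable.const 0) hw) ?_ ?_
  · exact H.div.comp hE h1E
  · exact H.div.comp (Computable.const 1) h1E

/-- M2 (`stp_approx` of the interface), with the M1 facts as an explicit hypothesis. -/
theorem stp_approx_of (H : RatComp) : ∃ A₀ : ℚ × ℕ → ℚ, Computable A₀ ∧
    ∀ (q : ℚ) (n : ℕ), |stp (q : ℝ) - (A₀ (q, n) : ℝ)| ≤ 1 / ((n : ℝ) + 1) :=
  ⟨A0, computable_A0 H, A0_spec⟩

end Crest.Agent.S0170.Helper52
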