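import Mathlib
import Crest.Prelude.Def_BoxFlow

/-!
Global flows of smooth compactly supported time-dependent fields on three-space which vanish for
times outside `[1/4, 3/4]` (module M7 of the S0170 plan), and tracking of explicit solutions by
ODE uniqueness.
-/

set_option autoImplicit false

open scoped ContDiff NNReal
open Set Metric

namespace Crest.Agent.S0170.Helper68

open Crest.AnalysisR.BoxFlow

/-- A continuous compactly supported field is bounded. -/
theorem Field.exists_bound (U : Field) (hU : Continuous U) (hc : HasCompactSupport U) :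
    ∃ L : ℝ≥0, ∀ p, ‖U p‖ ≤ L := by
  obtain ⟨C, hC⟩ := hU.bounded_above_of_compact_support hc
  refine ⟨Real.toNNReal C, fun p => ?_⟩
  exact (hC p).trans (Real.le_coe_toNNReal C)

/-- A `C¹` compactly supported field is globally Lipschitz. -/
theorem Field.exists_lipschitz (U : Field) (hU : ContDiff ℝ 1 U) (hc : HasCompactSupport U) :
    ∃ K : ℝ≥0, LipschitzWith K U := by
  have hcont : Continuous (fderiv ℝ U) := hU.continuous_fderiv (by norm_num)
  have hcs : HasCompactSupport (fderiv ℝ U) := hc.fderiv ℝ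
  obtain ⟨C, hC⟩ := hcont.bounded_above_of_compact_support hcs
  refine ⟨Real.toNNReal C, ?_⟩
  refine lipschitzWith_of_nnnorm_fderiv_le (hU.differentiable (by norm_num)) fun x => ?_
  rw [← NNReal.coe_le_coe, coe_nnnorm]
  exact (hC x).trans (Real.le_coe_toNNReal C)

/-- Sections in space of a globally Lipschitz field are Lipschitz with the same constant. -/
theorem Field.lipschitz_section {U : Field} {K : ℝ≥0} (hK : LipschitzWith K U) (t : ℝ) :
    LipschitzWith K (fun x : Fin 3 → ℝ => U (t, x)) := by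
  have h1 : LipschitzWith 1 (fun x : Fin 3 → ℝ => ((t, x) : ℝ × (Fin 3 → ℝ))) :=
    LipschitzWith.prodMk_left t
  have h2 := hK.comp h1
  rw [mul_one] at h2
  exact h2

/-- The solution curve through `x` on `[-1, 2]`. -/
theorem exists_solution_Icc (U : Field) (hU : ContDiff ℝ 1 U) (hc : HasCompactSupport U)
    (x : Fin 3 → ℝ) :
    ∃ α : ℝ → (Fin 3 → ℝ), α 0 = x ∧
      ∀ t ∈ Icc (-1 : ℝ) 2, HasDerivWithinAt α (U (t, α t)) (Icc (-1 : ℝ) 2) t := by
  obtain ⟨L, hL⟩ := Field.exists_bound U hU.continuous hc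
  obtain ⟨K, hK⟩ := Field.exists_lipschitz U hU hc
  have h0 : (0 : ℝ) ∈ Icc (-1 : ℝ) 2 := by constructor <;> norm_num
  have hPL : IsPicardLindelof (fun t y => U (t, y)) (⟨0, h0⟩ : Icc (-1 : ℝ) 2) x (2 * L) 0 L K := by
    refine ⟨fun t _ => (Field.lipschitz_section hK t).lipschitzOnWith, fun y _ => ?_,
      fun t _ y _ => hL _, ?_⟩
    · exact (hU.continuous.comp (Continuous.prodMk_left y)).continuousOn
    · simp only [NNReal.coe_mul, NNReal.coe_ofNat, NNReal.coe_zero, sub_zero]
      have : max (2 : ℝ) (0 - (-1)) = 2 := by norm_num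
      rw [this]
      linarith [L.coe_nonneg]
  exact hPL.exists_eq_forall_mem_Icc_hasDerivWithinAt₀

/-- **Global flow.** A `C¹` compactly supported field that vanishes for times outside
`[1/4, 3/4]` has a flow defined for all real times. -/
theorem exists_isFlow (U : Field) (hU : ContDiff ℝ 1 U) (hc : HasCompactSupport U)
    (hz : ∀ p : ℝ × (Fin 3 → ℝ), p.1 ∉ Icc (1 / 4 : ℝ) (3 / 4) → U p = 0) :
    ∃ Φ : ℝ → (Fin 3 → ℝ) → (Fin 3 → ℝ), IsFlow U Φ := by
  choose α hα0 hα using fun x => exists_solution_Icc U hU hc x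
  have hcont : ∀ x, ContinuousOn (α x) (Icc (-1 : ℝ) 2) := fun x t ht =>
    (hα x t ht).continuousWithinAt
  -- the solution is constant before time `1/4`
  have hL : ∀ x, ∀ t ∈ Icc (-1 : ℝ) (1 / 8), α x t = x := by
    intro x t ht
    have h1 : ∀ s ∈ Icc (-1 : ℝ) (1 / 8), α x s = α x (-1) := by
      refine constant_of_has_deriv_right_zero ((hcont x).mono ?_) ?_
      · exact Icc_subset_Icc le_rfl (by norm_num)
      · intro s hs
        have hs2 : s ∈ Icc (-1 : ℝ) 2 := ⟨hs.1, by linarith [hs.2]⟩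
        have h2 := hα x s hs2
        rw [hz (s, α x s) (by simp only [mem_Icc, not_and, not_le]; intro h; linarith [hs.2])] at h2
        exact h2.mono_of_mem_nhdsWithin (Icc_mem_nhdsGE_of_mem ⟨hs.1, by linarith [hs.2]⟩)
    rw [h1 t ht, ← h1 0 (by constructor <;> norm_num), hα0]
  -- the solution is constant after time `3/4`
  have hR : ∀ x, ∀ t ∈ Icc (7 / 8 : ℝ) 2, α x t = α x 1 := by
    intro x t ht
    have h1 : ∀ s ∈ Icc (7 / 8 : ℝ) 2, α x s = α x (7 / 8) := by
      refine constant_of_has_deriv_right_zero ((hcont x).mono ?_) ?_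
      · exact Icc_subset_Icc (by norm_num) le_rfl
      · intro s hs
        have hs2 : s ∈ Icc (-1 : ℝ) 2 := ⟨by linarith [hs.1], hs.2.le⟩
        have h2 := hα x s hs2
        rw [hz (s, α x s) (by simp only [mem_Icc, not_and, not_le]; intro h; linarith [hs.1])] at h2
        exact h2.mono_of_mem_nhdsWithin (Icc_mem_nhdsGE_of_mem ⟨by linarith [hs.1], hs.2⟩)
    rw [h1 t ht, ← h1 1 (by constructor <;> norm_num)]
  refine ⟨fun t x => α x (max 0 (min t 1)), fun x => ?_, fun t x => ?_⟩
  · simp [hα0]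
  · show HasDerivAt (fun s => α x (max 0 (min s 1))) (U (t, α x (max 0 (min t 1)))) t
    rcases lt_or_ge t (1 / 16) with ht | ht
    · -- locally constant equal to `x`
      have hev : (fun s => α x (max 0 (min s 1))) =ᶠ[nhds t] fun _ => x := by
        filter_upwards [Iio_mem_nhds (show t < 1 / 8 by linarith)] with s hs
        refine hL x _ ⟨?_, ?_⟩
        · exact le_trans (by norm_num) (le_max_left _ _)
        · exact max_le (by norm_num) ((min_le_left _ _).trans (le_of_lt hs))
      have hUz : U (t, α x (max 0 (min t 1))) = 0 :=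
        hz _ (by simp only [mem_Icc, not_and, not_le]; intro h; linarith)
      rw [hUz]
      exact (hasDerivAt_const t x).congr_of_eventuallyEq hev
    rcases lt_or_ge (15 / 16) t with ht' | ht'
    · -- locally constant equal to `α x 1`
      have hev : (fun s => α x (max 0 (min s 1))) =ᶠ[nhds t] fun _ => α x 1 := by
        filter_upwards [Ioi_mem_nhds (show 7 / 8 < t by linarith)] with s hs
        refine hR x _ ⟨?_, ?_⟩
        · exact le_trans (le_min (le_of_lt hs) (by norm_num)) (le_max_right _ _)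
        · exact max_le (by norm_num) ((min_le_right _ _).trans (by norm_num))
      have hUz : U (t, α x (max 0 (min t 1))) = 0 :=
        hz _ (by simp only [mem_Icc, not_and, not_le]; intro h; linarith)
      rw [hUz]
      exact (hasDerivAt_const t (α x 1)).congr_of_eventuallyEq hev
    · -- interior times: the clamp is the identity near `t`
      have ht01 : max 0 (min t 1) = t := by
        rw [min_eq_left (by linarith), max_eq_right (by linarith)]
      have hev : (fun s => α x (max 0 (min s 1))) =ᶠ[nhds t] α x := by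
        filter_upwards [Ioo_mem_nhds (show (0 : ℝ) < t by linarith) (show t < 1 by linarith)]
          with s hs
        rw [min_eq_left hs.2.le, max_eq_right hs.1.le]
      rw [ht01]
      have h3 := (hα x t ⟨by linarith, by linarith⟩).hasDerivAt
        (Icc_mem_nhds (by linarith) (by linarith))
      exact h3.congr_of_eventuallyEq hev

/-- Each trajectory of a flow is a continuous curve. -/
theorem isFlow_continuous_curve {U : Field} {Φ : ℝ → (Fin 3 → ℝ) → (Fin 3 → ℝ)}
    (hΦ : IsFlow U Φ) (x : Fin 3 → ℝ) : Continuous (fun t => Φ t x) :=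
  continuous_iff_continuousAt.2 fun t => (hΦ.2 t x).continuousAt

/-- **Tracking by uniqueness.** If a curve `y` solves the ODE driven by the (globally Lipschitz)
field `U` on `[a, b]` (right derivatives on `[a, b)`) and starts on the trajectory of `x` at time
`a`, then it stays on that trajectory on all of `[a, b]`. -/
theorem isFlow_eq_of_hasDerivWithinAt {U : Field} {Φ : ℝ → (Fin 3 → ℝ) → (Fin 3 → ℝ)}
    (hΦ : IsFlow U Φ) {K : ℝ≥0} (hK : LipschitzWith K U) {a b : ℝ}
    {y : ℝ → (Fin 3 → ℝ)} {x : Fin 3 → ℝ} (hyc : ContinuousOn y (Icc a b))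
    (hy : ∀ t ∈ Ico a b, HasDerivWithinAt y (U (t, y t)) (Ici t) t)
    (h0 : y a = Φ a x) : ∀ t ∈ Icc a b, y t = Φ t x := by
  have := ODE_solution_unique (v := fun t z => U (t, z)) (K := K) (f := y)
    (g := fun t => Φ t x) (a := a) (b := b)
    (fun t => Field.lipschitz_section hK t) hyc hy (isFlow_continuous_curve hΦ x).continuousOn
    (fun t _ => (hΦ.2 t x).hasDerivWithinAt) h0
  exact fun t ht => this ht

/-- Variant of `isFlow_eq_of_hasDerivWithinAt` with two-sided derivatives on the closed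
interval. -/
theorem isFlow_eq_of_hasDerivAt {U : Field} {Φ : ℝ → (Fin 3 → ℝ) → (Fin 3 → ℝ)}
    (hΦ : IsFlow U Φ) {K : ℝ≥0} (hK : LipschitzWith K U) {a b : ℝ}
    {y : ℝ → (Fin 3 → ℝ)} {x : Fin 3 → ℝ}
    (hy : ∀ t ∈ Icc a b, HasDerivAt y (U (t, y t)) t)
    (h0 : y a = Φ a x) : ∀ t ∈ Icc a b, y t = Φ t x :=
  isFlow_eq_of_hasDerivWithinAt hΦ hK (fun t ht => (hy t ht).continuousAt.continuousWithinAt)
    (fun t ht => (hy t ⟨ht.1, ht.2.le⟩).hasDerivWithinAt) h0

/-- Two flows of the same globally Lipschitz field coincide at all nonnegative times. -/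
theorem isFlow_eq_of_nonneg {U : Field} {Φ Ψ : ℝ → (Fin 3 → ℝ) → (Fin 3 → ℝ)}
    (hΦ : IsFlow U Φ) (hΨ : IsFlow U Ψ) {K : ℝ≥0} (hK : LipschitzWith K U) {t : ℝ} (ht : 0 ≤ t)
    (x : Fin 3 → ℝ) : Ψ t x = Φ t x :=
  isFlow_eq_of_hasDerivAt hΦ hK (a := 0) (b := t) (y := fun s => Ψ s x) (fun s _ => hΨ.2 s x)
    (by rw [hΨ.1, hΦ.1]) t ⟨ht, le_rfl⟩

/-- Where the field vanishes identically on a time interval, trajectories stand still. -/
theorem isFlow_eq_of_field_eq_zero {U : Field} {Φ : ℝ → (Fin 3 → ℝ) → (Fin 3 → ℝ)}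
    (hΦ : IsFlow U Φ) {a b : ℝ} (hz : ∀ t ∈ Ico a b, ∀ z, U (t, z) = 0) (x : Fin 3 → ℝ) :
    ∀ t ∈ Icc a b, Φ t x = Φ a x := by
  refine constant_of_has_deriv_right_zero (isFlow_continuous_curve hΦ x).continuousOn fun t ht => ?_
  have h := (hΦ.2 t x).hasDerivWithinAt (s := Ici t)
  rwa [hz t ht] at h

/-- **Tracking along a straight segment.** If, during `[a, b]`, the field along the curve
`t ↦ Φ a x + τ t • v` equals `τ' t • v` (e.g. `U (t, y) = τ' t • N y` on a plateau containing the
curve, with `N` constant along `v`), then the trajectory of `x` is that curve on `[a, b]`. -/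
theorem isFlow_track_line {U : Field} {Φ : ℝ → (Fin 3 → ℝ) → (Fin 3 → ℝ)}
    (hΦ : IsFlow U Φ) {K : ℝ≥0} (hK : LipschitzWith K U) {a b : ℝ}
    {x v : Fin 3 → ℝ} {τ τ' : ℝ → ℝ}
    (hτ : ∀ t ∈ Icc a b, HasDerivAt τ (τ' t) t) (hτa : τ a = 0)
    (hU : ∀ t ∈ Icc a b, U (t, Φ a x + τ t • v) = τ' t • v) :
    ∀ t ∈ Icc a b, Φ t x = Φ a x + τ t • v := by
  intro t ht
  refine (isFlow_eq_of_hasDerivAt hΦ hK (a := a) (b := b) (y := fun s => Φ a x + τ s • v)
    (x := x) (fun s hs => ?_) (by simp [hτa]) t ht).symm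
  rw [hU s hs]
  exact ((hτ s hs).smul_const v).const_add (Φ a x)

end Crest.Agent.S0170.Helper68
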