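import Mathlib
import Crest.Prelude.Def_BoxFlow
import Crest.Agent.Lib.S0170.Defs

/-!
# S0170, module M6: the elementary cut-off move fields

Pure calculus on `Defs.base`: the cut-offs are `1` on the plateau and `0` outside the support,
the time profile is `0` before and `1` after its window, the move field is smooth, compactly
supported and divergence free.
-/

set_option autoImplicit false

open scoped ContDiff NNReal
open Set

namespace Crest.Agent.S0170.Helper68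

open Crest.AnalysisR.BoxFlow

/-! ### The smooth step -/

theorem stp_smooth : ContDiff ℝ ∞ stp := Real.smoothTransition.contDiff

theorem stp_nonneg (x : ℝ) : 0 ≤ stp x := Real.smoothTransition.nonneg x

theorem stp_le_one (x : ℝ) : stp x ≤ 1 := Real.smoothTransition.le_one x

theorem stp_of_nonpos {x : ℝ} (h : x ≤ 0) : stp x = 0 := Real.smoothTransition.zero_of_nonpos h

theorem stp_of_one_le {x : ℝ} (h : 1 ≤ x) : stp x = 1 := Real.smoothTransition.one_of_one_le h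

/-! ### The cut-off factor of `base` -/

/-- The cut-off part `stp (a₁ x + b₁) * stp (a₂ x + b₂)` of `base`. -/
noncomputable def chi (a₁ b₁ a₂ b₂ : ℚ) (x : ℝ) : ℝ :=
  stp ((a₁ : ℝ) * x + (b₁ : ℝ)) * stp ((a₂ : ℝ) * x + (b₂ : ℝ))

theorem base_eq_chi_mul (a₁ b₁ a₂ b₂ c₀ c₁ c₂ : ℚ) (x : ℝ) :
    base a₁ b₁ a₂ b₂ c₀ c₁ c₂ x =
      chi a₁ b₁ a₂ b₂ x * ((c₀ : ℝ) + (c₁ : ℝ) * x + (c₂ : ℝ) * x ^ 2) := rfl

theorem chi_contDiff (a₁ b₁ a₂ b₂ : ℚ) : ContDiff ℝ ∞ (chi a₁ b₁ a₂ b₂) := by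
  unfold chi
  have h1 : ContDiff ℝ ∞ fun x : ℝ => (a₁ : ℝ) * x + (b₁ : ℝ) := by fun_prop
  have h2 : ContDiff ℝ ∞ fun x : ℝ => (a₂ : ℝ) * x + (b₂ : ℝ) := by fun_prop
  exact (stp_smooth.comp h1).mul (stp_smooth.comp h2)

theorem chi_nonneg (a₁ b₁ a₂ b₂ : ℚ) (x : ℝ) : 0 ≤ chi a₁ b₁ a₂ b₂ x :=
  mul_nonneg (stp_nonneg _) (stp_nonneg _)

theorem chi_le_one (a₁ b₁ a₂ b₂ : ℚ) (x : ℝ) : chi a₁ b₁ a₂ b₂ x ≤ 1 :=
  mul_le_one₀ (stp_le_one _) (stp_nonneg _) (stp_le_one _)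

theorem chi_eq_one {a₁ b₁ a₂ b₂ : ℚ} {x : ℝ} (h1 : 1 ≤ (a₁ : ℝ) * x + (b₁ : ℝ))
    (h2 : 1 ≤ (a₂ : ℝ) * x + (b₂ : ℝ)) : chi a₁ b₁ a₂ b₂ x = 1 := by
  unfold chi
  rw [stp_of_one_le h1, stp_of_one_le h2, one_mul]

theorem chi_eq_zero {a₁ b₁ a₂ b₂ : ℚ} {x : ℝ}
    (h : (a₁ : ℝ) * x + (b₁ : ℝ) ≤ 0 ∨ (a₂ : ℝ) * x + (b₂ : ℝ) ≤ 0) : chi a₁ b₁ a₂ b₂ x = 0 := by
  unfold chi
  rcases h with h | h
  · rw [stp_of_nonpos h, zero_mul]
  · rw [stp_of_nonpos h, mul_zero]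

theorem deriv_chi_of_eq_one {a₁ b₁ a₂ b₂ : ℚ} {x : ℝ} (h : chi a₁ b₁ a₂ b₂ x = 1) :
    deriv (chi a₁ b₁ a₂ b₂) x = 0 := by
  apply IsLocalMax.deriv_eq_zero
  refine Filter.Eventually.of_forall fun y => ?_
  rw [h]
  exact chi_le_one _ _ _ _ _

theorem deriv_chi_of_eq_zero {a₁ b₁ a₂ b₂ : ℚ} {x : ℝ} (h : chi a₁ b₁ a₂ b₂ x = 0) :
    deriv (chi a₁ b₁ a₂ b₂) x = 0 := by
  apply IsLocalMin.deriv_eq_zero
  refine Filter.Eventually.of_forall fun y => ?_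
  rw [h]
  exact chi_nonneg _ _ _ _ _

/-! ### `base` -/

theorem base_smooth (a₁ b₁ a₂ b₂ c₀ c₁ c₂ : ℚ) : ContDiff ℝ ∞ (base a₁ b₁ a₂ b₂ c₀ c₁ c₂) := by
  have h : base a₁ b₁ a₂ b₂ c₀ c₁ c₂ =
      fun x => chi a₁ b₁ a₂ b₂ x * ((c₀ : ℝ) + (c₁ : ℝ) * x + (c₂ : ℝ) * x ^ 2) := rfl
  rw [h]
  exact (chi_contDiff a₁ b₁ a₂ b₂).mul (by fun_prop)

theorem deriv_base (a₁ b₁ a₂ b₂ c₀ c₁ c₂ : ℚ) (x : ℝ) :
    deriv (base a₁ b₁ a₂ b₂ c₀ c₁ c₂) x =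
      deriv (chi a₁ b₁ a₂ b₂) x * ((c₀ : ℝ) + (c₁ : ℝ) * x + (c₂ : ℝ) * x ^ 2) +
        chi a₁ b₁ a₂ b₂ x * ((c₁ : ℝ) + 2 * (c₂ : ℝ) * x) := by
  have h : base a₁ b₁ a₂ b₂ c₀ c₁ c₂ =
      fun x => chi a₁ b₁ a₂ b₂ x * ((c₀ : ℝ) + (c₁ : ℝ) * x + (c₂ : ℝ) * x ^ 2) := rfl
  rw [h]
  have h1 : HasDerivAt (chi a₁ b₁ a₂ b₂) (deriv (chi a₁ b₁ a₂ b₂) x) x :=
    ((chi_contDiff a₁ b₁ a₂ b₂).differentiable (by simp)).differentiableAt.hasDerivAt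
  have h2 : HasDerivAt (fun y : ℝ => (c₀ : ℝ) + (c₁ : ℝ) * y + (c₂ : ℝ) * y ^ 2)
      ((c₁ : ℝ) + 2 * (c₂ : ℝ) * x) x := by
    have h3 : HasDerivAt (fun y : ℝ => (c₀ : ℝ) + (c₁ : ℝ) * y + (c₂ : ℝ) * y ^ 2)
        ((c₁ : ℝ) * 1 + (c₂ : ℝ) * ((2 : ℕ) * x ^ (2 - 1) * 1)) x :=
      (((hasDerivAt_id x).const_mul (c₁ : ℝ)).const_add (c₀ : ℝ)).add
        (((hasDerivAt_id x).pow 2).const_mul (c₂ : ℝ))
    convert h3 using 1
    push_cast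
    ring
  exact (h1.mul h2).deriv

/-! ### The cut-off in a coordinate: parameters `1/δ, 1 - lo/δ, -(1/δ), 1 + hi/δ` -/

theorem cutArg_left (lo δ : ℚ) (hδ : 0 < δ) (x : ℝ) :
    ((1 / δ : ℚ) : ℝ) * x + ((1 - lo / δ : ℚ) : ℝ) = (x - (lo : ℝ)) / (δ : ℝ) + 1 := by
  have hδ' : (δ : ℝ) ≠ 0 := by exact_mod_cast hδ.ne'
  push_cast
  field_simp
  ring

theorem cutArg_right (hi δ : ℚ) (hδ : 0 < δ) (x : ℝ) :
    ((-(1 / δ) : ℚ) : ℝ) * x + ((1 + hi / δ : ℚ) : ℝ) = ((hi : ℝ) - x) / (δ : ℝ) + 1 := by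
  have hδ' : (δ : ℝ) ≠ 0 := by exact_mod_cast hδ.ne'
  push_cast
  field_simp
  ring

theorem chi_cut_of_mem {lo hi δ : ℚ} (hδ : 0 < δ) {x : ℝ} (h1 : (lo : ℝ) ≤ x)
    (h2 : x ≤ (hi : ℝ)) : chi (1 / δ) (1 - lo / δ) (-(1 / δ)) (1 + hi / δ) x = 1 := by
  have hδ' : (0 : ℝ) < (δ : ℝ) := by exact_mod_cast hδ
  apply chi_eq_one
  · rw [cutArg_left lo δ hδ]
    have : 0 ≤ (x - (lo : ℝ)) / (δ : ℝ) := div_nonneg (by linarith) hδ'.le
    linarith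
  · rw [cutArg_right hi δ hδ]
    have : 0 ≤ ((hi : ℝ) - x) / (δ : ℝ) := div_nonneg (by linarith) hδ'.le
    linarith

theorem chi_cut_of_not_mem {lo hi δ : ℚ} (hδ : 0 < δ) {x : ℝ}
    (h : x ≤ (lo : ℝ) - (δ : ℝ) ∨ (hi : ℝ) + (δ : ℝ) ≤ x) :
    chi (1 / δ) (1 - lo / δ) (-(1 / δ)) (1 + hi / δ) x = 0 := by
  have hδ' : (0 : ℝ) < (δ : ℝ) := by exact_mod_cast hδ
  apply chi_eq_zero
  rcases h with h | h
  · left
    rw [cutArg_left lo δ hδ]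
    have : (x - (lo : ℝ)) / (δ : ℝ) ≤ -1 := by
      rw [div_le_iff₀ hδ']; linarith
    linarith
  · right
    rw [cutArg_right hi δ hδ]
    have : ((hi : ℝ) - x) / (δ : ℝ) ≤ -1 := by
      rw [div_le_iff₀ hδ']; linarith
    linarith

/-- On the plateau interval the cut-off building block is its polynomial factor. -/
theorem cutBase_of_mem {lo hi δ : ℚ} (hδ : 0 < δ) (c₀ c₁ c₂ : ℚ) {x : ℝ} (h1 : (lo : ℝ) ≤ x)
    (h2 : x ≤ (hi : ℝ)) :
    base (1 / δ) (1 - lo / δ) (-(1 / δ)) (1 + hi / δ) c₀ c₁ c₂ x =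
      (c₀ : ℝ) + (c₁ : ℝ) * x + (c₂ : ℝ) * x ^ 2 := by
  rw [base_eq_chi_mul, chi_cut_of_mem hδ h1 h2, one_mul]

/-- Outside the open support interval the cut-off building block vanishes. -/
theorem cutBase_of_not_mem {lo hi δ : ℚ} (hδ : 0 < δ) (c₀ c₁ c₂ : ℚ) {x : ℝ}
    (h : x ≤ (lo : ℝ) - (δ : ℝ) ∨ (hi : ℝ) + (δ : ℝ) ≤ x) :
    base (1 / δ) (1 - lo / δ) (-(1 / δ)) (1 + hi / δ) c₀ c₁ c₂ x = 0 := by
  rw [base_eq_chi_mul, chi_cut_of_not_mem hδ h, zero_mul]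

theorem deriv_cutBase_of_mem {lo hi δ : ℚ} (hδ : 0 < δ) (c₀ c₁ c₂ : ℚ) {x : ℝ}
    (h1 : (lo : ℝ) ≤ x) (h2 : x ≤ (hi : ℝ)) :
    deriv (base (1 / δ) (1 - lo / δ) (-(1 / δ)) (1 + hi / δ) c₀ c₁ c₂) x =
      (c₁ : ℝ) + 2 * (c₂ : ℝ) * x := by
  rw [deriv_base, deriv_chi_of_eq_one (chi_cut_of_mem hδ h1 h2), chi_cut_of_mem hδ h1 h2]
  ring

theorem deriv_cutBase_of_not_mem {lo hi δ : ℚ} (hδ : 0 < δ) (c₀ c₁ c₂ : ℚ) {x : ℝ}
    (h : x ≤ (lo : ℝ) - (δ : ℝ) ∨ (hi : ℝ) + (δ : ℝ) ≤ x) :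
    deriv (base (1 / δ) (1 - lo / δ) (-(1 / δ)) (1 + hi / δ) c₀ c₁ c₂) x = 0 := by
  rw [deriv_base, deriv_chi_of_eq_zero (chi_cut_of_not_mem hδ h), chi_cut_of_not_mem hδ h]
  ring

/-! ### The time profile -/

theorem timeStep_arg (t₀ Δ : ℚ) (hΔ : 0 < Δ) (t : ℝ) :
    ((1 / Δ : ℚ) : ℝ) * t + ((-(t₀ / Δ) : ℚ) : ℝ) = (t - (t₀ : ℝ)) / (Δ : ℝ) := by
  have hΔ' : (Δ : ℝ) ≠ 0 := by exact_mod_cast hΔ.ne'
  push_cast
  field_simp
  ring

theorem timeStep_eq_chi (t₀ Δ : ℚ) (t : ℝ) :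
    timeStep t₀ Δ t = chi (1 / Δ) (-(t₀ / Δ)) 0 1 t := by
  unfold timeStep
  rw [base_eq_chi_mul]
  push_cast
  ring

theorem chi_timeStep_of_le (t₀ Δ : ℚ) (hΔ : 0 < Δ) {t : ℝ} (ht : t ≤ t₀) :
    chi (1 / Δ) (-(t₀ / Δ)) 0 1 t = 0 := by
  have hΔ' : (0 : ℝ) < (Δ : ℝ) := by exact_mod_cast hΔ
  apply chi_eq_zero
  left
  rw [timeStep_arg t₀ Δ hΔ]
  exact div_nonpos_of_nonpos_of_nonneg (by linarith) hΔ'.le

theorem chi_timeStep_of_ge (t₀ Δ : ℚ) (hΔ : 0 < Δ) {t : ℝ} (ht : (t₀ : ℝ) + Δ ≤ t) :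
    chi (1 / Δ) (-(t₀ / Δ)) 0 1 t = 1 := by
  have hΔ' : (0 : ℝ) < (Δ : ℝ) := by exact_mod_cast hΔ
  apply chi_eq_one
  · rw [timeStep_arg t₀ Δ hΔ, le_div_iff₀ hΔ']
    linarith
  · push_cast
    linarith

theorem timeStep_of_le (t₀ Δ : ℚ) (hΔ : 0 < Δ) {t : ℝ} (ht : t ≤ t₀) : timeStep t₀ Δ t = 0 := by
  rw [timeStep_eq_chi, chi_timeStep_of_le t₀ Δ hΔ ht]

theorem timeStep_of_ge (t₀ Δ : ℚ) (hΔ : 0 < Δ) {t : ℝ} (ht : (t₀ : ℝ) + Δ ≤ t) :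
    timeStep t₀ Δ t = 1 := by
  rw [timeStep_eq_chi, chi_timeStep_of_ge t₀ Δ hΔ ht]

theorem timeStep_mem_Icc (t₀ Δ : ℚ) (t : ℝ) : timeStep t₀ Δ t ∈ Set.Icc (0 : ℝ) 1 := by
  rw [timeStep_eq_chi]
  exact ⟨chi_nonneg _ _ _ _ _, chi_le_one _ _ _ _ _⟩

theorem timeStep_contDiff (t₀ Δ : ℚ) : ContDiff ℝ ∞ (timeStep t₀ Δ) :=
  base_smooth _ _ _ _ _ _ _

theorem deriv_timeStep_eq_zero (t₀ Δ : ℚ) (hΔ : 0 < Δ) {t : ℝ}
    (ht : t ∉ Set.Ioo (t₀ : ℝ) (t₀ + Δ)) : deriv (timeStep t₀ Δ) t = 0 := by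
  unfold timeStep
  rw [deriv_base]
  rcases le_or_gt t (t₀ : ℝ) with h | h
  · rw [deriv_chi_of_eq_zero (chi_timeStep_of_le t₀ Δ hΔ h), chi_timeStep_of_le t₀ Δ hΔ h]
    ring
  · have h' : (t₀ : ℝ) + Δ ≤ t := by
      by_contra hcon
      exact ht ⟨h, not_le.mp hcon⟩
    rw [deriv_chi_of_eq_one (chi_timeStep_of_ge t₀ Δ hΔ h'), chi_timeStep_of_ge t₀ Δ hΔ h']
    push_cast
    ring

theorem deriv_timeStep_contDiff (t₀ Δ : ℚ) : ContDiff ℝ ∞ (deriv (timeStep t₀ Δ)) :=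
  ((contDiff_infty_iff_deriv (𝕜 := ℝ)).1 (timeStep_contDiff t₀ Δ)).2

theorem timeStep_hasDerivAt (t₀ Δ : ℚ) (t : ℝ) :
    HasDerivAt (timeStep t₀ Δ) (deriv (timeStep t₀ Δ) t) t :=
  ((timeStep_contDiff t₀ Δ).differentiable (by simp)).differentiableAt.hasDerivAt

/-! ### The one-dimensional factors of a move -/

theorem cut_of_mem (m : SMove) (i : Fin 3) {x : ℝ} (h1 : (m.lo i : ℝ) ≤ x)
    (h2 : x ≤ (m.hi i : ℝ)) : m.cut i x = 1 := by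
  unfold SMove.cut
  rw [cutBase_of_mem m.hδ 1 0 0 h1 h2]
  push_cast
  ring

theorem cut_of_not_mem (m : SMove) (i : Fin 3) {x : ℝ}
    (h : x ≤ (m.lo i : ℝ) - (m.δ : ℝ) ∨ (m.hi i : ℝ) + (m.δ : ℝ) ≤ x) : m.cut i x = 0 :=
  cutBase_of_not_mem m.hδ 1 0 0 h

theorem deriv_cut_of_mem (m : SMove) (i : Fin 3) {x : ℝ} (h1 : (m.lo i : ℝ) ≤ x)
    (h2 : x ≤ (m.hi i : ℝ)) : deriv (m.cut i) x = 0 := by
  unfold SMove.cut
  rw [deriv_cutBase_of_mem m.hδ 1 0 0 h1 h2]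
  push_cast
  ring

theorem deriv_cut_of_not_mem (m : SMove) (i : Fin 3) {x : ℝ}
    (h : x ≤ (m.lo i : ℝ) - (m.δ : ℝ) ∨ (m.hi i : ℝ) + (m.δ : ℝ) ≤ x) :
    deriv (m.cut i) x = 0 :=
  deriv_cutBase_of_not_mem m.hδ 1 0 0 h

theorem deriv_cutPsi_of_mem (m : SMove) {x : ℝ} (h1 : (m.lo m.b : ℝ) ≤ x)
    (h2 : x ≤ (m.hi m.b : ℝ)) : deriv m.cutPsi x = (m.c₀ : ℝ) + (m.c₁ : ℝ) * x := by
  unfold SMove.cutPsi
  rw [deriv_cutBase_of_mem m.hδ 0 m.c₀ (m.c₁ / 2) h1 h2]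
  push_cast
  ring

theorem deriv_cutPsi_of_not_mem (m : SMove) {x : ℝ}
    (h : x ≤ (m.lo m.b : ℝ) - (m.δ : ℝ) ∨ (m.hi m.b : ℝ) + (m.δ : ℝ) ≤ x) :
    deriv m.cutPsi x = 0 :=
  deriv_cutBase_of_not_mem m.hδ 0 m.c₀ (m.c₁ / 2) h

theorem cutNegPsi_of_not_mem (m : SMove) {x : ℝ}
    (h : x ≤ (m.lo m.b : ℝ) - (m.δ : ℝ) ∨ (m.hi m.b : ℝ) + (m.δ : ℝ) ≤ x) :
    m.cutNegPsi x = 0 :=
  cutBase_of_not_mem m.hδ 0 (-m.c₀) (-(m.c₁ / 2)) h

theorem cutNegPsi_eq_neg (m : SMove) : m.cutNegPsi = fun x => -m.cutPsi x := by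
  funext x
  unfold SMove.cutNegPsi SMove.cutPsi
  rw [base_eq_chi_mul, base_eq_chi_mul]
  push_cast
  ring

theorem deriv_cutNegPsi (m : SMove) (x : ℝ) : deriv m.cutNegPsi x = -deriv m.cutPsi x := by
  rw [cutNegPsi_eq_neg]
  exact deriv.fun_neg

theorem cut_contDiff (m : SMove) (i : Fin 3) : ContDiff ℝ ∞ (m.cut i) := base_smooth _ _ _ _ _ _ _

theorem cutPsi_contDiff (m : SMove) : ContDiff ℝ ∞ m.cutPsi := base_smooth _ _ _ _ _ _ _

theorem cutNegPsi_contDiff (m : SMove) : ContDiff ℝ ∞ m.cutNegPsi := base_smooth _ _ _ _ _ _ _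

theorem contDiff_deriv_of_contDiff {f : ℝ → ℝ} (hf : ContDiff ℝ ∞ f) : ContDiff ℝ ∞ (deriv f) :=
  ((contDiff_infty_iff_deriv (𝕜 := ℝ)).1 hf).2

theorem facA_contDiff (m : SMove) (i : Fin 3) : ContDiff ℝ ∞ (m.facA i) := by
  unfold SMove.facA
  split_ifs
  · exact contDiff_deriv_of_contDiff (cutPsi_contDiff m)
  · exact cut_contDiff m i

theorem facB_contDiff (m : SMove) (i : Fin 3) : ContDiff ℝ ∞ (m.facB i) := by
  unfold SMove.facB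
  split_ifs
  · exact contDiff_deriv_of_contDiff (cut_contDiff m m.a)
  · exact cutNegPsi_contDiff m
  · exact cut_contDiff m i

theorem facA_a (m : SMove) : m.facA m.a = m.cut m.a := by
  simp [SMove.facA, m.hab]

theorem facA_b (m : SMove) : m.facA m.b = deriv m.cutPsi := by
  simp [SMove.facA]

theorem facA_of_ne (m : SMove) {i : Fin 3} (hi : i ≠ m.b) : m.facA i = m.cut i := by
  simp [SMove.facA, hi]

theorem facB_a (m : SMove) : m.facB m.a = deriv (m.cut m.a) := by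
  simp [SMove.facB]

theorem facB_b (m : SMove) : m.facB m.b = m.cutNegPsi := by
  simp [SMove.facB, m.hab.symm]

theorem facB_of_ne (m : SMove) {i : Fin 3} (hia : i ≠ m.a) (hib : i ≠ m.b) :
    m.facB i = m.cut i := by
  simp [SMove.facB, hia, hib]

/-! ### The spatial field of a move -/

theorem SMove.field_of_mem_plateau (m : SMove) {y : V} (hy : y ∈ m.plateau) :
    m.field y = Pi.single m.a ((m.c₀ : ℝ) + (m.c₁ : ℝ) * y m.b) := by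
  have hA : ∏ i, m.facA i (y i) = (m.c₀ : ℝ) + (m.c₁ : ℝ) * y m.b := by
    rw [Finset.prod_eq_single_of_mem m.b (Finset.mem_univ _)]
    · rw [facA_b]
      exact deriv_cutPsi_of_mem m (hy m.b).1 (hy m.b).2
    · intro i _ hi
      rw [facA_of_ne m hi]
      exact cut_of_mem m i (hy i).1 (hy i).2
  have hB : ∏ i, m.facB i (y i) = 0 := by
    apply Finset.prod_eq_zero (Finset.mem_univ m.a)
    rw [facB_a]
    exact deriv_cut_of_mem m m.a (hy m.a).1 (hy m.a).2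
  unfold SMove.field
  rw [hA, hB, Pi.single_zero, add_zero]

theorem SMove.field_of_not_mem_support (m : SMove) {y : V} (hy : y ∉ m.support) :
    m.field y = 0 := by
  have hex : ∃ i, y i ≤ (m.lo i : ℝ) - (m.δ : ℝ) ∨ (m.hi i : ℝ) + (m.δ : ℝ) ≤ y i := by
    by_contra hcon
    simp only [not_exists, not_or, not_le] at hcon
    exact hy fun i => hcon i
  obtain ⟨i, hi⟩ := hex
  have hA : ∏ k, m.facA k (y k) = 0 := by
    apply Finset.prod_eq_zero (Finset.mem_univ i)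
    by_cases hib : i = m.b
    · rw [hib] at hi ⊢
      rw [facA_b]
      exact deriv_cutPsi_of_not_mem m hi
    · rw [facA_of_ne m hib]
      exact cut_of_not_mem m i hi
  have hB : ∏ k, m.facB k (y k) = 0 := by
    apply Finset.prod_eq_zero (Finset.mem_univ i)
    by_cases hia : i = m.a
    · rw [hia] at hi ⊢
      rw [facB_a]
      exact deriv_cut_of_not_mem m m.a hi
    · by_cases hib : i = m.b
      · rw [hib] at hi ⊢
        rw [facB_b]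
        exact cutNegPsi_of_not_mem m hi
      · rw [facB_of_ne m hia hib]
        exact cut_of_not_mem m i hi
  unfold SMove.field
  rw [hA, hB, Pi.single_zero, Pi.single_zero, add_zero]

/-! ### The time-dependent field of a move -/

theorem moveField_apply (m : SMove) (t₀ Δ : ℚ) (p : ℝ × V) :
    moveField m t₀ Δ p = deriv (timeStep t₀ Δ) p.1 • m.field p.2 := by
  unfold moveField tensorTerm SMove.field
  simp only [Pi.add_apply]
  rw [smul_add, ← Pi.single_smul, ← Pi.single_smul]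
  simp only [smul_eq_mul]

theorem tensorTerm_smooth (j : Fin 3) {T : ℝ → ℝ} {F : Fin 3 → ℝ → ℝ}
    (hT : ContDiff ℝ ∞ T) (hF : ∀ i, ContDiff ℝ ∞ (F i)) : ContDiff ℝ ∞ (tensorTerm j T F) := by
  unfold tensorTerm
  have h1 : ContDiff ℝ ∞ fun p : ℝ × V => T p.1 * ∏ i, F i (p.2 i) := by
    refine (hT.comp contDiff_fst).mul (contDiff_prod fun i _ => (hF i).comp ?_)
    exact (contDiff_apply ℝ ℝ i).comp contDiff_snd
  rw [contDiff_pi]
  intro k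
  by_cases hk : k = j
  · subst hk
    simpa using h1
  · simp only [Pi.single_eq_of_ne hk]
    exact contDiff_const

theorem moveField_contDiff (m : SMove) (t₀ Δ : ℚ) : ContDiff ℝ ∞ (moveField m t₀ Δ) := by
  unfold moveField
  exact (tensorTerm_smooth m.a (deriv_timeStep_contDiff t₀ Δ) (facA_contDiff m)).add
    (tensorTerm_smooth m.b (deriv_timeStep_contDiff t₀ Δ) (facB_contDiff m))

theorem moveField_hasCompactSupport (m : SMove) (t₀ Δ : ℚ) (hΔ : 0 < Δ) :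
    HasCompactSupport (moveField m t₀ Δ) := by
  refine HasCompactSupport.intro
    (K := Icc (t₀ : ℝ) (t₀ + Δ) ×ˢ
      (Set.pi Set.univ fun i : Fin 3 => Icc ((m.lo i : ℝ) - (m.δ : ℝ)) ((m.hi i : ℝ) + (m.δ : ℝ))))
    ?_ ?_
  · exact isCompact_Icc.prod (isCompact_univ_pi fun i => isCompact_Icc)
  · intro p hp
    rw [moveField_apply]
    by_cases h1 : p.1 ∈ Icc (t₀ : ℝ) (t₀ + Δ)
    · have h2 : p.2 ∉ Set.pi Set.univ
          fun i : Fin 3 => Icc ((m.lo i : ℝ) - (m.δ : ℝ)) ((m.hi i : ℝ) + (m.δ : ℝ)) :=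
        fun h2 => hp ⟨h1, h2⟩
      have h3 : p.2 ∉ m.support := by
        intro h3
        apply h2
        intro i _
        exact ⟨(h3 i).1.le, (h3 i).2.le⟩
      rw [SMove.field_of_not_mem_support m h3, smul_zero]
    · rw [deriv_timeStep_eq_zero t₀ Δ hΔ (fun h => h1 ⟨h.1.le, h.2.le⟩), zero_smul]

/-! ### Divergence -/

/-- A component of a directional derivative as a one-dimensional derivative. -/
theorem fderiv_apply_eq_deriv {U : Field} {p : ℝ × V} (hU : DifferentiableAt ℝ U p)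
    (v : ℝ × V) (j : Fin 3) :
    fderiv ℝ U p v j = deriv (fun s : ℝ => U (p + s • v) j) 0 := by
  have h1 : HasDerivAt (fun s : ℝ => U (p + s • v)) (fderiv ℝ U p v) 0 :=
    hU.hasFDerivAt.hasLineDerivAt v
  have h2 := (hasDerivAt_pi.1 h1) j
  exact h2.deriv.symm

/-- The divergence of a tensor term: differentiate the factor of the component's own
coordinate. -/
theorem spaceDiv_tensorTerm (j₀ : Fin 3) {T : ℝ → ℝ} {F : Fin 3 → ℝ → ℝ}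
    (hT : ContDiff ℝ ∞ T) (hF : ∀ i, ContDiff ℝ ∞ (F i)) (p : ℝ × V) :
    spaceDiv (tensorTerm j₀ T F) p =
      T p.1 * (deriv (F j₀) (p.2 j₀) * ∏ i ∈ Finset.univ.erase j₀, F i (p.2 i)) := by
  have hd : DifferentiableAt ℝ (tensorTerm j₀ T F) p :=
    ((tensorTerm_smooth j₀ hT hF).differentiable (by simp)).differentiableAt
  unfold spaceDiv
  rw [Finset.sum_eq_single j₀]
  · rw [fderiv_apply_eq_deriv hd]
    have hfun : (fun s : ℝ => tensorTerm j₀ T F (p + s • ((0 : ℝ), (Pi.single j₀ 1 : V))) j₀) =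
        fun s => T p.1 * (F j₀ (p.2 j₀ + s) * ∏ i ∈ Finset.univ.erase j₀, F i (p.2 i)) := by
      funext s
      unfold tensorTerm
      simp only [Pi.single_eq_same, Prod.fst_add, Prod.smul_fst, mul_zero, add_zero,
        Prod.snd_add, Prod.smul_snd, Pi.add_apply, Pi.smul_apply, smul_eq_mul]
      congr 1
      rw [← Finset.mul_prod_erase Finset.univ _ (Finset.mem_univ j₀)]
      congr 1
      · simp
      · refine Finset.prod_congr rfl fun i hi => ?_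
        rw [Pi.single_eq_of_ne (Finset.ne_of_mem_erase hi)]
        simp
    rw [hfun]
    have h1 : HasDerivAt (fun s : ℝ => F j₀ (p.2 j₀ + s)) (deriv (F j₀) (p.2 j₀)) 0 := by
      have h2 : HasDerivAt (F j₀) (deriv (F j₀) (p.2 j₀ + 0)) (p.2 j₀ + 0) :=
        (((hF j₀).differentiable (by simp)).differentiableAt).hasDerivAt
      have h3 := h2.comp_const_add (p.2 j₀) 0
      simpa using h3
    exact ((h1.mul_const _).const_mul _).deriv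
  · intro j _ hj
    rw [fderiv_apply_eq_deriv hd]
    have hfun : (fun s : ℝ => tensorTerm j₀ T F (p + s • ((0 : ℝ), (Pi.single j 1 : V))) j) =
        fun _ => 0 := by
      funext s
      unfold tensorTerm
      exact Pi.single_eq_of_ne hj _
    rw [hfun]
    simp
  · intro h
    exact absurd (Finset.mem_univ _) h

theorem moveField_spaceDiv (m : SMove) (t₀ Δ : ℚ) (p : ℝ × V) :
    spaceDiv (moveField m t₀ Δ) p = 0 := by
  have hT := deriv_timeStep_contDiff t₀ Δ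
  have hA := tensorTerm_smooth m.a hT (facA_contDiff m)
  have hB := tensorTerm_smooth m.b hT (facB_contDiff m)
  have hadd : spaceDiv (moveField m t₀ Δ) p =
      spaceDiv (tensorTerm m.a (deriv (timeStep t₀ Δ)) m.facA) p +
        spaceDiv (tensorTerm m.b (deriv (timeStep t₀ Δ)) m.facB) p := by
    unfold spaceDiv moveField
    rw [fderiv_add (hA.differentiable (by simp)).differentiableAt
      (hB.differentiable (by simp)).differentiableAt]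
    simp [Finset.sum_add_distrib]
  rw [hadd, spaceDiv_tensorTerm m.a hT (facA_contDiff m),
    spaceDiv_tensorTerm m.b hT (facB_contDiff m)]
  have hPA : ∏ i ∈ Finset.univ.erase m.a, m.facA i (p.2 i) =
      deriv m.cutPsi (p.2 m.b) *
        ∏ i ∈ (Finset.univ.erase m.a).erase m.b, m.cut i (p.2 i) := by
    rw [← Finset.mul_prod_erase _ _
      (show m.b ∈ Finset.univ.erase m.a from Finset.mem_erase.2 ⟨m.hab.symm, Finset.mem_univ _⟩)]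
    congr 1
    · rw [facA_b]
    · refine Finset.prod_congr rfl fun i hi => ?_
      rw [facA_of_ne m (Finset.ne_of_mem_erase hi)]
  have hPB : ∏ i ∈ Finset.univ.erase m.b, m.facB i (p.2 i) =
      deriv (m.cut m.a) (p.2 m.a) *
        ∏ i ∈ (Finset.univ.erase m.a).erase m.b, m.cut i (p.2 i) := by
    rw [← Finset.mul_prod_erase _ _
      (show m.a ∈ Finset.univ.erase m.b from Finset.mem_erase.2 ⟨m.hab, Finset.mem_univ _⟩),
      Finset.erase_right_comm]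
    congr 1
    · rw [facB_a]
    · refine Finset.prod_congr rfl fun i hi => ?_
      rw [facB_of_ne m (Finset.ne_of_mem_erase (Finset.mem_of_mem_erase hi))
        (Finset.ne_of_mem_erase hi)]
  rw [hPA, hPB, facA_a, facB_b, deriv_cutNegPsi]
  ring

end Crest.Agent.S0170.Helper68
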