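import Mathlib
import Crest.Prelude.Def_BoxFlow
import Crest.Agent.Lib.S0170.Defs
import Crest.Agent.Lib.S0170.Helper68Flow
import Crest.Agent.Lib.S0170.Helper68MoveField

/-!
# S0170, module M7: tracking of the boxes along a timed list of valid moves
-/

set_option autoImplicit false

open scoped ContDiff NNReal
open Set

namespace Crest.Agent.S0170.Helper68

open Crest.AnalysisR.BoxFlow

/-- Before its starting time the field of a timed sequence vanishes. -/
theorem listField_eq_zero_of_le {n : ℕ} (nbhd : Fin n → Set V) {T : ℚ} {G G' : Fin n → V → V}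
    {l : List (SMove × ℚ × ℚ)} (h : TimedSeq nbhd T G l G') (p : ℝ × V) (hp : p.1 ≤ (T : ℝ)) :
    listField l p = 0 := by
  induction h with
  | nil T G hT => rfl
  | cons T G G' G'' m mv t₀ Δ l hT hΔ hv hG hl ih =>
    show moveField m t₀ Δ p + listField l p = 0
    have hT' : (T : ℝ) ≤ t₀ := by exact_mod_cast hT
    have hΔ' : (0 : ℝ) < Δ := by exact_mod_cast hΔ
    rw [moveField_apply, deriv_timeStep_eq_zero t₀ Δ hΔ (fun hmem => by linarith [hmem.1]),
      zero_smul, zero_add]
    apply ih
    push_cast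
    linarith

/-- The plateau map is a translation by the plateau field. -/
theorem map_eq_add (m : SMove) (y : V) :
    m.map y = y + Pi.single m.a ((m.c₀ : ℝ) + (m.c₁ : ℝ) * y m.b) := by
  funext i
  unfold SMove.map
  by_cases hi : i = m.a
  · subst hi
    simp
  · simp [Function.update_of_ne hi, Pi.single_eq_of_ne hi]

/-- The plateau is convex: it contains the segment between two of its points. -/
theorem plateau_segment (m : SMove) {y v : V} (h0 : y ∈ m.plateau) (h1 : y + v ∈ m.plateau)
    {s : ℝ} (hs : s ∈ Icc (0 : ℝ) 1) : y + s • v ∈ m.plateau := by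
  intro i
  have a0 := h0 i
  have a1 := h1 i
  simp only [Pi.add_apply, Pi.smul_apply, smul_eq_mul] at a1 ⊢
  constructor
  · nlinarith [mul_nonneg (sub_nonneg.2 hs.2) (sub_nonneg.2 a0.1),
      mul_nonneg hs.1 (sub_nonneg.2 a1.1)]
  · nlinarith [mul_nonneg (sub_nonneg.2 hs.2) (sub_nonneg.2 a0.2),
      mul_nonneg hs.1 (sub_nonneg.2 a1.2)]

/-- tracking of the boxes along a timed list of valid moves -/
theorem flow_track {n : ℕ} (nbhd : Fin n → Set V) (U : Field) (Φ : ℝ → V → V)
    (hU : ContDiff ℝ ∞ U) (hc : HasCompactSupport U) (hΦ : IsFlow U Φ)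
    (T : ℚ) (G G' : Fin n → V → V) (l : List (SMove × ℚ × ℚ))
    (hl : TimedSeq nbhd T G l G')
    (hUl : ∀ p : ℝ × V, (T : ℝ) ≤ p.1 → U p = listField l p)
    (hG : ∀ i, ∀ x ∈ nbhd i, Φ T x = G i x) :
    ∀ i, ∀ x ∈ nbhd i, Φ 1 x = G' i x := by
  obtain ⟨K, hK⟩ := Field.exists_lipschitz U (hU.of_le (by simp)) hc
  induction hl with
  | nil T G hT =>
    intro i x hx
    have hT' : (T : ℝ) ≤ 3 / 4 := by
      have h := (Rat.cast_le (K := ℝ)).mpr hT
      push_cast at h
      exact h
    have h := isFlow_eq_of_field_eq_zero hΦ (a := (T : ℝ)) (b := 1)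
      (fun t ht z => by rw [hUl (t, z) ht.1]; rfl) x 1 ⟨by linarith, le_rfl⟩
    rw [h, hG i x hx]
  | cons T G G' G'' m mv t₀ Δ l hT hΔ hv hG' hl ih =>
    have hT' : (T : ℝ) ≤ t₀ := by exact_mod_cast hT
    have hΔ' : (0 : ℝ) < Δ := by exact_mod_cast hΔ
    have hUeq : ∀ p : ℝ × V, (T : ℝ) ≤ p.1 → U p = moveField m t₀ Δ p + listField l p := hUl
    have hU1 : ∀ (t : ℝ) (z : V), (T : ℝ) ≤ t → t ≤ (t₀ : ℝ) + Δ →
        U (t, z) = deriv (timeStep t₀ Δ) t • m.field z := by
      intro t z h1 h2
      rw [hUeq (t, z) h1, listField_eq_zero_of_le nbhd hl (t, z) (by push_cast; exact h2),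
        add_zero, moveField_apply]
    apply ih
    · intro p hp
      have hp' : (t₀ : ℝ) + Δ ≤ p.1 := by
        push_cast at hp
        exact hp
      rw [hUeq p (by linarith), moveField_apply,
        deriv_timeStep_eq_zero t₀ Δ hΔ (fun hmem => by linarith [hmem.2]), zero_smul, zero_add]
    · intro i x hx
      have h1 : Φ t₀ x = G i x := by
        have h := isFlow_eq_of_field_eq_zero hΦ (a := (T : ℝ)) (b := (t₀ : ℝ))
          (fun t ht z => by
            rw [hU1 t z ht.1 (by linarith [ht.2]),
              deriv_timeStep_eq_zero t₀ Δ hΔ (fun hmem => by linarith [hmem.1, ht.2]), zero_smul])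
          x t₀ ⟨hT', le_rfl⟩
        rw [h, hG i x hx]
      rw [hG' i x hx, Rat.cast_add]
      by_cases hmv : mv i = true
      · rw [if_pos hmv]
        obtain ⟨hp0, hp1⟩ := (hv i).1 hmv x hx
        rw [map_eq_add] at hp1 ⊢
        have key := isFlow_track_line hΦ hK (a := (t₀ : ℝ)) (b := (t₀ : ℝ) + Δ) (x := x)
          (v := Pi.single m.a ((m.c₀ : ℝ) + (m.c₁ : ℝ) * G i x m.b)) (τ := timeStep t₀ Δ)
          (τ' := deriv (timeStep t₀ Δ)) (fun t _ => timeStep_hasDerivAt t₀ Δ t)
          (timeStep_of_le t₀ Δ hΔ le_rfl) (fun t ht => ?_) ((t₀ : ℝ) + Δ) ⟨by linarith, le_rfl⟩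
        · rw [key, timeStep_of_ge t₀ Δ hΔ le_rfl, one_smul, h1]
        · rw [h1, hU1 t _ (by linarith [ht.1]) ht.2]
          congr 1
          have hseg := plateau_segment m hp0 hp1 (timeStep_mem_Icc t₀ Δ t)
          rw [SMove.field_of_mem_plateau m hseg]
          simp [Pi.single_eq_of_ne m.hab.symm]
      · rw [if_neg hmv]
        have hmv' : mv i = false := by simpa using hmv
        have hns := (hv i).2 hmv' x hx
        have key := isFlow_track_line hΦ hK (a := (t₀ : ℝ)) (b := (t₀ : ℝ) + Δ) (x := x)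
          (v := 0) (τ := timeStep t₀ Δ)
          (τ' := deriv (timeStep t₀ Δ)) (fun t _ => timeStep_hasDerivAt t₀ Δ t)
          (timeStep_of_le t₀ Δ hΔ le_rfl) (fun t ht => ?_) ((t₀ : ℝ) + Δ) ⟨by linarith, le_rfl⟩
        · rw [key, smul_zero, add_zero, h1]
        · rw [smul_zero, add_zero, smul_zero, h1, hU1 t _ (by linarith [ht.1]) ht.2,
            SMove.field_of_not_mem_support m hns, smul_zero]

/-! ### Global flow without a time-window hypothesis -/

/-- A compactly supported field vanishes for large times. -/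
theorem exists_time_bound (U : Field) (hc : HasCompactSupport U) :
    ∃ R : ℝ, 0 ≤ R ∧ ∀ p : ℝ × V, R < |p.1| → U p = 0 := by
  obtain ⟨R, hR⟩ := hc.isCompact.isBounded.subset_closedBall (0 : ℝ × V)
  refine ⟨max R 0, le_max_right _ _, fun p hp => ?_⟩
  apply image_eq_zero_of_notMem_tsupport
  intro hmem
  have h1 := hR hmem
  rw [Metric.mem_closedBall, dist_zero_right] at h1
  have h2 : |p.1| ≤ ‖p‖ := by
    rw [← Real.norm_eq_abs]
    exact norm_fst_le p
  linarith [le_max_left R 0]

/-- The solution curve through `x` on `[-S, S]`. -/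
theorem exists_solution_Icc_symm (U : Field) (hU : ContDiff ℝ 1 U) (hc : HasCompactSupport U)
    (S : ℝ) (hS : 0 ≤ S) (x : V) :
    ∃ α : ℝ → V, α 0 = x ∧
      ∀ t ∈ Icc (-S) S, HasDerivWithinAt α (U (t, α t)) (Icc (-S) S) t := by
  obtain ⟨L, hL⟩ := Field.exists_bound U hU.continuous hc
  obtain ⟨K, hK⟩ := Field.exists_lipschitz U hU hc
  have h0 : (0 : ℝ) ∈ Icc (-S) S := ⟨by linarith, hS⟩
  have hPL : IsPicardLindelof (fun t y => U (t, y)) (⟨0, h0⟩ : Icc (-S) S) x
      (Real.toNNReal S * L) 0 L K := by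
    refine ⟨fun t _ => (Field.lipschitz_section hK t).lipschitzOnWith, fun y _ => ?_,
      fun t _ y _ => hL _, ?_⟩
    · exact (hU.continuous.comp (Continuous.prodMk_left y)).continuousOn
    · simp only [NNReal.coe_mul, Real.coe_toNNReal S hS, NNReal.coe_zero, sub_zero]
      have : max S (0 - (-S)) = S := by simp
      rw [this]
      linarith [mul_comm (L : ℝ) S]
  exact hPL.exists_eq_forall_mem_Icc_hasDerivWithinAt₀

/-- **Global flow**, Interface form: a smooth compactly supported field has a flow defined for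
all real times. -/
theorem exists_isFlow_global (U : Field) (hU : ContDiff ℝ ∞ U) (hc : HasCompactSupport U) :
    ∃ Φ : ℝ → V → V, IsFlow U Φ := by
  have hU1 : ContDiff ℝ 1 U := hU.of_le (by simp)
  obtain ⟨R, hR0, hR⟩ := exists_time_bound U hc
  have hS : (0 : ℝ) ≤ R + 3 := by linarith
  choose α hα0 hα using fun x => exists_solution_Icc_symm U hU1 hc (R + 3) hS x
  have hcont : ∀ x, ContinuousOn (α x) (Icc (-(R + 3)) (R + 3)) := fun x t ht =>
    (hα x t ht).continuousWithinAt
  -- the solution is constant before time `-(R+1)`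
  have hL : ∀ x, ∀ t ∈ Icc (-(R + 3)) (-(R + 1)), α x t = α x (-(R + 3)) := by
    intro x
    refine constant_of_has_deriv_right_zero ((hcont x).mono ?_) ?_
    · exact Icc_subset_Icc le_rfl (by linarith)
    · intro s hs
      have hs2 : s ∈ Icc (-(R + 3)) (R + 3) := ⟨hs.1, by linarith [hs.2]⟩
      have h2 := hα x s hs2
      rw [hR (s, α x s) (by
        show R < |s|
        rw [abs_of_neg (by linarith [hs.2])]
        linarith [hs.2])] at h2
      exact h2.mono_of_mem_nhdsWithin (Icc_mem_nhdsGE_of_mem ⟨hs.1, by linarith [hs.2]⟩)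
  -- the solution is constant after time `R+1`
  have hRt : ∀ x, ∀ t ∈ Icc (R + 1) (R + 3), α x t = α x (R + 1) := by
    intro x
    refine constant_of_has_deriv_right_zero ((hcont x).mono ?_) ?_
    · exact Icc_subset_Icc (by linarith) le_rfl
    · intro s hs
      have hs2 : s ∈ Icc (-(R + 3)) (R + 3) := ⟨by linarith [hs.1], hs.2.le⟩
      have h2 := hα x s hs2
      rw [hR (s, α x s) (by
        show R < |s|
        rw [abs_of_pos (by linarith [hs.1])]
        linarith [hs.1])] at h2
      exact h2.mono_of_mem_nhdsWithin (Icc_mem_nhdsGE_of_mem ⟨by linarith [hs.1], hs.2⟩)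
  refine ⟨fun t x => α x (max (-(R + 2)) (min t (R + 2))), fun x => ?_, fun t x => ?_⟩
  · have h1 : min (0 : ℝ) (R + 2) = 0 := min_eq_left (by linarith)
    have h2 : max (-(R + 2)) (0 : ℝ) = 0 := max_eq_right (by linarith)
    show α x (max (-(R + 2)) (min 0 (R + 2))) = x
    rw [h1, h2, hα0]
  · show HasDerivAt (fun s => α x (max (-(R + 2)) (min s (R + 2))))
      (U (t, α x (max (-(R + 2)) (min t (R + 2))))) t
    rcases lt_or_ge t (-(R + 1)) with ht | ht
    · have hev : (fun s => α x (max (-(R + 2)) (min s (R + 2)))) =ᶠ[nhds t]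
          fun _ => α x (-(R + 3)) := by
        filter_upwards [Iio_mem_nhds ht] with s hs
        refine hL x _ ⟨?_, ?_⟩
        · exact le_trans (by linarith) (le_max_left _ _)
        · exact max_le (by linarith) ((min_le_left _ _).trans (le_of_lt hs))
      have hUz : U (t, α x (max (-(R + 2)) (min t (R + 2)))) = 0 := hR _ (by
        show R < |t|
        rw [abs_of_neg (by linarith)]
        linarith)
      rw [hUz]
      exact (hasDerivAt_const t (α x (-(R + 3)))).congr_of_eventuallyEq hev
    rcases lt_or_ge (R + 1) t with ht' | ht'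
    · have hev : (fun s => α x (max (-(R + 2)) (min s (R + 2)))) =ᶠ[nhds t]
          fun _ => α x (R + 1) := by
        filter_upwards [Ioi_mem_nhds ht'] with s hs
        refine hRt x _ ⟨?_, ?_⟩
        · exact le_trans (le_min (le_of_lt hs) (by linarith)) (le_max_right _ _)
        · exact max_le (by linarith) ((min_le_right _ _).trans (by linarith))
      have hUz : U (t, α x (max (-(R + 2)) (min t (R + 2)))) = 0 := hR _ (by
        show R < |t|
        rw [abs_of_pos (by linarith)]
        linarith)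
      rw [hUz]
      exact (hasDerivAt_const t (α x (R + 1))).congr_of_eventuallyEq hev
    · have ht01 : max (-(R + 2)) (min t (R + 2)) = t := by
        rw [min_eq_left (by linarith), max_eq_right (by linarith)]
      have hev : (fun s => α x (max (-(R + 2)) (min s (R + 2)))) =ᶠ[nhds t] α x := by
        filter_upwards [Ioo_mem_nhds (show -(R + 2) < t by linarith) (show t < R + 2 by linarith)]
          with s hs
        rw [min_eq_left hs.2.le, max_eq_right hs.1.le]
      rw [ht01]
      have h3 := (hα x t ⟨by linarith, by linarith⟩).hasDerivAt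
        (Icc_mem_nhds (by linarith) (by linarith))
      exact h3.congr_of_eventuallyEq hev

end Crest.Agent.S0170.Helper68
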