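import Mathlib
import Crest.Agent.Lib.S0170.Defs

/-!
# Derivative bounds for `Real.smoothTransition` (S0170, module M3, helper82)

On `ℝ \ {0, 1}` every iterated derivative of `ρ = Real.smoothTransition` is a finite sum of
monomials `c * s^i * r^l * a^j * b^k` with `s = ρ x`, `r = 1 - ρ x`, `a = x⁻¹`, `b = (1 - x)⁻¹`.
This gives an exact formula and the closed-form bound
`|iteratedDeriv m ρ x| ≤ 8 * 24^m * (2m+1)^m * (2m)!` for all real `x`.
-/

namespace Crest.Agent.S0170.Helper82

open Real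

/-- A monomial `c * s^i * r^l * a^j * b^k`. -/
structure StepMono where
  c : ℤ
  i : ℕ
  l : ℕ
  j : ℕ
  k : ℕ

namespace StepMono

/-- Value of a monomial at `x`. -/
noncomputable def eval (M : StepMono) (x : ℝ) : ℝ :=
  (M.c : ℝ) * smoothTransition x ^ M.i * (1 - smoothTransition x) ^ M.l * x⁻¹ ^ M.j *
    (1 - x)⁻¹ ^ M.k

/-- Symbolic derivative of a monomial. -/
def d (M : StepMono) : List StepMono :=
  [⟨M.c * M.i, M.i, M.l + 1, M.j + 2, M.k⟩, ⟨M.c * M.i, M.i, M.l + 1, M.j, M.k + 2⟩,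
   ⟨-(M.c * M.l), M.i + 1, M.l, M.j + 2, M.k⟩, ⟨-(M.c * M.l), M.i + 1, M.l, M.j, M.k + 2⟩,
   ⟨-(M.c * M.j), M.i, M.l, M.j + 1, M.k⟩, ⟨M.c * M.k, M.i, M.l, M.j, M.k + 1⟩]

end StepMono

/-- Value of a list of monomials. -/
noncomputable def stepEval (L : List StepMono) (x : ℝ) : ℝ := (L.map fun M => M.eval x).sum

/-- Symbolic derivative of a list of monomials. -/
def stepD (L : List StepMono) : List StepMono := L.flatMap StepMono.d

theorem hasDerivAt_expNegInvGlue (x : ℝ) :
    HasDerivAt expNegInvGlue (x⁻¹ ^ 2 * expNegInvGlue x) x := by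
  have h := expNegInvGlue.hasDerivAt_polynomial_eval_inv_mul 1 x
  simpa using h

theorem hasDerivAt_smoothTransition (x : ℝ) :
    HasDerivAt smoothTransition
      (smoothTransition x * (1 - smoothTransition x) * (x⁻¹ ^ 2 + (1 - x)⁻¹ ^ 2)) x := by
  have hf := hasDerivAt_expNegInvGlue x
  have hg : HasDerivAt (fun y : ℝ => expNegInvGlue (1 - y))
      (-((1 - x)⁻¹ ^ 2 * expNegInvGlue (1 - x))) x := by
    have h1 : HasDerivAt (fun y : ℝ => 1 - y) (-1) x := by
      simpa using (hasDerivAt_id x).const_sub 1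
    have h2 := (hasDerivAt_expNegInvGlue (1 - x)).comp x h1
    simpa [Function.comp_def] using h2
  have hpos := smoothTransition.pos_denom x
  have h := hf.div (hf.add hg) hpos.ne'
  have h' : HasDerivAt smoothTransition
      ((x⁻¹ ^ 2 * expNegInvGlue x * (expNegInvGlue x + expNegInvGlue (1 - x)) -
        expNegInvGlue x * (x⁻¹ ^ 2 * expNegInvGlue x + -((1 - x)⁻¹ ^ 2 * expNegInvGlue (1 - x)))) /
      (expNegInvGlue x + expNegInvGlue (1 - x)) ^ 2) x := h
  refine h'.congr_deriv ?_
  unfold smoothTransition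
  field_simp
  ring

theorem hasDerivAt_smoothTransition_pow (i : ℕ) (x : ℝ) :
    HasDerivAt (fun y => smoothTransition y ^ i)
      ((i : ℝ) * smoothTransition x ^ i * (1 - smoothTransition x) *
        (x⁻¹ ^ 2 + (1 - x)⁻¹ ^ 2)) x := by
  cases i with
  | zero => simpa using hasDerivAt_const x (1 : ℝ)
  | succ n =>
    have h := (hasDerivAt_smoothTransition x).pow (n + 1)
    refine h.congr_deriv ?_
    simp only [Nat.add_sub_cancel, Nat.cast_add, Nat.cast_one]
    ring

theorem hasDerivAt_one_sub_smoothTransition_pow (l : ℕ) (x : ℝ) :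
    HasDerivAt (fun y => (1 - smoothTransition y) ^ l)
      (-((l : ℝ) * smoothTransition x * (1 - smoothTransition x) ^ l *
        (x⁻¹ ^ 2 + (1 - x)⁻¹ ^ 2))) x := by
  cases l with
  | zero => simpa using hasDerivAt_const x (1 : ℝ)
  | succ n =>
    have h := ((hasDerivAt_smoothTransition x).const_sub 1).pow (n + 1)
    refine h.congr_deriv ?_
    simp only [Nat.add_sub_cancel, Nat.cast_add, Nat.cast_one]
    ring

theorem hasDerivAt_inv_pow' (j : ℕ) {x : ℝ} (hx : x ≠ 0) :
    HasDerivAt (fun y : ℝ => y⁻¹ ^ j) (-((j : ℝ) * x⁻¹ ^ (j + 1))) x := by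
  cases j with
  | zero => simpa using hasDerivAt_const x (1 : ℝ)
  | succ n =>
    have h := (hasDerivAt_inv hx).pow (n + 1)
    refine h.congr_deriv ?_
    simp only [Nat.add_sub_cancel, Nat.cast_add, Nat.cast_one, ← inv_pow]
    ring

theorem hasDerivAt_one_sub_inv_pow (k : ℕ) {x : ℝ} (hx : x ≠ 1) :
    HasDerivAt (fun y : ℝ => (1 - y)⁻¹ ^ k) ((k : ℝ) * (1 - x)⁻¹ ^ (k + 1)) x := by
  have hx' : (1 : ℝ) - x ≠ 0 := sub_ne_zero.mpr (Ne.symm hx)
  cases k with
  | zero => simpa using hasDerivAt_const x (1 : ℝ)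
  | succ n =>
    have h1 : HasDerivAt (fun y : ℝ => 1 - y) (-1) x := by
      simpa using (hasDerivAt_id x).const_sub 1
    have h := (h1.inv hx').pow (n + 1)
    refine h.congr_deriv ?_
    simp only [Nat.add_sub_cancel, Nat.cast_add, Nat.cast_one, Pi.inv_apply, neg_neg, one_div,
      ← inv_pow]
    ring

theorem StepMono.hasDerivAt_eval (M : StepMono) {x : ℝ} (h0 : x ≠ 0) (h1 : x ≠ 1) :
    HasDerivAt (fun y => M.eval y) (stepEval M.d x) x := by
  have h := ((((hasDerivAt_const x (M.c : ℝ)).mul (hasDerivAt_smoothTransition_pow M.i x)).mul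
    (hasDerivAt_one_sub_smoothTransition_pow M.l x)).mul (hasDerivAt_inv_pow' M.j h0)).mul
    (hasDerivAt_one_sub_inv_pow M.k h1)
  refine h.congr_deriv ?_
  simp only [Pi.mul_apply, stepEval, StepMono.d, StepMono.eval, List.map_cons, List.map_nil,
    List.sum_cons, List.sum_nil]
  push_cast
  ring

theorem stepEval_nil (x : ℝ) : stepEval [] x = 0 := rfl

theorem stepEval_cons (M : StepMono) (L : List StepMono) (x : ℝ) :
    stepEval (M :: L) x = M.eval x + stepEval L x := by
  simp [stepEval]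

theorem stepEval_append (L₁ L₂ : List StepMono) (x : ℝ) :
    stepEval (L₁ ++ L₂) x = stepEval L₁ x + stepEval L₂ x := by
  simp [stepEval]

theorem stepD_cons (M : StepMono) (L : List StepMono) : stepD (M :: L) = M.d ++ stepD L := by
  simp [stepD]

theorem hasDerivAt_stepEval (L : List StepMono) {x : ℝ} (h0 : x ≠ 0) (h1 : x ≠ 1) :
    HasDerivAt (fun y => stepEval L y) (stepEval (stepD L) x) x := by
  induction L with
  | nil => simpa [stepEval, stepD] using hasDerivAt_const x (0 : ℝ)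
  | cons M L ih =>
    have h := (M.hasDerivAt_eval h0 h1).add ih
    rw [stepD_cons, stepEval_append]
    refine HasDerivAt.congr_of_eventuallyEq h ?_
    exact Filter.Eventually.of_forall fun y => stepEval_cons M L y

/-- The list of monomials representing the `m`-th derivative of `smoothTransition`. -/
def stepList (m : ℕ) : List StepMono := stepD^[m] [⟨1, 1, 0, 0, 0⟩]

theorem stepList_succ (m : ℕ) : stepList (m + 1) = stepD (stepList m) := by
  simp [stepList, Function.iterate_succ_apply']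

/-- Exact formula for all derivatives of `smoothTransition` away from `0` and `1`. -/
theorem iteratedDeriv_smoothTransition_eq (m : ℕ) {x : ℝ} (h0 : x ≠ 0) (h1 : x ≠ 1) :
    iteratedDeriv m smoothTransition x = stepEval (stepList m) x := by
  induction m generalizing x with
  | zero => simp [stepList, stepEval, StepMono.eval]
  | succ m ih =>
    rw [iteratedDeriv_succ, stepList_succ]
    have hev : iteratedDeriv m smoothTransition =ᶠ[nhds x] fun y => stepEval (stepList m) y := by
      have hopen : IsOpen ({0, 1}ᶜ : Set ℝ) := (Set.toFinite {0, 1}).isClosed.isOpen_compl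
      have hx : x ∈ ({0, 1}ᶜ : Set ℝ) := by simp [h0, h1]
      filter_upwards [hopen.mem_nhds hx] with y hy
      simp only [Set.mem_compl_iff, Set.mem_insert_iff, Set.mem_singleton_iff, not_or] at hy
      exact ih hy.1 hy.2
    rw [hev.deriv_eq]
    exact (hasDerivAt_stepEval (stepList m) h0 h1).deriv

/-! ### Estimates on `(0, 1)` -/

theorem smoothTransition_one_sub (x : ℝ) :
    smoothTransition (1 - x) = 1 - smoothTransition x := by
  have h := smoothTransition.pos_denom x
  unfold smoothTransition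
  rw [sub_sub_cancel, eq_sub_iff_add_eq, add_comm (expNegInvGlue (1 - x)) (expNegInvGlue x),
    ← add_div, add_comm (expNegInvGlue (1 - x)) (expNegInvGlue x), div_self h.ne']

theorem smoothTransition_le_exp {x : ℝ} (h0 : 0 < x) (h1 : x < 1) :
    smoothTransition x ≤ Real.exp ((1 - x)⁻¹ - x⁻¹) := by
  have hx' : 0 < 1 - x := sub_pos.mpr h1
  have hF : expNegInvGlue x = Real.exp (-x⁻¹) := by simp [expNegInvGlue, not_le.mpr h0]
  have hG : expNegInvGlue (1 - x) = Real.exp (-(1 - x)⁻¹) := by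
    simp [expNegInvGlue, not_le.mpr hx']
  unfold smoothTransition
  rw [hF, hG]
  have hFpos := Real.exp_pos (-x⁻¹)
  have hGpos := Real.exp_pos (-(1 - x)⁻¹)
  calc Real.exp (-x⁻¹) / (Real.exp (-x⁻¹) + Real.exp (-(1 - x)⁻¹))
      ≤ Real.exp (-x⁻¹) / Real.exp (-(1 - x)⁻¹) :=
        div_le_div_of_nonneg_left hFpos.le hGpos (by linarith)
    _ = Real.exp ((1 - x)⁻¹ - x⁻¹) := by
        rw [← Real.exp_sub]; congr 1; ring

theorem exp_two_le_eight : Real.exp 2 ≤ 8 := by
  have h := Real.exp_one_lt_d9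
  have h2 : Real.exp 2 = Real.exp 1 * Real.exp 1 := by rw [← Real.exp_add]; norm_num
  rw [h2]
  have h1 : 0 < Real.exp 1 := Real.exp_pos 1
  nlinarith

/-- Key estimate: `s^i * a^j ≤ 8 * j! * 2^j` on `(0,1)` when `i ≥ 1`. -/
theorem smoothTransition_pow_mul_inv_pow_le {x : ℝ} (h0 : 0 < x) (h1 : x < 1) {i : ℕ}
    (hi : 1 ≤ i) (j : ℕ) :
    smoothTransition x ^ i * x⁻¹ ^ j ≤ 8 * (j.factorial : ℝ) * 2 ^ j := by
  have hs0 := smoothTransition.nonneg x
  have hs1 := smoothTransition.le_one x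
  have ha : 0 < x⁻¹ := inv_pos.mpr h0
  have hfac : (1 : ℝ) ≤ (j.factorial : ℝ) := by exact_mod_cast Nat.one_le_iff_ne_zero.mpr (Nat.factorial_ne_zero j)
  have h2j : (1 : ℝ) ≤ 2 ^ j := one_le_pow₀ (by norm_num)
  by_cases hx : x ≤ 1 / 2
  · have hb : (1 - x)⁻¹ ≤ 2 := by
      rw [inv_le_comm₀ (by linarith) (by norm_num)]
      linarith
    have hs : smoothTransition x ≤ Real.exp (2 - x⁻¹) :=
      (smoothTransition_le_exp h0 h1).trans (Real.exp_le_exp.mpr (by linarith))
    have hpow : x⁻¹ ^ j ≤ (j.factorial : ℝ) * Real.exp x⁻¹ := by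
      have := Real.pow_div_factorial_le_exp x⁻¹ ha.le j
      rwa [div_le_iff₀ (by positivity), mul_comm] at this
    have hsi : smoothTransition x ^ i ≤ smoothTransition x := by
      calc smoothTransition x ^ i ≤ smoothTransition x ^ 1 :=
            pow_le_pow_of_le_one hs0 hs1 hi
        _ = smoothTransition x := pow_one _
    calc smoothTransition x ^ i * x⁻¹ ^ j
        ≤ Real.exp (2 - x⁻¹) * ((j.factorial : ℝ) * Real.exp x⁻¹) :=
          mul_le_mul (hsi.trans hs) hpow (by positivity) (Real.exp_pos _).le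
      _ = (j.factorial : ℝ) * Real.exp 2 := by
          rw [Real.exp_sub]; field_simp
      _ ≤ (j.factorial : ℝ) * 8 := by
          exact mul_le_mul_of_nonneg_left exp_two_le_eight (by positivity)
      _ ≤ 8 * (j.factorial : ℝ) * 2 ^ j := by nlinarith
  · have hx' : 1 / 2 < x := not_le.mp hx
    have ha2 : x⁻¹ ≤ 2 := by
      rw [inv_le_comm₀ h0 (by norm_num)]
      linarith
    have hsi : smoothTransition x ^ i ≤ 1 := pow_le_one₀ hs0 hs1
    have haj : x⁻¹ ^ j ≤ 2 ^ j := pow_le_pow_left₀ ha.le ha2 j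
    calc smoothTransition x ^ i * x⁻¹ ^ j ≤ 1 * 2 ^ j :=
          mul_le_mul hsi haj (by positivity) (by norm_num)
      _ ≤ 8 * (j.factorial : ℝ) * 2 ^ j := by nlinarith

namespace StepMono

/-- A monomial whose value is controlled on `(0,1)`. -/
def Good (M : StepMono) : Prop := M.c = 0 ∨ (1 ≤ M.i ∧ (1 ≤ M.l ∨ M.k = 0))

/-- Bound of a good monomial on `(0,1)`. -/
def bnd (M : StepMono) : ℕ :=
  64 * M.c.natAbs * (M.j.factorial * M.k.factorial) * 2 ^ (M.j + M.k)

theorem abs_eval_le {M : StepMono} (hM : M.Good) {x : ℝ} (h0 : 0 < x) (h1 : x < 1) :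
    |M.eval x| ≤ (M.bnd : ℝ) := by
  rcases hM with hc | ⟨hi, hl⟩
  · simp [eval, hc]
  have hs0 := smoothTransition.nonneg x
  have hs1 := smoothTransition.le_one x
  have hr0 : 0 ≤ 1 - smoothTransition x := by linarith
  have hr1 : 1 - smoothTransition x ≤ 1 := by linarith
  have ha : 0 < x⁻¹ := inv_pos.mpr h0
  have hx' : 0 < 1 - x := sub_pos.mpr h1
  have hb : 0 < (1 - x)⁻¹ := inv_pos.mpr hx'
  have hA := smoothTransition_pow_mul_inv_pow_le h0 h1 hi M.j
  have hB : (1 - smoothTransition x) ^ M.l * (1 - x)⁻¹ ^ M.k ≤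
      8 * (M.k.factorial : ℝ) * 2 ^ M.k := by
    rcases hl with hl | hk
    · have := smoothTransition_pow_mul_inv_pow_le (x := 1 - x) hx' (by linarith) hl M.k
      rwa [smoothTransition_one_sub] at this
    · rw [hk]
      have : (1 - smoothTransition x) ^ M.l ≤ 1 := pow_le_one₀ hr0 hr1
      simpa using this.trans (by norm_num)
  have hA0 : 0 ≤ smoothTransition x ^ M.i * x⁻¹ ^ M.j := by positivity
  have hB0 : 0 ≤ (1 - smoothTransition x) ^ M.l * (1 - x)⁻¹ ^ M.k := by positivity
  have habs : |M.eval x| = |(M.c : ℝ)| * ((smoothTransition x ^ M.i * x⁻¹ ^ M.j) *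
      ((1 - smoothTransition x) ^ M.l * (1 - x)⁻¹ ^ M.k)) := by
    rw [eval]
    rw [show (M.c : ℝ) * smoothTransition x ^ M.i * (1 - smoothTransition x) ^ M.l * x⁻¹ ^ M.j *
      (1 - x)⁻¹ ^ M.k = (M.c : ℝ) * ((smoothTransition x ^ M.i * x⁻¹ ^ M.j) *
      ((1 - smoothTransition x) ^ M.l * (1 - x)⁻¹ ^ M.k)) by ring]
    rw [abs_mul, abs_of_nonneg (mul_nonneg hA0 hB0)]
  rw [habs]
  have hc : |(M.c : ℝ)| = (M.c.natAbs : ℝ) := by
    rw [← Int.cast_abs, Int.abs_eq_natAbs]; simp
  rw [hc]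
  have hprod : (smoothTransition x ^ M.i * x⁻¹ ^ M.j) *
      ((1 - smoothTransition x) ^ M.l * (1 - x)⁻¹ ^ M.k) ≤
      (8 * (M.j.factorial : ℝ) * 2 ^ M.j) * (8 * (M.k.factorial : ℝ) * 2 ^ M.k) :=
    mul_le_mul hA hB hB0 (by positivity)
  calc (M.c.natAbs : ℝ) * ((smoothTransition x ^ M.i * x⁻¹ ^ M.j) *
      ((1 - smoothTransition x) ^ M.l * (1 - x)⁻¹ ^ M.k))
      ≤ (M.c.natAbs : ℝ) * ((8 * (M.j.factorial : ℝ) * 2 ^ M.j) *
          (8 * (M.k.factorial : ℝ) * 2 ^ M.k)) :=
        mul_le_mul_of_nonneg_left hprod (by positivity)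
    _ = (M.bnd : ℝ) := by
        simp only [bnd]; push_cast; ring

/-- Quantitative invariant at level `m`. -/
def Inv (m : ℕ) (M : StepMono) : Prop :=
  M.Good ∧ M.c.natAbs ≤ (2 * m + 1) ^ m ∧ M.i ≤ m + 1 ∧ M.l ≤ m ∧ M.j + M.k ≤ 2 * m

theorem natAbs_mul_nat (c : ℤ) (t : ℕ) : (c * (t : ℤ)).natAbs = c.natAbs * t := by
  simp [Int.natAbs_mul]

theorem Inv.d {m : ℕ} {M : StepMono} (h : M.Inv m) : ∀ M' ∈ M.d, M'.Inv (m + 1) := by
  obtain ⟨hg, hc, hi, hl, hjk⟩ := h
  have hpow : (2 * m + 1) ^ m * (2 * m + 1) ≤ (2 * (m + 1) + 1) ^ (m + 1) := by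
    calc (2 * m + 1) ^ m * (2 * m + 1) = (2 * m + 1) ^ (m + 1) := by ring
      _ ≤ (2 * (m + 1) + 1) ^ (m + 1) := Nat.pow_le_pow_left (by omega) _
  have key : ∀ t : ℕ, t ≤ 2 * m + 1 → M.c.natAbs * t ≤ (2 * (m + 1) + 1) ^ (m + 1) := fun t ht =>
    (Nat.mul_le_mul hc ht).trans hpow
  intro M' hM'
  simp only [StepMono.d, List.mem_cons, List.mem_nil_iff, or_false] at hM'
  rcases hM' with rfl | rfl | rfl | rfl | rfl | rfl
  · refine ⟨?_, ?_, by show M.i ≤ _; omega, by show M.l + 1 ≤ _; omega,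
      by show M.j + 2 + M.k ≤ _; omega⟩
    · by_cases hi0 : M.i = 0
      · left; show M.c * (M.i : ℤ) = 0; simp [hi0]
      · right; exact ⟨Nat.one_le_iff_ne_zero.mpr hi0, Or.inl (Nat.le_add_left 1 _)⟩
    · show (M.c * (M.i : ℤ)).natAbs ≤ _
      rw [natAbs_mul_nat]; exact key _ (by omega)
  · refine ⟨?_, ?_, by show M.i ≤ _; omega, by show M.l + 1 ≤ _; omega,
      by show M.j + (M.k + 2) ≤ _; omega⟩
    · by_cases hi0 : M.i = 0
      · left; show M.c * (M.i : ℤ) = 0; simp [hi0]
      · right; exact ⟨Nat.one_le_iff_ne_zero.mpr hi0, Or.inl (Nat.le_add_left 1 _)⟩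
    · show (M.c * (M.i : ℤ)).natAbs ≤ _
      rw [natAbs_mul_nat]; exact key _ (by omega)
  · refine ⟨?_, ?_, by show M.i + 1 ≤ _; omega, by show M.l ≤ _; omega,
      by show M.j + 2 + M.k ≤ _; omega⟩
    · by_cases hl0 : M.l = 0
      · left; show -(M.c * (M.l : ℤ)) = 0; simp [hl0]
      · right; exact ⟨Nat.le_add_left 1 _, Or.inl (Nat.one_le_iff_ne_zero.mpr hl0)⟩
    · show (-(M.c * (M.l : ℤ))).natAbs ≤ _
      rw [Int.natAbs_neg, natAbs_mul_nat]; exact key _ (by omega)
  · refine ⟨?_, ?_, by show M.i + 1 ≤ _; omega, by show M.l ≤ _; omega,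
      by show M.j + (M.k + 2) ≤ _; omega⟩
    · by_cases hl0 : M.l = 0
      · left; show -(M.c * (M.l : ℤ)) = 0; simp [hl0]
      · right; exact ⟨Nat.le_add_left 1 _, Or.inl (Nat.one_le_iff_ne_zero.mpr hl0)⟩
    · show (-(M.c * (M.l : ℤ))).natAbs ≤ _
      rw [Int.natAbs_neg, natAbs_mul_nat]; exact key _ (by omega)
  · refine ⟨?_, ?_, by show M.i ≤ _; omega, by show M.l ≤ _; omega,
      by show M.j + 1 + M.k ≤ _; omega⟩
    · rcases hg with hc0 | hg
      · left; show -(M.c * (M.j : ℤ)) = 0; simp [hc0]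
      · right; exact hg
    · show (-(M.c * (M.j : ℤ))).natAbs ≤ _
      rw [Int.natAbs_neg, natAbs_mul_nat]; exact key _ (by omega)
  · refine ⟨?_, ?_, by show M.i ≤ _; omega, by show M.l ≤ _; omega,
      by show M.j + (M.k + 1) ≤ _; omega⟩
    · by_cases hk0 : M.k = 0
      · left; show M.c * (M.k : ℤ) = 0; simp [hk0]
      · rcases hg with hc0 | ⟨h1, h2⟩
        · left; show M.c * (M.k : ℤ) = 0; simp [hc0]
        · right; exact ⟨h1, Or.inl (h2.resolve_right hk0)⟩
    · show (M.c * (M.k : ℤ)).natAbs ≤ _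
      rw [natAbs_mul_nat]; exact key _ (by omega)

theorem Inv.bnd_le {m : ℕ} {M : StepMono} (h : M.Inv m) :
    M.bnd ≤ 64 * (2 * m + 1) ^ m * (2 * m).factorial * 4 ^ m := by
  obtain ⟨-, hc, -, -, hjk⟩ := h
  have h1 : M.j.factorial * M.k.factorial ≤ (2 * m).factorial :=
    (Nat.le_of_dvd (Nat.factorial_pos _) (Nat.factorial_mul_factorial_dvd_factorial_add _ _)).trans
      (Nat.factorial_le hjk)
  have h2 : 2 ^ (M.j + M.k) ≤ 4 ^ m := by
    calc 2 ^ (M.j + M.k) ≤ 2 ^ (2 * m) := Nat.pow_le_pow_right (by norm_num) hjk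
      _ = 4 ^ m := by rw [pow_mul]; norm_num
  unfold bnd
  calc 64 * M.c.natAbs * (M.j.factorial * M.k.factorial) * 2 ^ (M.j + M.k)
      ≤ 64 * (2 * m + 1) ^ m * (2 * m).factorial * 4 ^ m :=
        Nat.mul_le_mul (Nat.mul_le_mul (Nat.mul_le_mul le_rfl hc) h1) h2

end StepMono

theorem stepList_inv (m : ℕ) : ∀ M ∈ stepList m, M.Inv m := by
  induction m with
  | zero =>
    intro M hM
    simp only [stepList, Function.iterate_zero, id_eq, List.mem_singleton] at hM
    subst hM
    exact ⟨Or.inr ⟨le_rfl, Or.inr rfl⟩, by simp, by simp, by simp, by simp⟩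
  | succ m ih =>
    intro M' hM'
    rw [stepList_succ, stepD, List.mem_flatMap] at hM'
    obtain ⟨M, hM, hM'⟩ := hM'
    exact (ih M hM).d M' hM'

theorem stepD_length (L : List StepMono) : (stepD L).length = 6 * L.length := by
  induction L with
  | nil => rfl
  | cons M L ih =>
    rw [stepD_cons, List.length_append, ih, List.length_cons]
    show 6 + 6 * L.length = 6 * (L.length + 1)
    ring

theorem stepList_length (m : ℕ) : (stepList m).length = 6 ^ m := by
  induction m with
  | zero => rfl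
  | succ m ih => rw [stepList_succ, stepD_length, ih]; ring

theorem abs_stepEval_le (L : List StepMono) (x : ℝ) (C : ℝ)
    (h : ∀ M ∈ L, |M.eval x| ≤ C) : |stepEval L x| ≤ L.length * C := by
  induction L with
  | nil => simp [stepEval]
  | cons M L ih =>
    rw [stepEval_cons, List.length_cons]
    have h1 := h M (List.mem_cons_self ..)
    have h2 := ih fun M' hM' => h M' (List.mem_cons_of_mem _ hM')
    calc |M.eval x + stepEval L x| ≤ |M.eval x| + |stepEval L x| := abs_add_le _ _
      _ ≤ C + L.length * C := add_le_add h1 h2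
      _ = ((L.length + 1 : ℕ) : ℝ) * C := by push_cast; ring

/-- Closed-form bound for all derivatives of `Real.smoothTransition`. -/
def stepBound (m : ℕ) : ℕ := 64 * 24 ^ m * (2 * m + 1) ^ m * (2 * m).factorial

theorem one_le_stepBound (m : ℕ) : 1 ≤ stepBound m := by
  unfold stepBound
  have h1 : 0 < 24 ^ m := by positivity
  have h2 : 0 < (2 * m + 1) ^ m := by positivity
  have h3 : 0 < (2 * m).factorial := Nat.factorial_pos _
  have : 0 < 64 * 24 ^ m * (2 * m + 1) ^ m * (2 * m).factorial := by positivity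
  omega

theorem abs_iteratedDeriv_smoothTransition_le_of_mem_Ioo (m : ℕ) {x : ℝ} (h0 : 0 < x)
    (h1 : x < 1) : |iteratedDeriv m smoothTransition x| ≤ (stepBound m : ℝ) := by
  rw [iteratedDeriv_smoothTransition_eq m h0.ne' h1.ne]
  have hC : ∀ M ∈ stepList m, |M.eval x| ≤
      ((64 * (2 * m + 1) ^ m * (2 * m).factorial * 4 ^ m : ℕ) : ℝ) := fun M hM =>
    (StepMono.abs_eval_le (stepList_inv m M hM).1 h0 h1).trans
      (by exact_mod_cast (stepList_inv m M hM).bnd_le)
  refine (abs_stepEval_le _ x _ hC).trans (le_of_eq ?_)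
  rw [stepList_length]
  unfold stepBound
  push_cast
  rw [show (24 : ℝ) = 6 * 4 by norm_num, mul_pow]
  ring

/-- **Main bound (M3)**: every iterated derivative of `Real.smoothTransition` is bounded by
`stepBound m = 64 * 24^m * (2m+1)^m * (2m)!`, at every real point. -/
theorem abs_iteratedDeriv_smoothTransition_le (m : ℕ) (x : ℝ) :
    |iteratedDeriv m smoothTransition x| ≤ (stepBound m : ℝ) := by
  have hB1 : (1 : ℝ) ≤ (stepBound m : ℝ) := by exact_mod_cast one_le_stepBound m
  -- the bound holds off `{0, 1}`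
  have hoff : ∀ y : ℝ, y ∈ ({0, 1}ᶜ : Set ℝ) →
      |iteratedDeriv m smoothTransition y| ≤ (stepBound m : ℝ) := by
    intro y hy
    simp only [Set.mem_compl_iff, Set.mem_insert_iff, Set.mem_singleton_iff, not_or] at hy
    rcases lt_or_gt_of_ne hy.1 with hneg | hpos
    · have hev : smoothTransition =ᶠ[nhds y] fun _ => (0 : ℝ) := by
        filter_upwards [Iio_mem_nhds hneg] with z hz
        exact smoothTransition.zero_of_nonpos (le_of_lt hz)
      rw [hev.iteratedDeriv_eq, iteratedDeriv_const]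
      split_ifs
      · rw [abs_zero]; linarith
      · rw [abs_zero]; linarith
    · rcases lt_or_gt_of_ne hy.2 with hlt | hgt
      · exact abs_iteratedDeriv_smoothTransition_le_of_mem_Ioo m hpos hlt
      · have hev : smoothTransition =ᶠ[nhds y] fun _ => (1 : ℝ) := by
          filter_upwards [Ioi_mem_nhds hgt] with z hz
          exact smoothTransition.one_of_one_le (le_of_lt hz)
        rw [hev.iteratedDeriv_eq, iteratedDeriv_const]
        split_ifs
        · rw [abs_one]; exact hB1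
        · rw [abs_zero]; linarith
  -- extend by continuity
  have hcont : Continuous (iteratedDeriv m smoothTransition) :=
    (smoothTransition.contDiff (n := ⊤)).continuous_iteratedDeriv m (by exact_mod_cast le_top)
  have hclosed : IsClosed {y : ℝ | |iteratedDeriv m smoothTransition y| ≤ (stepBound m : ℝ)} :=
    isClosed_le (continuous_abs.comp hcont) continuous_const
  have hdense : Dense ({0, 1}ᶜ : Set ℝ) :=
    Set.Countable.dense_compl ℝ (Set.to_countable _)
  have := hclosed.closure_subset_iff.mpr hoff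
  rw [hdense.closure_eq] at this
  exact this (Set.mem_univ x)

/-- Norm form of the main bound, for `iteratedFDeriv`. -/
theorem norm_iteratedFDeriv_smoothTransition_le (m : ℕ) (x : ℝ) :
    ‖iteratedFDeriv ℝ m smoothTransition x‖ ≤ (stepBound m : ℝ) := by
  rw [norm_iteratedFDeriv_eq_norm_iteratedDeriv, Real.norm_eq_abs]
  exact abs_iteratedDeriv_smoothTransition_le m x

/-! ### Primitive recursiveness of the bound -/

theorem primrec_nat_pow : Primrec₂ fun a b : ℕ => a ^ b := by
  have h : Primrec₂ fun (a : ℕ) (n : ℕ) =>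
      n.rec (motive := fun _ => ℕ) 1 fun _ IH => IH * a :=
    Primrec.nat_rec (f := fun _ : ℕ => 1) (g := fun (a : ℕ) (p : ℕ × ℕ) => p.2 * a)
      (Primrec.const 1)
      (Primrec.nat_mul.comp (Primrec.snd.comp Primrec.snd) Primrec.fst).to₂
  refine h.of_eq fun a n => ?_
  induction n with
  | zero => simp
  | succ n ih => simp only [ih, pow_succ]

theorem primrec_nat_factorial : Primrec Nat.factorial := by
  have h : Primrec (Nat.rec (motive := fun _ => ℕ) 1 fun n IH => (n + 1) * IH) :=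
    Primrec.nat_rec₁ (f := fun (n : ℕ) (IH : ℕ) => (n + 1) * IH) 1
      (Primrec.nat_mul.comp (Primrec.succ.comp Primrec.fst) Primrec.snd).to₂
  refine h.of_eq fun n => ?_
  induction n with
  | zero => rfl
  | succ n ih => simp only [ih, Nat.factorial_succ]

theorem primrec_stepBound : Primrec stepBound := by
  unfold stepBound
  have hm : Primrec fun m : ℕ => m := Primrec.id
  have h2m : Primrec fun m : ℕ => 2 * m := Primrec.nat_mul.comp (Primrec.const 2) hm
  have h24 : Primrec fun m : ℕ => 24 ^ m := primrec_nat_pow.comp (Primrec.const 24) hm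
  have hpw : Primrec fun m : ℕ => (2 * m + 1) ^ m :=
    primrec_nat_pow.comp (Primrec.succ.comp h2m) hm
  have hf : Primrec fun m : ℕ => (2 * m).factorial := primrec_nat_factorial.comp h2m
  exact Primrec.nat_mul.comp (Primrec.nat_mul.comp (Primrec.nat_mul.comp (Primrec.const 64) h24)
    hpw) hf

theorem computable_stepBound : Computable stepBound := primrec_stepBound.to_comp

/-! ### Interface statements (module M3 of the S0170 plan) -/

open scoped ContDiff in
/-- Interface M3: `stp` is smooth. -/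
theorem stp_contDiff : ContDiff ℝ ∞ Crest.Agent.S0170.stp :=
  Real.smoothTransition.contDiff

/-- Interface M3: computable bounds for all derivatives of `stp`. -/
theorem stp_bound : ∃ B : ℕ → ℕ, Computable B ∧
    ∀ (m : ℕ) (x : ℝ), |iteratedDeriv m Crest.Agent.S0170.stp x| ≤ (B m : ℝ) :=
  ⟨stepBound, computable_stepBound, fun m x => abs_iteratedDeriv_smoothTransition_le m x⟩

end Crest.Agent.S0170.Helper82
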