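import Mathlib
import Crest.Agent.Lib.S0170.Defs

/-!
# S0170, module M1d: structural computability lemmas

Everything here is with respect to the instances the statement of S0170 uses
(`Primcodable ℚ` coming from `Denumerable ℚ`, `Primcodable.finArrow`, `Primcodable.list`, ...).

* `computable_fin3_mk`, `computable_fin3_app`, `computable_list_count`: exact Interface types.
* `computable_rat_sum_range_of`: the Interface statement `computable_rat_sum_range`, with the
  computability of rational addition (Interface `computable_rat_add`) as an explicit hypothesis.
* generic versions: `computable_fin_mk`, `computable_fin_app`, `computable_sum_range_of`,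
  `computable_prod_range_of`, `computable_nat_iterate`, `computable_list_count'`.
-/

set_option autoImplicit false

namespace Crest.Agent.S0170.Helper82

/-! ### finite tuples -/

/-- A tuple-valued function is computable when its components are. -/
theorem computable_fin_mk {α σ : Type} [Primcodable α] [Primcodable σ] {n : ℕ}
    {f : α → Fin n → σ} (hf : ∀ j, Computable (fun a => f a j)) : Computable f :=
  ((Primrec.vector_get'.to_comp).comp
      (Computable.vector_ofFn (f := fun i a => f a i) hf)).of_eq fun a => by
    funext i; simp

/-- Components of a computable tuple-valued function are computable. -/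
theorem computable_fin_app {α σ : Type} [Primcodable α] [Primcodable σ] {n : ℕ}
    {f : α → Fin n → σ} (hf : Computable f) (j : Fin n) : Computable (fun a => f a j) :=
  (Computable.fin_app.comp hf (Computable.const j)).of_eq fun _ => rfl

/-- Evaluation of a computable tuple at a computable index. -/
theorem computable_fin_app₂ {α σ : Type} [Primcodable α] [Primcodable σ] {n : ℕ}
    {f : α → Fin n → σ} {g : α → Fin n} (hf : Computable f) (hg : Computable g) :
    Computable (fun a => f a (g a)) :=
  (Computable.fin_app.comp hf hg).of_eq fun _ => rfl

/-- a vector in `Fin 3 → ℚ` is computable when its components are -/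
theorem computable_fin3_mk {α : Type} [Primcodable α] {f : α → Fin 3 → ℚ}
    (hf : ∀ j, Computable (fun a => f a j)) : Computable f :=
  computable_fin_mk hf

theorem computable_fin3_app {α : Type} [Primcodable α] {f : α → Fin 3 → ℚ} (hf : Computable f)
    (j : Fin 3) : Computable (fun a => f a j) :=
  computable_fin_app hf j

/-! ### counting in lists -/

theorem list_count_eq_foldr {β : Type} [DecidableEq β] (d : β) (l : List β) :
    l.count d = l.foldr (fun b s => if b = d then s + 1 else s) 0 := by
  induction l with
  | nil => rfl
  | cons b l ih =>
    rw [List.foldr_cons, ← ih, List.count_cons]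
    by_cases h : b = d <;> simp [h]

theorem primrec_list_count {β : Type} [Primcodable β] [DecidableEq β] (d : β) :
    Primrec (fun l : List β => l.count d) := by
  have hh : Primrec₂ (fun (_ : List β) (p : β × ℕ) => if p.1 = d then p.2 + 1 else p.2) := by
    have h1 : PrimrecPred (fun q : List β × (β × ℕ) => q.2.1 = d) :=
      Primrec.eq.comp (Primrec.fst.comp Primrec.snd) (Primrec.const d)
    exact Primrec.ite h1 (Primrec.succ.comp (Primrec.snd.comp Primrec.snd))
      (Primrec.snd.comp Primrec.snd)
  have := Primrec.list_foldr (f := fun l : List β => l) (g := fun _ => (0 : ℕ))
    (h := fun (_ : List β) (p : β × ℕ) => if p.1 = d then p.2 + 1 else p.2)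
    Primrec.id (Primrec.const 0) hh
  exact this.of_eq fun l => (list_count_eq_foldr d l).symm

theorem computable_list_count' {α β : Type} [Primcodable α] [Primcodable β] [DecidableEq β]
    {f : α → List β} (hf : Computable f) (d : β) : Computable (fun a => (f a).count d) :=
  (primrec_list_count d).to_comp.comp hf

theorem computable_list_count {α : Type} [Primcodable α] {f : α → List (Fin 4)}
    (hf : Computable f) (d : Fin 4) : Computable (fun a => (f a).count d) :=
  computable_list_count' hf d

/-! ### iteration, finite sums and products -/

/-- Iterating a computable step a computable number of times. -/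
theorem computable_nat_iterate {α σ : Type} [Primcodable α] [Primcodable σ]
    {k : α → ℕ} {g : α → σ} {h : α → σ → σ} (hk : Computable k) (hg : Computable g)
    (hh : Computable₂ h) : Computable (fun a => (h a)^[k a] (g a)) := by
  have h2 : Computable₂ (fun (a : α) (p : ℕ × σ) => h a p.2) :=
    hh.comp Computable.fst (Computable.snd.comp Computable.snd)
  refine (Computable.nat_rec hk hg h2).of_eq fun a => ?_
  induction k a with
  | zero => rfl
  | succ n ih => rw [Function.iterate_succ_apply']; simp only []; rw [ih]

/-- Finite sums of a computable family are computable, as soon as addition is. -/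
theorem computable_sum_range_of {α σ : Type} [Primcodable α] [Primcodable σ] [AddCommMonoid σ]
    (hadd : Computable₂ (fun a b : σ => a + b)) {f : α → ℕ → σ} {k : α → ℕ}
    (hf : Computable₂ f) (hk : Computable k) :
    Computable (fun a => ∑ i ∈ Finset.range (k a), f a i) := by
  have h2 : Computable₂ (fun (a : α) (p : ℕ × σ) => p.2 + f a p.1) :=
    hadd.comp (Computable.snd.comp Computable.snd)
      (hf.comp Computable.fst (Computable.fst.comp Computable.snd))
  refine (Computable.nat_rec hk (Computable.const (0 : σ)) h2).of_eq fun a => ?_
  induction k a with
  | zero => simp
  | succ n ih => rw [Finset.sum_range_succ, ← ih]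

/-- Finite products of a computable family are computable, as soon as multiplication is. -/
theorem computable_prod_range_of {α σ : Type} [Primcodable α] [Primcodable σ] [CommMonoid σ]
    (hmul : Computable₂ (fun a b : σ => a * b)) {f : α → ℕ → σ} {k : α → ℕ}
    (hf : Computable₂ f) (hk : Computable k) :
    Computable (fun a => ∏ i ∈ Finset.range (k a), f a i) := by
  have h2 : Computable₂ (fun (a : α) (p : ℕ × σ) => p.2 * f a p.1) :=
    hmul.comp (Computable.snd.comp Computable.snd)
      (hf.comp Computable.fst (Computable.fst.comp Computable.snd))
  refine (Computable.nat_rec hk (Computable.const (1 : σ)) h2).of_eq fun a => ?_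
  induction k a with
  | zero => simp
  | succ n ih => rw [Finset.prod_range_succ, ← ih]

/-- Powers with a computable exponent are computable, as soon as multiplication is. -/
theorem computable_pow_of {α σ : Type} [Primcodable α] [Primcodable σ] [CommMonoid σ]
    (hmul : Computable₂ (fun a b : σ => a * b)) {f : α → σ} {k : α → ℕ}
    (hf : Computable f) (hk : Computable k) : Computable (fun a => f a ^ k a) := by
  have := computable_prod_range_of hmul (f := fun a _ => f a) (k := k)
    (hf.comp Computable.fst) hk
  exact this.of_eq fun a => by simp

/-- The Interface statement `computable_rat_sum_range`, given that rational addition is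
computable (Interface `computable_rat_add`). -/
theorem computable_rat_sum_range_of (hadd : Computable₂ (fun a b : ℚ => a + b))
    {α : Type} [Primcodable α] {f : α → ℕ → ℚ} {k : α → ℕ}
    (hf : Computable₂ f) (hk : Computable k) :
    Computable (fun a => ∑ i ∈ Finset.range (k a), f a i) :=
  computable_sum_range_of hadd hf hk

end Crest.Agent.S0170.Helper82
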