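import Mathlib
import Crest.Prelude.Def_BoxFlow

/-!
# S0170, module M5 (helper83): tensor-product fields

* `tensor f v` : the field `(t, x) ↦ (f 0 t * f 1 (x 0) * f 2 (x 1) * f 3 (x 2)) • v`;
  smoothness, compact support, mixed derivatives (`mixedDeriv_tensor`), divergence.
* `mixedDeriv` of sums / scalar multiples / list sums of smooth fields; `contDiff_mixedDeriv`.
* `Eff1 f` : all derivatives of a function of one variable are computably approximable at
  rational points and computably bounded.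
* `effective_tensor`, `effective_add`, `effective_list_sum`, `effective_zero` : the frozen
  predicate `Effective` for tensor products of `Eff1` functions and for finite sums.  The
  computability of `+` and `*` on `ℚ` enters as explicit hypotheses.
-/

set_option autoImplicit false
open scoped ContDiff
open Crest.AnalysisR.BoxFlow

namespace Crest.Agent.S0170.Helper83

/-- The tensor-product field `f 0 (t) * f 1 (x 0) * f 2 (x 1) * f 3 (x 2) • v`. -/
noncomputable def tensor (f : Fin 4 → ℝ → ℝ) (v : Fin 3 → ℝ) : Field :=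
  fun p => (f 0 p.1 * f 1 (p.2 0) * f 2 (p.2 1) * f 3 (p.2 2)) • v

theorem tensor_apply (f : Fin 4 → ℝ → ℝ) (v : Fin 3 → ℝ) (p : ℝ × (Fin 3 → ℝ)) :
    tensor f v p = (f 0 p.1 * f 1 (p.2 0) * f 2 (p.2 1) * f 3 (p.2 2)) • v := rfl

theorem contDiff_tensor {f : Fin 4 → ℝ → ℝ} (hf : ∀ i, ContDiff ℝ ∞ (f i)) (v : Fin 3 → ℝ) :
    ContDiff ℝ ∞ (tensor f v) := by
  unfold tensor
  have h0 : ContDiff ℝ ∞ (fun p : ℝ × (Fin 3 → ℝ) => f 0 p.1) := (hf 0).comp contDiff_fst
  have h1 : ContDiff ℝ ∞ (fun p : ℝ × (Fin 3 → ℝ) => f 1 (p.2 0)) :=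
    (hf 1).comp ((contDiff_apply ℝ ℝ (0 : Fin 3)).comp contDiff_snd)
  have h2 : ContDiff ℝ ∞ (fun p : ℝ × (Fin 3 → ℝ) => f 2 (p.2 1)) :=
    (hf 2).comp ((contDiff_apply ℝ ℝ (1 : Fin 3)).comp contDiff_snd)
  have h3 : ContDiff ℝ ∞ (fun p : ℝ × (Fin 3 → ℝ) => f 3 (p.2 2)) :=
    (hf 3).comp ((contDiff_apply ℝ ℝ (2 : Fin 3)).comp contDiff_snd)
  exact (((h0.mul h1).mul h2).mul h3).smul contDiff_const

theorem hasDerivAt_line {g : ℝ → ℝ} (hg : Differentiable ℝ g) (a : ℝ) (F : ℝ → ℝ)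
    (v : Fin 3 → ℝ) (G : ℝ → ℝ) (hG : ∀ t, G t = F (g (a + t)))
    (c : ℝ) (hc : HasDerivAt F c (g a)) :
    HasDerivAt (fun t : ℝ => G t • v) ((c * deriv g a) • v) 0 := by
  have h1 : HasDerivAt (fun t : ℝ => g (a + t)) (deriv g a) 0 := by
    have h0 : HasDerivAt g (deriv g a) (a + 0) := by simpa using (hg a).hasDerivAt
    exact h0.comp_const_add a 0
  have h4 : HasDerivAt (fun t : ℝ => F (g (a + t))) (c * deriv g a) 0 := by
    have hc' : HasDerivAt F c (g (a + 0)) := by simpa using hc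
    exact HasDerivAt.comp (0 : ℝ) hc' h1
  have h5 : (fun t : ℝ => G t • v) = fun t : ℝ => F (g (a + t)) • v := by
    funext t; rw [hG]
  rw [h5]
  exact h4.smul_const v

theorem direction_zero : direction 0 = (1, 0) := by simp [direction]

theorem direction_one : direction 1 = (0, Pi.single 0 1) := by
  simp [direction, Fin.pred]

theorem direction_two : direction 2 = (0, Pi.single 1 1) := by
  simp [direction, Fin.pred]

theorem direction_three : direction 3 = (0, Pi.single 2 1) := by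
  simp [direction, Fin.pred]

theorem fderiv_tensor_direction {f : Fin 4 → ℝ → ℝ} (hf : ∀ i, ContDiff ℝ ∞ (f i))
    (v : Fin 3 → ℝ) (d : Fin 4) (p : ℝ × (Fin 3 → ℝ)) :
    fderiv ℝ (tensor f v) p (direction d) =
      tensor (Function.update f d (deriv (f d))) v p := by
  have hdiff : DifferentiableAt ℝ (tensor f v) p :=
    ((contDiff_tensor hf v).differentiable (by simp)).differentiableAt
  have hd : ∀ i, Differentiable ℝ (f i) := fun i => (hf i).differentiable (by simp)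
  rw [← hdiff.lineDeriv_eq_fderiv]
  unfold lineDeriv
  fin_cases d
  · have key := hasDerivAt_line (hd 0) p.1 (fun y => y * f 1 (p.2 0) * f 2 (p.2 1) * f 3 (p.2 2))
      v (fun t => f 0 (p.1 + t) * f 1 (p.2 0) * f 2 (p.2 1) * f 3 (p.2 2))
      (fun t => rfl) (f 1 (p.2 0) * f 2 (p.2 1) * f 3 (p.2 2))
      (by
        have := ((hasDerivAt_id (f 0 p.1)).mul_const (f 1 (p.2 0) * f 2 (p.2 1) * f 3 (p.2 2)))
        simpa [mul_assoc] using this)
    have e : (fun t : ℝ => tensor f v (p + t • direction (0 : Fin 4))) =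
        fun t : ℝ => (f 0 (p.1 + t) * f 1 (p.2 0) * f 2 (p.2 1) * f 3 (p.2 2)) • v := by
      funext t; simp [tensor, direction_zero]
    simp only [Fin.zero_eta]
    rw [e, key.deriv]
    simp [tensor]
    ring_nf
  · have key := hasDerivAt_line (hd 1) (p.2 0) (fun y => f 0 p.1 * y * f 2 (p.2 1) * f 3 (p.2 2))
      v (fun t => f 0 p.1 * f 1 (p.2 0 + t) * f 2 (p.2 1) * f 3 (p.2 2))
      (fun t => rfl) (f 0 p.1 * f 2 (p.2 1) * f 3 (p.2 2))
      (by
        have := (((hasDerivAt_id (f 1 (p.2 0))).const_mul (f 0 p.1)).mul_const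
          (f 2 (p.2 1) * f 3 (p.2 2)))
        simpa [mul_assoc] using this)
    have e : (fun t : ℝ => tensor f v (p + t • direction (1 : Fin 4))) =
        fun t : ℝ => (f 0 p.1 * f 1 (p.2 0 + t) * f 2 (p.2 1) * f 3 (p.2 2)) • v := by
      funext t; simp [tensor, direction_one]
    simp only [Fin.mk_one]
    rw [e, key.deriv]
    simp [tensor]
    ring_nf
  · have key := hasDerivAt_line (hd 2) (p.2 1) (fun y => f 0 p.1 * f 1 (p.2 0) * y * f 3 (p.2 2))
      v (fun t => f 0 p.1 * f 1 (p.2 0) * f 2 (p.2 1 + t) * f 3 (p.2 2))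
      (fun t => rfl) (f 0 p.1 * f 1 (p.2 0) * f 3 (p.2 2))
      (by
        have := (((hasDerivAt_id (f 2 (p.2 1))).const_mul (f 0 p.1 * f 1 (p.2 0))).mul_const
          (f 3 (p.2 2)))
        simpa [mul_assoc] using this)
    have e : (fun t : ℝ => tensor f v (p + t • direction (2 : Fin 4))) =
        fun t : ℝ => (f 0 p.1 * f 1 (p.2 0) * f 2 (p.2 1 + t) * f 3 (p.2 2)) • v := by
      funext t; simp [tensor, direction_two]
    have e2 : ((⟨2, by decide⟩ : Fin 4)) = 2 := rfl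
    simp only [e2]
    rw [e, key.deriv]
    simp [tensor]
    ring_nf
  · have key := hasDerivAt_line (hd 3) (p.2 2) (fun y => f 0 p.1 * f 1 (p.2 0) * f 2 (p.2 1) * y)
      v (fun t => f 0 p.1 * f 1 (p.2 0) * f 2 (p.2 1) * f 3 (p.2 2 + t))
      (fun t => rfl) (f 0 p.1 * f 1 (p.2 0) * f 2 (p.2 1))
      (by
        have := (((hasDerivAt_id (f 3 (p.2 2))).const_mul (f 0 p.1 * f 1 (p.2 0) * f 2 (p.2 1))))
        simpa [mul_assoc] using this)
    have e : (fun t : ℝ => tensor f v (p + t • direction (3 : Fin 4))) =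
        fun t : ℝ => (f 0 p.1 * f 1 (p.2 0) * f 2 (p.2 1) * f 3 (p.2 2 + t)) • v := by
      funext t; simp [tensor, direction_three]
    have e2 : ((⟨3, by decide⟩ : Fin 4)) = 3 := rfl
    simp only [e2]
    rw [e, key.deriv]
    simp [tensor]

theorem direction_succ (j : Fin 3) : direction j.succ = (0, Pi.single j 1) := by
  fin_cases j
  · exact direction_one
  · exact direction_two
  · exact direction_three

theorem contDiff_iteratedDeriv {g : ℝ → ℝ} (hg : ContDiff ℝ ∞ g) (m : ℕ) :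
    ContDiff ℝ ∞ (iteratedDeriv m g) := by
  rw [iteratedDeriv_eq_iterate]
  exact ContDiff.iterate_deriv m hg

/-- Mixed derivatives of a tensor-product field: differentiate each factor as many times as its
direction occurs in the list. -/
theorem mixedDeriv_tensor {f : Fin 4 → ℝ → ℝ} (hf : ∀ i, ContDiff ℝ ∞ (f i)) (v : Fin 3 → ℝ)
    (ds : List (Fin 4)) :
    mixedDeriv ds (tensor f v) = tensor (fun i => iteratedDeriv (ds.count i) (f i)) v := by
  induction ds with
  | nil => simp [mixedDeriv]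
  | cons d ds ih =>
    funext p
    show fderiv ℝ (mixedDeriv ds (tensor f v)) p (direction d) = _
    rw [ih, fderiv_tensor_direction (fun i => contDiff_iteratedDeriv (hf i) _)]
    congr 1
    funext i
    by_cases h : i = d
    · subst h
      simp [iteratedDeriv_succ]
    · have h' : d ≠ i := fun e => h e.symm
      simp [Function.update, h, h']

theorem contDiff_mixedDeriv {U : Field} (hU : ContDiff ℝ ∞ U) (ds : List (Fin 4)) :
    ContDiff ℝ ∞ (mixedDeriv ds U) := by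
  induction ds with
  | nil => exact hU
  | cons d ds ih =>
    show ContDiff ℝ ∞ (fun p => fderiv ℝ (mixedDeriv ds U) p (direction d))
    have h1 : ContDiff ℝ ∞ (fderiv ℝ (mixedDeriv ds U)) := ih.fderiv_right (by simp)
    exact h1.clm_apply contDiff_const

theorem mixedDeriv_zero (ds : List (Fin 4)) : mixedDeriv ds (0 : Field) = 0 := by
  induction ds with
  | nil => rfl
  | cons d ds ih =>
    funext p
    show fderiv ℝ (mixedDeriv ds (0 : Field)) p (direction d) = 0
    rw [ih]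
    simp

theorem mixedDeriv_add {U V : Field} (hU : ContDiff ℝ ∞ U) (hV : ContDiff ℝ ∞ V)
    (ds : List (Fin 4)) :
    mixedDeriv ds (U + V) = mixedDeriv ds U + mixedDeriv ds V := by
  induction ds with
  | nil => rfl
  | cons d ds ih =>
    funext p
    show fderiv ℝ (mixedDeriv ds (U + V)) p (direction d) =
      fderiv ℝ (mixedDeriv ds U) p (direction d) + fderiv ℝ (mixedDeriv ds V) p (direction d)
    rw [ih]
    have h1 : DifferentiableAt ℝ (mixedDeriv ds U) p :=
      ((contDiff_mixedDeriv hU ds).differentiable (by simp)).differentiableAt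
    have h2 : DifferentiableAt ℝ (mixedDeriv ds V) p :=
      ((contDiff_mixedDeriv hV ds).differentiable (by simp)).differentiableAt
    rw [fderiv_add h1 h2]
    rfl

theorem mixedDeriv_const_smul {U : Field} (hU : ContDiff ℝ ∞ U) (c : ℝ) (ds : List (Fin 4)) :
    mixedDeriv ds (c • U) = c • mixedDeriv ds U := by
  induction ds with
  | nil => rfl
  | cons d ds ih =>
    funext p
    show fderiv ℝ (mixedDeriv ds (c • U)) p (direction d) =
      c • fderiv ℝ (mixedDeriv ds U) p (direction d)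
    rw [ih]
    have h1 : DifferentiableAt ℝ (mixedDeriv ds U) p :=
      ((contDiff_mixedDeriv hU ds).differentiable (by simp)).differentiableAt
    rw [fderiv_const_smul h1]
    rfl

theorem contDiff_list_sum {L : List Field} (hL : ∀ U ∈ L, ContDiff ℝ ∞ U) :
    ContDiff ℝ ∞ L.sum := by
  induction L with
  | nil => exact (contDiff_const : ContDiff ℝ ∞ (fun _ : ℝ × (Fin 3 → ℝ) => (0 : Fin 3 → ℝ)))
  | cons U L ih =>
    rw [List.sum_cons]
    exact (hL U (by simp)).add (ih fun V hV => hL V (by simp [hV]))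

theorem mixedDeriv_list_sum {L : List Field} (hL : ∀ U ∈ L, ContDiff ℝ ∞ U) (ds : List (Fin 4)) :
    mixedDeriv ds L.sum = (L.map (mixedDeriv ds)).sum := by
  induction L with
  | nil => simpa using mixedDeriv_zero ds
  | cons U L ih =>
    rw [List.sum_cons, List.map_cons, List.sum_cons,
      mixedDeriv_add (hL U (by simp)) (contDiff_list_sum fun V hV => hL V (by simp [hV])),
      ih fun V hV => hL V (by simp [hV])]

theorem spaceDiv_eq_mixedDeriv (U : Field) (p : ℝ × (Fin 3 → ℝ)) :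
    spaceDiv U p = ∑ j : Fin 3, mixedDeriv [j.succ] U p j := by
  unfold spaceDiv
  refine Finset.sum_congr rfl fun j _ => ?_
  show _ = fderiv ℝ U p (direction j.succ) j
  rw [direction_succ]

theorem spaceDiv_add {U V : Field} (hU : ContDiff ℝ ∞ U) (hV : ContDiff ℝ ∞ V)
    (p : ℝ × (Fin 3 → ℝ)) : spaceDiv (U + V) p = spaceDiv U p + spaceDiv V p := by
  simp only [spaceDiv_eq_mixedDeriv, mixedDeriv_add hU hV, Pi.add_apply, Finset.sum_add_distrib]

theorem spaceDiv_zero (p : ℝ × (Fin 3 → ℝ)) : spaceDiv (0 : Field) p = 0 := by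
  simp [spaceDiv_eq_mixedDeriv, mixedDeriv_zero]

/-- Divergence of a tensor-product field. -/
theorem spaceDiv_tensor {f : Fin 4 → ℝ → ℝ} (hf : ∀ i, ContDiff ℝ ∞ (f i)) (v : Fin 3 → ℝ)
    (p : ℝ × (Fin 3 → ℝ)) :
    spaceDiv (tensor f v) p =
      f 0 p.1 * (deriv (f 1) (p.2 0) * f 2 (p.2 1) * f 3 (p.2 2) * v 0
        + f 1 (p.2 0) * deriv (f 2) (p.2 1) * f 3 (p.2 2) * v 1
        + f 1 (p.2 0) * f 2 (p.2 1) * deriv (f 3) (p.2 2) * v 2) := by
  unfold spaceDiv
  have h : ∀ j : Fin 3, fderiv ℝ (tensor f v) p (0, Pi.single j 1) =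
      tensor (Function.update f j.succ (deriv (f j.succ))) v p := by
    intro j
    rw [← direction_succ, fderiv_tensor_direction hf]
  simp only [h, Fin.sum_univ_three]
  simp [tensor, Function.update]
  ring

section comp
variable {α σ : Type*} [Primcodable α] [Primcodable σ]

theorem computable_fin_lam {n : ℕ} {f : α → Fin n → σ} (h : ∀ i, Computable fun a => f a i) :
    Computable f :=
  ((Primrec.vector_get'.to_comp).comp (Computable.vector_ofFn h)).of_eq fun a => by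
    funext i; simp

theorem primrec_list_count (i : Fin 4) : Primrec fun ds : List (Fin 4) => ds.count i := by
  have h : Primrec fun ds : List (Fin 4) =>
      ds.foldl (fun s b => if b = i then s + 1 else s) 0 := by
    refine Primrec.list_foldl (f := fun ds : List (Fin 4) => ds) (g := fun _ => (0 : ℕ))
      (h := fun _ (sb : ℕ × Fin 4) => if sb.2 = i then sb.1 + 1 else sb.1) Primrec.id
      (Primrec.const 0) ?_
    refine Primrec.ite ?_ ?_ ?_
    · exact Primrec.eq.comp (Primrec.snd.comp Primrec.snd) (Primrec.const i)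
    · exact Primrec.succ.comp (Primrec.fst.comp Primrec.snd)
    · exact Primrec.fst.comp Primrec.snd
  refine h.of_eq fun ds => ?_
  have key : ∀ (l : List (Fin 4)) (k : ℕ),
      l.foldl (fun s b => if b = i then s + 1 else s) k = k + l.count i := by
    intro l
    induction l with
    | nil => intro k; simp
    | cons d l ih =>
      intro k
      rw [List.foldl_cons, ih]
      by_cases hd : d = i
      · subst hd; simp; ring
      · simp [hd]
  simpa using key ds 0

end comp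

theorem mul_approx_step {x a y b X Y c ε : ℝ} (hX : 0 ≤ X) (hY : 1 ≤ Y) (hε : 0 ≤ ε) (hc : 0 ≤ c)
    (hx : |x| ≤ X) (ha : |a| ≤ X) (hxa : |x - a| ≤ c * ε * X)
    (hy : |y| ≤ Y) (hb : |b| ≤ Y) (hyb : |y - b| ≤ ε) :
    |x * y| ≤ X * Y ∧ |a * b| ≤ X * Y ∧ |x * y - a * b| ≤ (c + 1) * ε * (X * Y) := by
  have hY0 : 0 ≤ Y := le_trans zero_le_one hY
  refine ⟨?_, ?_, ?_⟩
  · rw [abs_mul]; exact mul_le_mul hx hy (abs_nonneg _) hX
  · rw [abs_mul]; exact mul_le_mul ha hb (abs_nonneg _) hX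
  · have e : x * y - a * b = (x - a) * y + a * (y - b) := by ring
    rw [e]
    calc |(x - a) * y + a * (y - b)| ≤ |(x - a) * y| + |a * (y - b)| := abs_add_le _ _
      _ = |x - a| * |y| + |a| * |y - b| := by rw [abs_mul, abs_mul]
      _ ≤ (c * ε * X) * Y + X * ε := by
        have h1 : |x - a| * |y| ≤ (c * ε * X) * Y :=
          mul_le_mul hxa hy (abs_nonneg _) (by positivity)
        have h2 : |a| * |y - b| ≤ X * ε := mul_le_mul ha hyb (abs_nonneg _) hX
        linarith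
      _ ≤ (c * ε * X) * Y + X * ε * Y := by
        have : X * ε ≤ X * ε * Y := le_mul_of_one_le_right (by positivity) hY
        linarith
      _ = (c + 1) * ε * (X * Y) := by ring

theorem prod4_approx {x a β : Fin 4 → ℝ} {ε : ℝ} (hε0 : 0 ≤ ε) (hε1 : ε ≤ 1)
    (hx : ∀ i, |x i| ≤ β i) (ha : ∀ i, |x i - a i| ≤ ε) :
    |x 0 * x 1 * x 2 * x 3| ≤ (β 0 + 1) * (β 1 + 1) * (β 2 + 1) * (β 3 + 1) ∧
    |x 0 * x 1 * x 2 * x 3 - a 0 * a 1 * a 2 * a 3| ≤
      4 * ε * ((β 0 + 1) * (β 1 + 1) * (β 2 + 1) * (β 3 + 1)) := by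
  have hβ : ∀ i, 0 ≤ β i := fun i => le_trans (abs_nonneg _) (hx i)
  have hb1 : ∀ i, 1 ≤ β i + 1 := fun i => by linarith [hβ i]
  have hxb : ∀ i, |x i| ≤ β i + 1 := fun i => by linarith [hx i]
  have hab : ∀ i, |a i| ≤ β i + 1 := fun i => by
    have h1 : |a i| ≤ |x i| + |x i - a i| := by
      have : a i = x i - (x i - a i) := by ring
      calc |a i| = |x i - (x i - a i)| := by rw [← this]
        _ ≤ |x i| + |x i - a i| := abs_sub _ _
    linarith [hx i, ha i]
  have h0 : |x 0 - a 0| ≤ 1 * ε * (β 0 + 1) := by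
    have : ε ≤ ε * (β 0 + 1) := le_mul_of_one_le_right hε0 (hb1 0)
    linarith [ha 0]
  obtain ⟨p1, q1, r1⟩ := mul_approx_step (by linarith [hβ 0]) (hb1 1) hε0 zero_le_one
    (hxb 0) (hab 0) h0 (hxb 1) (hab 1) (ha 1)
  obtain ⟨p2, q2, r2⟩ := mul_approx_step (by have := hb1 0; have := hb1 1; positivity)
    (hb1 2) hε0 (by norm_num) p1 q1 r1 (hxb 2) (hab 2) (ha 2)
  obtain ⟨p3, q3, r3⟩ := mul_approx_step (by have := hb1 0; have := hb1 1; have := hb1 2; positivity)
    (hb1 3) hε0 (by norm_num) p2 q2 r2 (hxb 3) (hab 3) (ha 3)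
  refine ⟨p3, ?_⟩
  calc |x 0 * x 1 * x 2 * x 3 - a 0 * a 1 * a 2 * a 3|
      ≤ (1 + 1 + 1 + 1) * ε * ((β 0 + 1) * (β 1 + 1) * (β 2 + 1) * (β 3 + 1)) := r3
    _ = 4 * ε * ((β 0 + 1) * (β 1 + 1) * (β 2 + 1) * (β 3 + 1)) := by ring

/-- A function of one real variable all of whose derivatives are computably approximable at
rational points and computably bounded on the whole line. -/
def Eff1 (f : ℝ → ℝ) : Prop :=
  ∃ (A : ℕ × ℚ × ℕ → ℚ) (B : ℕ → ℕ), Computable A ∧ Computable B ∧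
    (∀ (m : ℕ) (q : ℚ) (n : ℕ),
      |iteratedDeriv m f (q : ℝ) - (A (m, q, n) : ℝ)| ≤ 1 / ((n : ℝ) + 1)) ∧
    (∀ (m : ℕ) (x : ℝ), |iteratedDeriv m f x| ≤ (B m : ℝ))

theorem effective_zero : Effective (0 : Field) := by
  refine ⟨fun _ => 0, fun _ => 0, Computable.const _, Computable.const _, ?_, ?_⟩
  · intro ds t q n j
    simp [mixedDeriv_zero]
    positivity
  · intro ds p j
    simp [mixedDeriv_zero]

theorem effective_add (hadd : Computable₂ (fun a b : ℚ => a + b)) {U V : Field}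
    (hU : ContDiff ℝ ∞ U) (hV : ContDiff ℝ ∞ V) (eU : Effective U) (eV : Effective V) :
    Effective (U + V) := by
  obtain ⟨EU, bU, cEU, cbU, aU, bdU⟩ := eU
  obtain ⟨EV, bV, cEV, cbV, aV, bdV⟩ := eV
  refine ⟨fun x => fun j => EU (x.1, x.2.1, 2 * x.2.2 + 1) j + EV (x.1, x.2.1, 2 * x.2.2 + 1) j,
    fun ds => bU ds + bV ds, ?_, ?_, ?_, ?_⟩
  · refine computable_fin_lam fun j => ?_
    have harg : Computable fun x : List (Fin 4) × (ℚ × (Fin 3 → ℚ)) × ℕ =>
        (x.1, x.2.1, 2 * x.2.2 + 1) :=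
      Computable.pair Computable.fst (Computable.pair (Computable.fst.comp Computable.snd)
        (Primrec.nat_double_succ.to_comp.comp (Computable.snd.comp Computable.snd)))
    have h1 : Computable fun x : List (Fin 4) × (ℚ × (Fin 3 → ℚ)) × ℕ =>
        EU (x.1, x.2.1, 2 * x.2.2 + 1) j :=
      Computable.fin_app.comp (cEU.comp harg) (Computable.const j)
    have h2 : Computable fun x : List (Fin 4) × (ℚ × (Fin 3 → ℚ)) × ℕ =>
        EV (x.1, x.2.1, 2 * x.2.2 + 1) j :=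
      Computable.fin_app.comp (cEV.comp harg) (Computable.const j)
    exact hadd.comp h1 h2
  · exact (Primrec.nat_add.to_comp).comp cbU cbV
  · intro ds t q n j
    have h1 := aU ds t q (2 * n + 1) j
    have h2 := aV ds t q (2 * n + 1) j
    rw [mixedDeriv_add hU hV]
    simp only [Pi.add_apply]
    push_cast at h1 h2 ⊢
    have e : (1 : ℝ) / (n + 1) = 1 / (2 * (n : ℝ) + 1 + 1) + 1 / (2 * (n : ℝ) + 1 + 1) := by
      have hn : (0 : ℝ) ≤ n := Nat.cast_nonneg n
      field_simp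
      ring
    rw [e]
    calc |mixedDeriv ds U ((t : ℝ), ratPoint q) j + mixedDeriv ds V ((t : ℝ), ratPoint q) j -
          ((EU (ds, (t, q), 2 * n + 1) j : ℝ) + (EV (ds, (t, q), 2 * n + 1) j : ℝ))|
        = |(mixedDeriv ds U ((t : ℝ), ratPoint q) j - (EU (ds, (t, q), 2 * n + 1) j : ℝ)) +
          (mixedDeriv ds V ((t : ℝ), ratPoint q) j - (EV (ds, (t, q), 2 * n + 1) j : ℝ))| := by
          congr 1; ring
      _ ≤ _ := (abs_add_le _ _).trans (add_le_add h1 h2)
  · intro ds p j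
    rw [mixedDeriv_add hU hV]
    simp only [Pi.add_apply]
    push_cast
    exact (abs_add_le _ _).trans (add_le_add (bdU ds p j) (bdV ds p j))

theorem effective_list_sum (hadd : Computable₂ (fun a b : ℚ => a + b)) {L : List Field}
    (hL : ∀ U ∈ L, ContDiff ℝ ∞ U ∧ Effective U) : Effective L.sum := by
  induction L with
  | nil => simpa using effective_zero
  | cons U L ih =>
    rw [List.sum_cons]
    exact effective_add hadd (hL U (by simp)).1
      (contDiff_list_sum fun V hV => (hL V (by simp [hV])).1) (hL U (by simp)).2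
      (ih fun V hV => hL V (by simp [hV]))

/-- Coordinate `i` (0 = time, `j + 1` = space `j`) of a rational space-time point. -/
def ptQ (i : Fin 4) (tq : ℚ × (Fin 3 → ℚ)) : ℚ := Fin.cases tq.1 (fun j => tq.2 j) i

/-- Coordinate `i` (0 = time, `j + 1` = space `j`) of a real space-time point. -/
def ptR (i : Fin 4) (p : ℝ × (Fin 3 → ℝ)) : ℝ := Fin.cases p.1 (fun j => p.2 j) i

theorem ptR_ratPoint (i : Fin 4) (t : ℚ) (q : Fin 3 → ℚ) :
    ptR i ((t : ℝ), ratPoint q) = ((ptQ i (t, q) : ℚ) : ℝ) := by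
  refine Fin.cases ?_ (fun j => ?_) i
  · rfl
  · rfl

theorem computable_ptQ (i : Fin 4) : Computable (ptQ i) := by
  refine Fin.cases ?_ (fun j => ?_) i
  · exact Computable.fst.of_eq fun x => rfl
  · exact (Computable.fin_app.comp Computable.snd (Computable.const j)).of_eq fun x => rfl

theorem tensor_apply_ptR (f : Fin 4 → ℝ → ℝ) (v : Fin 3 → ℝ) (p : ℝ × (Fin 3 → ℝ)) (j : Fin 3) :
    tensor f v p j = f 0 (ptR 0 p) * f 1 (ptR 1 p) * f 2 (ptR 2 p) * f 3 (ptR 3 p) * v j := rfl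

/-- Product of the shifted derivative bounds of the four factors. -/
def tensorM (B : Fin 4 → ℕ → ℕ) (ds : List (Fin 4)) : ℕ :=
  (B 0 (ds.count 0) + 1) * (B 1 (ds.count 1) + 1) * (B 2 (ds.count 2) + 1) *
    (B 3 (ds.count 3) + 1)

/-- Precision requested from the four factors. -/
def tensorN (B : Fin 4 → ℕ → ℕ) (K : ℕ) (ds : List (Fin 4)) (n : ℕ) : ℕ :=
  (n + 1) * (4 * K * tensorM B ds)

/-- The approximation function of a tensor-product field. -/
def tensorE (A : Fin 4 → ℕ × ℚ × ℕ → ℚ) (B : Fin 4 → ℕ → ℕ) (K : ℕ) (w : Fin 3 → ℚ)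
    (x : List (Fin 4) × (ℚ × (Fin 3 → ℚ)) × ℕ) : Fin 3 → ℚ := fun j =>
  w j * (A 0 (x.1.count 0, ptQ 0 x.2.1, tensorN B K x.1 x.2.2) *
    A 1 (x.1.count 1, ptQ 1 x.2.1, tensorN B K x.1 x.2.2) *
    A 2 (x.1.count 2, ptQ 2 x.2.1, tensorN B K x.1 x.2.2) *
    A 3 (x.1.count 3, ptQ 3 x.2.1, tensorN B K x.1 x.2.2))

theorem computable_tensorM {B : Fin 4 → ℕ → ℕ} (cB : ∀ i, Computable (B i)) :
    Computable (tensorM B) := by
  have hc : ∀ i : Fin 4, Computable fun ds : List (Fin 4) => B i (ds.count i) + 1 := fun i =>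
    Computable.succ.comp ((cB i).comp (primrec_list_count i).to_comp)
  exact (Primrec.nat_mul.to_comp).comp ((Primrec.nat_mul.to_comp).comp
    ((Primrec.nat_mul.to_comp).comp (hc 0) (hc 1)) (hc 2)) (hc 3)

theorem computable_tensorN {B : Fin 4 → ℕ → ℕ} (cB : ∀ i, Computable (B i)) (K : ℕ) :
    Computable fun x : List (Fin 4) × (ℚ × (Fin 3 → ℚ)) × ℕ => tensorN B K x.1 x.2.2 := by
  have h1 : Computable fun x : List (Fin 4) × (ℚ × (Fin 3 → ℚ)) × ℕ => x.2.2 + 1 :=
    Computable.succ.comp (Computable.snd.comp Computable.snd)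
  have h2 : Computable fun x : List (Fin 4) × (ℚ × (Fin 3 → ℚ)) × ℕ => 4 * K * tensorM B x.1 :=
    (Primrec.nat_mul.to_comp).comp (Computable.const (4 * K))
      ((computable_tensorM cB).comp Computable.fst)
  exact (Primrec.nat_mul.to_comp).comp h1 h2

theorem computable_tensorE (hmul : Computable₂ (fun a b : ℚ => a * b))
    {A : Fin 4 → ℕ × ℚ × ℕ → ℚ} {B : Fin 4 → ℕ → ℕ} (cA : ∀ i, Computable (A i))
    (cB : ∀ i, Computable (B i)) (K : ℕ) (w : Fin 3 → ℚ) : Computable (tensorE A B K w) := by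
  have cAi : ∀ i : Fin 4, Computable fun x : List (Fin 4) × (ℚ × (Fin 3 → ℚ)) × ℕ =>
      A i (x.1.count i, ptQ i x.2.1, tensorN B K x.1 x.2.2) := fun i =>
    (cA i).comp (Computable.pair ((primrec_list_count i).to_comp.comp Computable.fst)
      (Computable.pair ((computable_ptQ i).comp (Computable.fst.comp Computable.snd))
        (computable_tensorN cB K)))
  refine computable_fin_lam fun j => ?_
  exact hmul.comp (Computable.const (w j))
    (hmul.comp (hmul.comp (hmul.comp (cAi 0) (cAi 1)) (cAi 2)) (cAi 3))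

theorem exists_nat_bound (w : Fin 3 → ℚ) : ∃ K : ℕ, 1 ≤ K ∧ ∀ j, |(w j : ℝ)| ≤ (K : ℝ) := by
  refine ⟨1 + ∑ j : Fin 3, ⌈|(w j : ℝ)|⌉₊, by omega, fun j => ?_⟩
  have h1 : |(w j : ℝ)| ≤ (⌈|(w j : ℝ)|⌉₊ : ℝ) := Nat.le_ceil _
  have h2 : (⌈|(w j : ℝ)|⌉₊ : ℕ) ≤ ∑ j : Fin 3, ⌈|(w j : ℝ)|⌉₊ :=
    Finset.single_le_sum (f := fun j : Fin 3 => ⌈|(w j : ℝ)|⌉₊) (fun _ _ => Nat.zero_le _)
      (Finset.mem_univ j)
  have h3 : ((⌈|(w j : ℝ)|⌉₊ : ℕ) : ℝ) ≤ ((∑ j : Fin 3, ⌈|(w j : ℝ)|⌉₊ : ℕ) : ℝ) := by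
    exact_mod_cast h2
  push_cast at h3 ⊢
  linarith

theorem tensorM_cast (B : Fin 4 → ℕ → ℕ) (ds : List (Fin 4)) :
    ((B 0 (ds.count 0) : ℝ) + 1) * ((B 1 (ds.count 1) : ℝ) + 1) *
      ((B 2 (ds.count 2) : ℝ) + 1) * ((B 3 (ds.count 3) : ℝ) + 1) = (tensorM B ds : ℝ) := by
  unfold tensorM
  push_cast
  ring

theorem tensorM_pos (B : Fin 4 → ℕ → ℕ) (ds : List (Fin 4)) : (1 : ℝ) ≤ (tensorM B ds : ℝ) := by
  have : 1 ≤ tensorM B ds := by
    unfold tensorM
    exact Nat.one_le_iff_ne_zero.mpr (by positivity)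
  exact_mod_cast this

/-- Error estimate for the approximation function of a tensor-product field. -/
theorem tensorE_approx {g : Fin 4 → ℝ → ℝ} {A : Fin 4 → ℕ × ℚ × ℕ → ℚ} {B : Fin 4 → ℕ → ℕ}
    {K : ℕ} {w : Fin 3 → ℚ} (ds : List (Fin 4))
    (hA : ∀ i (q : ℚ) (n : ℕ), |g i (q : ℝ) - (A i (ds.count i, q, n) : ℝ)| ≤ 1 / ((n : ℝ) + 1))
    (hB : ∀ i (x : ℝ), |g i x| ≤ (B i (ds.count i) : ℝ))
    (hK1 : 1 ≤ K) (hK : ∀ j, |(w j : ℝ)| ≤ (K : ℝ))
    (t : ℚ) (q : Fin 3 → ℚ) (n : ℕ) (j : Fin 3) :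
    |tensor g (fun j => (w j : ℝ)) ((t : ℝ), ratPoint q) j -
      (tensorE A B K w (ds, (t, q), n) j : ℝ)| ≤ 1 / ((n : ℝ) + 1) := by
  set N : ℕ := tensorN B K ds n with hN
  set x : Fin 4 → ℝ := fun i => g i ((ptQ i (t, q) : ℚ) : ℝ) with hx
  set a : Fin 4 → ℝ := fun i => (A i (ds.count i, ptQ i (t, q), N) : ℝ) with ha
  set β : Fin 4 → ℝ := fun i => (B i (ds.count i) : ℝ) with hβ
  have hMpos := tensorM_pos B ds
  have hKR : (1 : ℝ) ≤ (K : ℝ) := by exact_mod_cast hK1
  have hε0 : (0 : ℝ) ≤ 1 / ((N : ℝ) + 1) := by positivity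
  have hε1 : (1 : ℝ) / ((N : ℝ) + 1) ≤ 1 := by
    rw [div_le_one (by positivity)]
    have : (0 : ℝ) ≤ (N : ℝ) := Nat.cast_nonneg _
    linarith
  obtain ⟨-, hprod⟩ := prod4_approx (x := x) (a := a) (β := β) hε0 hε1
    (fun i => hB i _) (fun i => hA i _ _)
  have hβM : (β 0 + 1) * (β 1 + 1) * (β 2 + 1) * (β 3 + 1) = (tensorM B ds : ℝ) :=
    tensorM_cast B ds
  rw [hβM] at hprod
  have hval : tensor g (fun j => (w j : ℝ)) ((t : ℝ), ratPoint q) j =
      x 0 * x 1 * x 2 * x 3 * (w j : ℝ) := by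
    rw [tensor_apply_ptR]
    simp only [ptR_ratPoint, hx]
  have hEval : ((tensorE A B K w (ds, (t, q), n) j : ℚ) : ℝ) =
      a 0 * a 1 * a 2 * a 3 * (w j : ℝ) := by
    simp only [tensorE, ha, hN]
    push_cast
    ring
  rw [hval, hEval]
  have e1 : x 0 * x 1 * x 2 * x 3 * (w j : ℝ) - a 0 * a 1 * a 2 * a 3 * (w j : ℝ) =
      (x 0 * x 1 * x 2 * x 3 - a 0 * a 1 * a 2 * a 3) * (w j : ℝ) := by ring
  rw [e1, abs_mul]
  have hNR : ((N : ℕ) : ℝ) = ((n : ℝ) + 1) * (4 * (K : ℝ) * (tensorM B ds : ℝ)) := by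
    rw [hN]
    unfold tensorN
    push_cast; ring
  have hn0 : (0 : ℝ) ≤ (n : ℝ) := Nat.cast_nonneg n
  calc |x 0 * x 1 * x 2 * x 3 - a 0 * a 1 * a 2 * a 3| * |(w j : ℝ)|
      ≤ (4 * (1 / ((N : ℝ) + 1)) * (tensorM B ds : ℝ)) * (K : ℝ) :=
        mul_le_mul hprod (hK j) (abs_nonneg _) (by positivity)
    _ = (4 * (K : ℝ) * (tensorM B ds : ℝ)) / ((N : ℝ) + 1) := by ring
    _ ≤ 1 / ((n : ℝ) + 1) := by
      rw [div_le_div_iff₀ (by positivity) (by positivity), hNR]
      nlinarith [mul_nonneg hn0 (by positivity : (0 : ℝ) ≤ 4 * (K : ℝ) * (tensorM B ds : ℝ))]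

/-- Global bound for a tensor-product field. -/
theorem tensor_bound {g : Fin 4 → ℝ → ℝ} {B : Fin 4 → ℕ → ℕ}
    {K : ℕ} {w : Fin 3 → ℚ} (ds : List (Fin 4))
    (hB : ∀ i (x : ℝ), |g i x| ≤ (B i (ds.count i) : ℝ))
    (hK : ∀ j, |(w j : ℝ)| ≤ (K : ℝ)) (p : ℝ × (Fin 3 → ℝ)) (j : Fin 3) :
    |tensor g (fun j => (w j : ℝ)) p j| ≤ ((K * tensorM B ds : ℕ) : ℝ) := by
  set x : Fin 4 → ℝ := fun i => g i (ptR i p) with hx
  set β : Fin 4 → ℝ := fun i => (B i (ds.count i) : ℝ) with hβ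
  obtain ⟨hprod, -⟩ := prod4_approx (x := x) (a := x) (β := β) (ε := 0) le_rfl zero_le_one
    (fun i => hB i _) (fun i => by simp)
  have hβM : (β 0 + 1) * (β 1 + 1) * (β 2 + 1) * (β 3 + 1) = (tensorM B ds : ℝ) :=
    tensorM_cast B ds
  rw [hβM] at hprod
  have hval : tensor g (fun j => (w j : ℝ)) p j = x 0 * x 1 * x 2 * x 3 * (w j : ℝ) := by
    rw [tensor_apply_ptR]
  rw [hval, abs_mul]
  push_cast
  calc |x 0 * x 1 * x 2 * x 3| * |(w j : ℝ)| ≤ (tensorM B ds : ℝ) * (K : ℝ) :=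
        mul_le_mul hprod (hK j) (abs_nonneg _) (Nat.cast_nonneg _)
    _ = (K : ℝ) * (tensorM B ds : ℝ) := by ring

/-- A tensor product of four `Eff1` functions with a rational direction vector is `Effective`. -/
theorem effective_tensor (hmul : Computable₂ (fun a b : ℚ => a * b)) {f : Fin 4 → ℝ → ℝ}
    (hf : ∀ i, ContDiff ℝ ∞ (f i)) (he : ∀ i, Eff1 (f i)) (w : Fin 3 → ℚ) :
    Effective (tensor f (fun j => (w j : ℝ))) := by
  choose A B cA cB hA hB using he
  obtain ⟨K, hK1, hK⟩ := exists_nat_bound w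
  refine ⟨tensorE A B K w, fun ds => K * tensorM B ds, computable_tensorE hmul cA cB K w,
    (Primrec.nat_mul.to_comp).comp (Computable.const K) (computable_tensorM cB), ?_, ?_⟩
  · intro ds t q n j
    rw [mixedDeriv_tensor hf]
    exact tensorE_approx (g := fun i => iteratedDeriv (ds.count i) (f i)) ds
      (fun i q n => hA i _ q n) (fun i x => hB i _ x) hK1 hK t q n j
  · intro ds p j
    rw [mixedDeriv_tensor hf]
    exact tensor_bound (g := fun i => iteratedDeriv (ds.count i) (f i)) ds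
      (fun i x => hB i _ x) hK p j

theorem tensor_eq_zero_of_factor {f : Fin 4 → ℝ → ℝ} (v : Fin 3 → ℝ) (p : ℝ × (Fin 3 → ℝ))
    (i : Fin 4) (h : f i (ptR i p) = 0) : tensor f v p = 0 := by
  funext j
  rw [tensor_apply_ptR]
  have : f 0 (ptR 0 p) * f 1 (ptR 1 p) * f 2 (ptR 2 p) * f 3 (ptR 3 p) = 0 := by
    fin_cases i
    · have h' : f 0 (ptR 0 p) = 0 := h
      rw [h']; ring
    · have h' : f 1 (ptR 1 p) = 0 := h
      rw [h']; ring
    · have h' : f 2 (ptR 2 p) = 0 := h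
      rw [h']; ring
    · have h' : f 3 (ptR 3 p) = 0 := h
      rw [h']; ring
  rw [this]
  simp

theorem tensor_eq_zero_of_time {f : Fin 4 → ℝ → ℝ} (v : Fin 3 → ℝ) (p : ℝ × (Fin 3 → ℝ))
    (h : f 0 p.1 = 0) : tensor f v p = 0 :=
  tensor_eq_zero_of_factor v p 0 h

theorem hasCompactSupport_tensor {f : Fin 4 → ℝ → ℝ} (hc : ∀ i, HasCompactSupport (f i))
    (v : Fin 3 → ℝ) : HasCompactSupport (tensor f v) := by
  have hK : IsCompact ((tsupport (f 0)) ×ˢ
      (Set.pi Set.univ fun j : Fin 3 => tsupport (f j.succ))) :=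
    (hc 0).isCompact.prod (isCompact_univ_pi fun j => (hc j.succ).isCompact)
  refine HasCompactSupport.intro hK fun p hp => ?_
  by_contra hne
  apply hp
  have hall : ∀ i, f i (ptR i p) ≠ 0 := fun i h0 => hne (tensor_eq_zero_of_factor v p i h0)
  refine ⟨subset_tsupport _ (hall 0), fun j _ => subset_tsupport _ (hall j.succ)⟩

theorem Eff1.deriv {f : ℝ → ℝ} (h : Eff1 f) : Eff1 (deriv f) := by
  obtain ⟨A, B, cA, cB, hA, hB⟩ := h
  refine ⟨fun x => A (x.1 + 1, x.2), fun m => B (m + 1), ?_, ?_, ?_, ?_⟩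
  · exact cA.comp (Computable.pair (Computable.succ.comp Computable.fst) Computable.snd)
  · exact cB.comp Computable.succ
  · intro m q n
    rw [← iteratedDeriv_succ']
    exact hA (m + 1) q n
  · intro m x
    rw [← iteratedDeriv_succ']
    exact hB (m + 1) x

theorem Eff1.iteratedDeriv {f : ℝ → ℝ} (h : Eff1 f) (k : ℕ) : Eff1 (iteratedDeriv k f) := by
  induction k with
  | zero => simpa using h
  | succ k ih =>
    rw [iteratedDeriv_succ]
    exact ih.deriv

theorem eff1_zero : Eff1 (fun _ => (0 : ℝ)) := by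
  refine ⟨fun _ => 0, fun _ => 0, Computable.const _, Computable.const _, ?_, ?_⟩
  · intro m q n
    have : iteratedDeriv m (fun _ : ℝ => (0 : ℝ)) = 0 := by
      induction m with
      | zero => rfl
      | succ m ih => rw [iteratedDeriv_succ, ih]; funext x; simp
    rw [this]
    simp
    positivity
  · intro m x
    have : iteratedDeriv m (fun _ : ℝ => (0 : ℝ)) = 0 := by
      induction m with
      | zero => rfl
      | succ m ih => rw [iteratedDeriv_succ, ih]; funext x; simp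
    rw [this]
    simp

end Crest.Agent.S0170.Helper83
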