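import Crest.Agent.Lib.S0170.Defs
import Crest.Agent.Lib.S0170.Helper83Tensor

/-!
# S0170, module M5 (helper83): `Effective` for the interface's `tensorTerm`

Bridges `Helper83Tensor` (stated for `Helper83.tensor f v`) to the shared definitions of
`Defs.lean` (`tensorTerm`, `Eff1`).  The computability of `+` / `*` on `ℚ` is an explicit
hypothesis (module M1 supplies it).
-/

set_option autoImplicit false
open scoped ContDiff
open Crest.AnalysisR.BoxFlow

namespace Crest.Agent.S0170.Helper83

/-- The interface's `tensorTerm` is a `tensor` with a rational basis vector. -/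
theorem tensorTerm_eq_tensor (j : Fin 3) (T : ℝ → ℝ) (F : Fin 3 → ℝ → ℝ) :
    tensorTerm j T F =
      tensor (Fin.cases T F) (fun j' => (((Pi.single j 1 : Fin 3 → ℚ) j' : ℚ) : ℝ)) := by
  funext p
  funext j'
  rw [tensor_apply_ptR]
  show (Pi.single j (T p.1 * ∏ i, F i (p.2 i)) : Fin 3 → ℝ) j' =
    T p.1 * F 0 (p.2 0) * F 1 (p.2 1) * F 2 (p.2 2) * (((Pi.single j 1 : Fin 3 → ℚ) j' : ℚ) : ℝ)
  rw [Fin.prod_univ_three]
  by_cases h : j' = j
  · subst h
    simp
    ring
  · simp [h]

/-- Interface statement `tensorTerm_effective`, relative to the computability of `*` on `ℚ`. -/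
theorem tensorTerm_effective_of (hmul : Computable₂ (fun a b : ℚ => a * b)) (j : Fin 3)
    {T : ℝ → ℝ} {F : Fin 3 → ℝ → ℝ}
    (hT : Crest.Agent.S0170.Eff1 T) (hF : ∀ i, Crest.Agent.S0170.Eff1 (F i)) :
    Effective (tensorTerm j T F) := by
  rw [tensorTerm_eq_tensor]
  refine effective_tensor hmul (f := Fin.cases T F) ?_ ?_ (Pi.single j 1)
  · intro i
    refine Fin.cases ?_ (fun k => ?_) i
    · exact hT.1
    · exact (hF k).1
  · intro i
    refine Fin.cases ?_ (fun k => ?_) i
    · exact hT.2
    · exact (hF k).2

/-- Interface statement `effective_add`, relative to the computability of `+` on `ℚ`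
(same as `effective_add`, restated with the interface's variable names). -/
theorem effective_add_of (hadd : Computable₂ (fun a b : ℚ => a + b)) {U W : Field}
    (hU : ContDiff ℝ ∞ U) (hW : ContDiff ℝ ∞ W) (eU : Effective U) (eW : Effective W) :
    Effective (U + W) :=
  effective_add hadd hU hW eU eW

end Crest.Agent.S0170.Helper83
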