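import Mathlib
import Crest.Agent.Lib.S0170.Defs

/-!
# S0170, module M4b (`BaseEff`): the one-dimensional building blocks `base …` are `Eff1`

`base a₁ b₁ a₂ b₂ c₀ c₁ c₂ x = stp (a₁ x + b₁) * stp (a₂ x + b₂) * (c₀ + c₁ x + c₂ x²)`.

The module is self-contained: the facts of the other modules that it needs (four
computability facts on `ℚ`, the approximation and the derivative bounds of `stp`, and the
finite-difference theorem) are bundled as hypotheses in the structure `Deps`.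
-/

set_option autoImplicit false

namespace Crest.Agent.S0170.Helper87

open Crest.AnalysisR.BoxFlow
open scoped ContDiff
open Crest.Agent.S0170

/-! ### Smoothness -/

theorem stp_contDiff : ContDiff ℝ ∞ stp := Real.smoothTransition.contDiff

theorem stp_affine_contDiff (a b : ℝ) : ContDiff ℝ ∞ (fun x : ℝ => stp (a * x + b)) :=
  stp_contDiff.comp ((contDiff_const.mul contDiff_id).add contDiff_const)

theorem poly_contDiff (c₀ c₁ c₂ : ℝ) : ContDiff ℝ ∞ (fun x : ℝ => c₀ + c₁ * x + c₂ * x ^ 2) :=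
  (contDiff_const.add (contDiff_const.mul contDiff_id)).add
    (contDiff_const.mul (contDiff_id.pow 2))

theorem base_contDiff (a₁ b₁ a₂ b₂ c₀ c₁ c₂ : ℚ) :
    ContDiff ℝ ∞ (base a₁ b₁ a₂ b₂ c₀ c₁ c₂) :=
  ((stp_affine_contDiff a₁ b₁).mul (stp_affine_contDiff a₂ b₂)).mul (poly_contDiff c₀ c₁ c₂)

/-! ### Iterated derivatives of affine reparametrisations -/

theorem iteratedDeriv_comp_affine {g : ℝ → ℝ} (hg : ContDiff ℝ ∞ g) (a b : ℝ) (k : ℕ) (x : ℝ) :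
    iteratedDeriv k (fun x : ℝ => g (a * x + b)) x = a ^ k * iteratedDeriv k g (a * x + b) := by
  have h1 : ContDiff ℝ k (fun z : ℝ => g (z + b)) :=
    (hg.comp (contDiff_id.add contDiff_const)).of_le (by exact_mod_cast le_top)
  have h2 := iteratedDeriv_comp_const_mul h1 a
  have h3 := iteratedDeriv_comp_add_const k g b
  rw [h3] at h2
  exact congrFun h2 x

theorem stp_nonneg (x : ℝ) : 0 ≤ stp x := Real.smoothTransition.nonneg x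
theorem stp_le_one (x : ℝ) : stp x ≤ 1 := Real.smoothTransition.le_one x
theorem stp_of_nonpos {x : ℝ} (h : x ≤ 0) : stp x = 0 := Real.smoothTransition.zero_of_nonpos h

/-! ### Leibniz bound -/

theorem abs_iteratedDeriv_mul_le {f g : ℝ → ℝ} (hf : ContDiff ℝ ∞ f) (hg : ContDiff ℝ ∞ g)
    (m : ℕ) (x : ℝ) (F G : ℝ) (hF : ∀ i ≤ m, |iteratedDeriv i f x| ≤ F)
    (hG : ∀ i ≤ m, |iteratedDeriv i g x| ≤ G) :
    |iteratedDeriv m (fun y => f y * g y) x| ≤ 2 ^ m * (F * G) := by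
  have hf' : ContDiffAt ℝ m f x := (hf.of_le (by exact_mod_cast le_top)).contDiffAt
  have hg' : ContDiffAt ℝ m g x := (hg.of_le (by exact_mod_cast le_top)).contDiffAt
  have h := iteratedDeriv_mul hf' hg'
  have hF0 : 0 ≤ F := le_trans (abs_nonneg _) (hF 0 (Nat.zero_le _))
  rw [show (fun y => f y * g y) = f * g from rfl, h]
  calc |∑ i ∈ Finset.range (m + 1),
          (m.choose i : ℝ) * iteratedDeriv i f x * iteratedDeriv (m - i) g x|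
      ≤ ∑ i ∈ Finset.range (m + 1),
          |(m.choose i : ℝ) * iteratedDeriv i f x * iteratedDeriv (m - i) g x| :=
        Finset.abs_sum_le_sum_abs _ _
    _ ≤ ∑ i ∈ Finset.range (m + 1), (m.choose i : ℝ) * (F * G) := by
        refine Finset.sum_le_sum fun i hi => ?_
        have hi' : i ≤ m := Nat.lt_succ_iff.mp (Finset.mem_range.mp hi)
        rw [abs_mul, abs_mul, Nat.abs_cast, mul_assoc]
        refine mul_le_mul_of_nonneg_left ?_ (Nat.cast_nonneg _)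
        exact mul_le_mul (hF i hi') (hG (m - i) (Nat.sub_le _ _)) (abs_nonneg _) hF0
    _ = 2 ^ m * (F * G) := by
        rw [← Finset.sum_mul]
        congr 1
        exact_mod_cast Nat.sum_range_choose m

/-! ### Derivatives of the polynomial factor -/

theorem poly_deriv (c₀ c₁ c₂ : ℝ) :
    deriv (fun x : ℝ => c₀ + c₁ * x + c₂ * x ^ 2) =
      fun x : ℝ => c₁ + (2 * c₂) * x + 0 * x ^ 2 := by
  funext x
  have h : HasDerivAt (fun x : ℝ => c₀ + c₁ * x + c₂ * x ^ 2)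
      (0 + c₁ * 1 + c₂ * (2 * x ^ 1 * 1)) x :=
    ((hasDerivAt_const x c₀).add ((hasDerivAt_id x).const_mul c₁)).add
      (((hasDerivAt_id x).pow 2).const_mul c₂)
  rw [h.deriv]; ring

theorem abs_iteratedDeriv_poly_le (c₀ c₁ c₂ M : ℝ) (k : ℕ) (x : ℝ) (hx : |x| ≤ M) :
    |iteratedDeriv k (fun x : ℝ => c₀ + c₁ * x + c₂ * x ^ 2) x| ≤
      |c₀| + |c₁| * (M + 1) + |c₂| * (M ^ 2 + 2 * M + 2) := by
  have hM : 0 ≤ M := le_trans (abs_nonneg _) hx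
  have h0 := abs_nonneg c₀
  have h1 := abs_nonneg c₁
  have h2 := abs_nonneg c₂
  have hx2 : |x ^ 2| ≤ M ^ 2 := by
    rw [abs_pow]; exact pow_le_pow_left₀ (abs_nonneg _) hx 2
  have e1 : |c₁ * x| ≤ |c₁| * M := by
    rw [abs_mul]; exact mul_le_mul_of_nonneg_left hx h1
  have e2 : |c₂ * x ^ 2| ≤ |c₂| * M ^ 2 := by
    rw [abs_mul]; exact mul_le_mul_of_nonneg_left hx2 h2
  have e3 : |2 * c₂ * x| ≤ 2 * |c₂| * M := by
    rw [abs_mul, abs_mul, abs_two]; exact mul_le_mul_of_nonneg_left hx (by positivity)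
  match k with
  | 0 =>
    rw [iteratedDeriv_zero]
    calc |c₀ + c₁ * x + c₂ * x ^ 2| ≤ |c₀| + |c₁ * x| + |c₂ * x ^ 2| := abs_add_three _ _ _
      _ ≤ |c₀| + |c₁| * M + |c₂| * M ^ 2 := by linarith
      _ ≤ _ := by nlinarith
  | 1 =>
    rw [iteratedDeriv_succ', poly_deriv, iteratedDeriv_zero]
    calc |c₁ + 2 * c₂ * x + 0 * x ^ 2| = |c₁ + 2 * c₂ * x| := by ring_nf
      _ ≤ |c₁| + |2 * c₂ * x| := abs_add_le _ _
      _ ≤ |c₁| + 2 * |c₂| * M := by linarith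
      _ ≤ _ := by nlinarith
  | 2 =>
    rw [iteratedDeriv_succ', poly_deriv, iteratedDeriv_succ', poly_deriv, iteratedDeriv_zero]
    calc |2 * c₂ + 2 * 0 * x + 0 * x ^ 2| = 2 * |c₂| := by
          rw [show 2 * c₂ + 2 * 0 * x + 0 * x ^ 2 = 2 * c₂ by ring, abs_mul, abs_two]
      _ ≤ _ := by nlinarith
  | k + 3 =>
    rw [iteratedDeriv_succ', poly_deriv, iteratedDeriv_succ', poly_deriv, iteratedDeriv_succ',
      poly_deriv]
    have : (fun x : ℝ => 2 * (0 : ℝ) + 2 * 0 * x + 0 * x ^ 2) = fun _ => (0 : ℝ) := by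
      funext y; ring
    rw [this, iteratedDeriv_fun_const_zero, abs_zero]
    nlinarith

theorem iteratedDeriv_eq_zero_of_eventually {f : ℝ → ℝ} {x : ℝ} (h : f =ᶠ[nhds x] fun _ => 0)
    (m : ℕ) : iteratedDeriv m f x = 0 := by
  rw [h.iteratedDeriv_eq m, iteratedDeriv_fun_const_zero]

/-! ### A computable monotone majorant of the bound sequence -/

/-- Running sum `B 0 + … + B m`. -/
def sumB (B : ℕ → ℕ) (m : ℕ) : ℕ := Nat.rec (B 0) (fun y IH => IH + B (y + 1)) m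

theorem sumB_zero (B : ℕ → ℕ) : sumB B 0 = B 0 := rfl

theorem sumB_succ (B : ℕ → ℕ) (m : ℕ) : sumB B (m + 1) = sumB B m + B (m + 1) := rfl

theorem le_sumB (B : ℕ → ℕ) {i m : ℕ} (h : i ≤ m) : B i ≤ sumB B m := by
  induction m with
  | zero =>
    have : i = 0 := Nat.le_zero.mp h
    subst this; exact le_of_eq (sumB_zero B).symm
  | succ m ih =>
    rcases Nat.of_le_succ h with h' | h'
    · rw [sumB_succ]; exact le_trans (ih h') (Nat.le_add_right _ _)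
    · subst h'; rw [sumB_succ]; exact Nat.le_add_left _ _

theorem computable_sumB {B : ℕ → ℕ} (hB : Computable B) : Computable (sumB B) := by
  have h : Computable₂ (fun (_ : ℕ) (p : ℕ × ℕ) => p.2 + B (p.1 + 1)) :=
    Primrec.nat_add.to_comp.comp (Computable.snd.comp Computable.snd)
      (hB.comp (Computable.succ.comp (Computable.fst.comp Computable.snd)))
  exact Computable.nat_rec Computable.id (Computable.const (B 0)) h

theorem computable_nat_pow : Computable₂ (fun a b : ℕ => a ^ b) :=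
  (Primrec₂.unpaired'.1 Nat.Primrec.pow).to_comp

/-- The bound: `2^m * (2^m * ((A^m * S m) * (A^m * S m)) * K)` with `S = sumB B`. -/
def bdNat (B : ℕ → ℕ) (An K : ℕ) (m : ℕ) : ℕ :=
  2 ^ m * (2 ^ m * ((An ^ m * sumB B m) * (An ^ m * sumB B m)) * K)

theorem computable_bdNat {B : ℕ → ℕ} (hB : Computable B) (An K : ℕ) :
    Computable (bdNat B An K) := by
  have hmul : Computable₂ (fun a b : ℕ => a * b) := Primrec.nat_mul.to_comp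
  have h2 : Computable (fun m : ℕ => 2 ^ m) :=
    computable_nat_pow.comp (Computable.const 2) Computable.id
  have hA : Computable (fun m : ℕ => An ^ m * sumB B m) :=
    hmul.comp (computable_nat_pow.comp (Computable.const An) Computable.id) (computable_sumB hB)
  exact hmul.comp h2 (hmul.comp (hmul.comp h2 (hmul.comp hA hA)) (Computable.const K))

/-! ### Bounds for the derivatives of `base` -/

theorem abs_iteratedDeriv_stp_affine_le {B : ℕ → ℕ}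
    (hB : ∀ (m : ℕ) (x : ℝ), |iteratedDeriv m stp x| ≤ (B m : ℝ)) (a b : ℝ) (An : ℕ)
    (hA : |a| ≤ (An : ℝ)) (hA1 : 1 ≤ An) {i m : ℕ} (him : i ≤ m) (x : ℝ) :
    |iteratedDeriv i (fun x : ℝ => stp (a * x + b)) x| ≤ (An : ℝ) ^ m * (sumB B m : ℝ) := by
  rw [iteratedDeriv_comp_affine stp_contDiff, abs_mul, abs_pow]
  have h1 : |a| ^ i ≤ (An : ℝ) ^ m :=
    le_trans (pow_le_pow_left₀ (abs_nonneg _) hA i)
      (pow_le_pow_right₀ (by exact_mod_cast hA1) him)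
  have h2 : |iteratedDeriv i stp (a * x + b)| ≤ (sumB B m : ℝ) :=
    le_trans (hB i _) (by exact_mod_cast le_sumB B him)
  exact mul_le_mul h1 h2 (abs_nonneg _) (by positivity)

theorem abs_iteratedDeriv_base_le {B : ℕ → ℕ}
    (hB : ∀ (m : ℕ) (x : ℝ), |iteratedDeriv m stp x| ≤ (B m : ℝ))
    (a₁ b₁ a₂ b₂ c₀ c₁ c₂ : ℚ) (An K : ℕ) (hA1 : |(a₁ : ℝ)| ≤ (An : ℝ))
    (hA2 : |(a₂ : ℝ)| ≤ (An : ℝ)) (hAn : 1 ≤ An) (m : ℕ) (x : ℝ)
    (hK : ∀ j, |iteratedDeriv j (fun x : ℝ => (c₀ : ℝ) + (c₁ : ℝ) * x + (c₂ : ℝ) * x ^ 2) x| ≤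
      (K : ℝ)) :
    |iteratedDeriv m (base a₁ b₁ a₂ b₂ c₀ c₁ c₂) x| ≤ (bdNat B An K m : ℝ) := by
  have h12 : ∀ i ≤ m, |iteratedDeriv i
      (fun x : ℝ => stp ((a₁ : ℝ) * x + (b₁ : ℝ)) * stp ((a₂ : ℝ) * x + (b₂ : ℝ))) x| ≤
      2 ^ m * (((An : ℝ) ^ m * (sumB B m : ℝ)) * ((An : ℝ) ^ m * (sumB B m : ℝ))) := by
    intro i hi
    have h := abs_iteratedDeriv_mul_le (stp_affine_contDiff a₁ b₁) (stp_affine_contDiff a₂ b₂)
      i x ((An : ℝ) ^ m * (sumB B m : ℝ)) ((An : ℝ) ^ m * (sumB B m : ℝ))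
      (fun j hj => abs_iteratedDeriv_stp_affine_le hB _ _ An hA1 hAn (le_trans hj hi) x)
      (fun j hj => abs_iteratedDeriv_stp_affine_le hB _ _ An hA2 hAn (le_trans hj hi) x)
    refine le_trans h (mul_le_mul_of_nonneg_right ?_ (by positivity))
    exact pow_le_pow_right₀ (by norm_num) hi
  have h := abs_iteratedDeriv_mul_le
    ((stp_affine_contDiff a₁ b₁).mul (stp_affine_contDiff a₂ b₂)) (poly_contDiff c₀ c₁ c₂)
    m x _ (K : ℝ) h12 (fun j _ => hK j)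
  have e : (bdNat B An K m : ℝ) = 2 ^ m * (2 ^ m * (((An : ℝ) ^ m * (sumB B m : ℝ)) *
      ((An : ℝ) ^ m * (sumB B m : ℝ))) * (K : ℝ)) := by
    simp only [bdNat]; push_cast; ring
  rw [e]
  exact h

theorem base_eventually_zero_of_lt {a₁ b₁ a₂ b₂ c₀ c₁ c₂ : ℚ} (ha₁ : 0 < a₁) {x : ℝ}
    (hx : x < -(b₁ : ℝ) / (a₁ : ℝ)) :
    base a₁ b₁ a₂ b₂ c₀ c₁ c₂ =ᶠ[nhds x] fun _ => 0 := by
  have ha : (0 : ℝ) < (a₁ : ℝ) := by exact_mod_cast ha₁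
  filter_upwards [Iio_mem_nhds hx] with y hy
  have hy' : y < -(b₁ : ℝ) / (a₁ : ℝ) := hy
  have h1 : (a₁ : ℝ) * y + (b₁ : ℝ) ≤ 0 := by
    rw [lt_div_iff₀ ha] at hy'
    linarith
  simp [base, stp_of_nonpos h1]

theorem base_eventually_zero_of_gt {a₁ b₁ a₂ b₂ c₀ c₁ c₂ : ℚ} (ha₂ : a₂ < 0) {x : ℝ}
    (hx : -(b₂ : ℝ) / (a₂ : ℝ) < x) :
    base a₁ b₁ a₂ b₂ c₀ c₁ c₂ =ᶠ[nhds x] fun _ => 0 := by
  have ha : (a₂ : ℝ) < 0 := by exact_mod_cast ha₂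
  filter_upwards [Ioi_mem_nhds hx] with y hy
  have hy' : -(b₂ : ℝ) / (a₂ : ℝ) < y := hy
  have h1 : (a₂ : ℝ) * y + (b₂ : ℝ) ≤ 0 := by
    rw [div_lt_iff_of_neg ha] at hy'
    linarith
  simp [base, stp_of_nonpos h1]

/-- Computable bounds for all derivatives of `base`, from computable bounds for `stp`. -/
theorem exists_bound_base {B : ℕ → ℕ} (hBc : Computable B)
    (hB : ∀ (m : ℕ) (x : ℝ), |iteratedDeriv m stp x| ≤ (B m : ℝ))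
    (a₁ b₁ a₂ b₂ c₀ c₁ c₂ : ℚ) (h : (0 < a₁ ∧ a₂ < 0) ∨ (c₁ = 0 ∧ c₂ = 0)) :
    ∃ Bd : ℕ → ℕ, Computable Bd ∧
      ∀ (m : ℕ) (x : ℝ), |iteratedDeriv m (base a₁ b₁ a₂ b₂ c₀ c₁ c₂) x| ≤ (Bd m : ℝ) := by
  obtain ⟨An, hAn, hA1, hA2⟩ :
      ∃ An : ℕ, 1 ≤ An ∧ |(a₁ : ℝ)| ≤ (An : ℝ) ∧ |(a₂ : ℝ)| ≤ (An : ℝ) := by
    refine ⟨⌈|(a₁ : ℝ)|⌉₊ + ⌈|(a₂ : ℝ)|⌉₊ + 1, by omega, ?_, ?_⟩
    · have h1 := Nat.le_ceil |(a₁ : ℝ)|
      have h2 : (0 : ℝ) ≤ (⌈|(a₂ : ℝ)|⌉₊ : ℝ) := Nat.cast_nonneg _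
      push_cast; linarith
    · have h1 := Nat.le_ceil |(a₂ : ℝ)|
      have h2 : (0 : ℝ) ≤ (⌈|(a₁ : ℝ)|⌉₊ : ℝ) := Nat.cast_nonneg _
      push_cast; linarith
  rcases h with ⟨ha1, ha2⟩ | ⟨hc1, hc2⟩
  · -- compact support
    obtain ⟨M, hM⟩ : ∃ M : ℝ, M = max |-(b₁ : ℝ) / (a₁ : ℝ)| |-(b₂ : ℝ) / (a₂ : ℝ)| := ⟨_, rfl⟩
    refine ⟨bdNat B An ⌈|(c₀ : ℝ)| + |(c₁ : ℝ)| * (M + 1) + |(c₂ : ℝ)| * (M ^ 2 + 2 * M + 2)⌉₊,
      computable_bdNat hBc _ _, fun m x => ?_⟩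
    by_cases hx : |x| ≤ M
    · exact abs_iteratedDeriv_base_le hB a₁ b₁ a₂ b₂ c₀ c₁ c₂ An _ hA1 hA2 hAn m x
        (fun j => le_trans (abs_iteratedDeriv_poly_le _ _ _ M j x hx) (Nat.le_ceil _))
    · have hx' : M < |x| := not_le.mp hx
      have hz : base a₁ b₁ a₂ b₂ c₀ c₁ c₂ =ᶠ[nhds x] fun _ => 0 := by
        rcases lt_abs.mp hx' with hpos | hneg
        · refine base_eventually_zero_of_gt ha2 (lt_of_le_of_lt ?_ hpos)
          rw [hM]; exact le_trans (le_abs_self _) (le_max_right _ _)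
        · refine base_eventually_zero_of_lt ha1 ?_
          have h1 : |-(b₁ : ℝ) / (a₁ : ℝ)| ≤ M := by rw [hM]; exact le_max_left _ _
          have h2 := neg_abs_le (-(b₁ : ℝ) / (a₁ : ℝ))
          linarith
      rw [iteratedDeriv_eq_zero_of_eventually hz, abs_zero]
      exact Nat.cast_nonneg _
  · -- constant polynomial factor
    refine ⟨bdNat B An ⌈|(c₀ : ℝ)|⌉₊, computable_bdNat hBc _ _, fun m x => ?_⟩
    refine abs_iteratedDeriv_base_le hB a₁ b₁ a₂ b₂ c₀ c₁ c₂ An _ hA1 hA2 hAn m x (fun j => ?_)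
    have h := abs_iteratedDeriv_poly_le (c₀ : ℝ) (c₁ : ℝ) (c₂ : ℝ) |x| j x le_rfl
    have hb : |(c₀ : ℝ)| + |(c₁ : ℝ)| * (|x| + 1) + |(c₂ : ℝ)| * (|x| ^ 2 + 2 * |x| + 2) =
        |(c₀ : ℝ)| := by
      rw [hc1, hc2]; simp
    exact le_trans (h.trans_eq hb) (Nat.le_ceil _)

/-! ### Approximation of the values of `base` at rational points -/

/-- The polynomial factor at a rational point. -/
def polyQ (c₀ c₁ c₂ q : ℚ) : ℚ := c₀ + (c₁ * q + c₂ * (q * q))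

/-- Precision requested from the approximations of the two `stp` factors. -/
def precN (c₀ c₁ c₂ : ℚ) (p : ℚ × ℕ) : ℕ :=
  3 * (p.2 + 1) * (⌈|polyQ c₀ c₁ c₂ p.1|⌉₊ + 1)

/-- Approximation of `base` at rational points built from an approximation `A₀` of `stp`. -/
def approxBase (A₀ : ℚ × ℕ → ℚ) (a₁ b₁ a₂ b₂ c₀ c₁ c₂ : ℚ) (p : ℚ × ℕ) : ℚ :=
  A₀ (a₁ * p.1 + b₁, precN c₀ c₁ c₂ p) * A₀ (a₂ * p.1 + b₂, precN c₀ c₁ c₂ p) *
    polyQ c₀ c₁ c₂ p.1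

theorem computable_approxBase (hadd : Computable₂ (fun a b : ℚ => a + b))
    (hmul : Computable₂ (fun a b : ℚ => a * b)) (habs : Computable (fun a : ℚ => |a|))
    (hceil : Computable (fun a : ℚ => ⌈a⌉₊)) {A₀ : ℚ × ℕ → ℚ} (hA₀ : Computable A₀)
    (a₁ b₁ a₂ b₂ c₀ c₁ c₂ : ℚ) : Computable (approxBase A₀ a₁ b₁ a₂ b₂ c₀ c₁ c₂) := by
  have hq : Computable (fun p : ℚ × ℕ => p.1) := Computable.fst
  have hP : Computable (fun p : ℚ × ℕ => polyQ c₀ c₁ c₂ p.1) :=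
    hadd.comp (Computable.const c₀) (hadd.comp (hmul.comp (Computable.const c₁) hq)
      (hmul.comp (Computable.const c₂) (hmul.comp hq hq)))
  have hnm : Computable₂ (fun a b : ℕ => a * b) := Primrec.nat_mul.to_comp
  have hN : Computable (precN c₀ c₁ c₂) :=
    hnm.comp (hnm.comp (Computable.const 3) (Computable.succ.comp Computable.snd))
      (Computable.succ.comp (hceil.comp (habs.comp hP)))
  have h1 : Computable (fun p : ℚ × ℕ => A₀ (a₁ * p.1 + b₁, precN c₀ c₁ c₂ p)) :=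
    hA₀.comp (Computable.pair (hadd.comp (hmul.comp (Computable.const a₁) hq)
      (Computable.const b₁)) hN)
  have h2 : Computable (fun p : ℚ × ℕ => A₀ (a₂ * p.1 + b₂, precN c₀ c₁ c₂ p)) :=
    hA₀.comp (Computable.pair (hadd.comp (hmul.comp (Computable.const a₂) hq)
      (Computable.const b₂)) hN)
  exact hmul.comp (hmul.comp h1 h2) hP

theorem abs_base_sub_approxBase_le {A₀ : ℚ × ℕ → ℚ}
    (hA₀ : ∀ (q : ℚ) (n : ℕ), |stp (q : ℝ) - (A₀ (q, n) : ℝ)| ≤ 1 / ((n : ℝ) + 1))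
    (a₁ b₁ a₂ b₂ c₀ c₁ c₂ : ℚ) (q : ℚ) (n : ℕ) :
    |base a₁ b₁ a₂ b₂ c₀ c₁ c₂ (q : ℝ) - (approxBase A₀ a₁ b₁ a₂ b₂ c₀ c₁ c₂ (q, n) : ℝ)| ≤
      1 / ((n : ℝ) + 1) := by
  obtain ⟨N, hN⟩ : ∃ N : ℕ, N = precN c₀ c₁ c₂ (q, n) := ⟨_, rfl⟩
  obtain ⟨P, hP⟩ : ∃ P : ℝ, P = (c₀ : ℝ) + (c₁ : ℝ) * (q : ℝ) + (c₂ : ℝ) * (q : ℝ) ^ 2 :=
    ⟨_, rfl⟩
  have hPq : ((polyQ c₀ c₁ c₂ q : ℚ) : ℝ) = P := by
    rw [hP]; simp only [polyQ]; push_cast; ring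
  obtain ⟨s₁, hs₁⟩ : ∃ s : ℝ, s = stp ((a₁ : ℝ) * (q : ℝ) + (b₁ : ℝ)) := ⟨_, rfl⟩
  obtain ⟨s₂, hs₂⟩ : ∃ s : ℝ, s = stp ((a₂ : ℝ) * (q : ℝ) + (b₂ : ℝ)) := ⟨_, rfl⟩
  obtain ⟨S₁, hS₁⟩ : ∃ S : ℝ, S = ((A₀ (a₁ * q + b₁, N) : ℚ) : ℝ) := ⟨_, rfl⟩
  obtain ⟨S₂, hS₂⟩ : ∃ S : ℝ, S = ((A₀ (a₂ * q + b₂, N) : ℚ) : ℝ) := ⟨_, rfl⟩
  have hδ : (0 : ℝ) < (N : ℝ) + 1 := by positivity
  have hn : (0 : ℝ) < (n : ℝ) + 1 := by positivity
  have e1 : |s₁ - S₁| ≤ 1 / ((N : ℝ) + 1) := by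
    have h := hA₀ (a₁ * q + b₁) N
    rw [hs₁, hS₁]
    simpa using h
  have e2 : |s₂ - S₂| ≤ 1 / ((N : ℝ) + 1) := by
    have h := hA₀ (a₂ * q + b₂) N
    rw [hs₂, hS₂]
    simpa using h
  have hδ1 : 1 / ((N : ℝ) + 1) ≤ 1 := by
    rw [div_le_one hδ]; have : (0 : ℝ) ≤ (N : ℝ) := Nat.cast_nonneg _; linarith
  have hs₁0 : 0 ≤ s₁ := hs₁ ▸ stp_nonneg _
  have hs₁1 : s₁ ≤ 1 := hs₁ ▸ stp_le_one _
  have hs₂0 : 0 ≤ s₂ := hs₂ ▸ stp_nonneg _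
  have hs₂1 : s₂ ≤ 1 := hs₂ ▸ stp_le_one _
  have hS₂le : |S₂| ≤ 2 := by
    have h1 : |S₂| ≤ |s₂| + |s₂ - S₂| := by
      have := abs_sub_abs_le_abs_sub S₂ s₂
      rw [abs_sub_comm S₂ s₂] at this
      linarith
    have h2 : |s₂| ≤ 1 := by rw [abs_of_nonneg hs₂0]; exact hs₂1
    linarith
  have hprod : |s₁ * s₂ - S₁ * S₂| ≤ 3 * (1 / ((N : ℝ) + 1)) := by
    have h1 : s₁ * s₂ - S₁ * S₂ = s₁ * (s₂ - S₂) + (s₁ - S₁) * S₂ := by ring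
    rw [h1]
    have h2 : |s₁ * (s₂ - S₂)| ≤ 1 * (1 / ((N : ℝ) + 1)) := by
      rw [abs_mul]
      exact mul_le_mul (by rw [abs_of_nonneg hs₁0]; exact hs₁1) e2 (abs_nonneg _) zero_le_one
    have h3 : |(s₁ - S₁) * S₂| ≤ (1 / ((N : ℝ) + 1)) * 2 := by
      rw [abs_mul]
      exact mul_le_mul e1 hS₂le (abs_nonneg _) (by positivity)
    have := abs_add_le (s₁ * (s₂ - S₂)) ((s₁ - S₁) * S₂)
    linarith
  have hNP : 3 * |P| * ((n : ℝ) + 1) ≤ (N : ℝ) + 1 := by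
    have h1 : |P| ≤ ((⌈|polyQ c₀ c₁ c₂ q|⌉₊ : ℕ) : ℝ) := by
      have h := Nat.le_ceil |polyQ c₀ c₁ c₂ q|
      have h' : ((|polyQ c₀ c₁ c₂ q| : ℚ) : ℝ) ≤ (((⌈|polyQ c₀ c₁ c₂ q|⌉₊ : ℕ) : ℚ) : ℝ) :=
        Rat.cast_le.mpr h
      rw [Rat.cast_abs, hPq] at h'
      simpa using h'
    have h2 : (N : ℝ) = 3 * ((n : ℝ) + 1) * (((⌈|polyQ c₀ c₁ c₂ q|⌉₊ : ℕ) : ℝ) + 1) := by
      rw [hN]; simp only [precN]; push_cast; ring
    rw [h2]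
    have h3 := abs_nonneg P
    nlinarith
  have hbase : base a₁ b₁ a₂ b₂ c₀ c₁ c₂ (q : ℝ) = s₁ * s₂ * P := by
    rw [hs₁, hs₂, hP]; rfl
  have happ : ((approxBase A₀ a₁ b₁ a₂ b₂ c₀ c₁ c₂ (q, n) : ℚ) : ℝ) = S₁ * S₂ * P := by
    rw [hS₁, hS₂, ← hPq, hN]; simp only [approxBase]; push_cast; ring
  rw [hbase, happ, show s₁ * s₂ * P - S₁ * S₂ * P = (s₁ * s₂ - S₁ * S₂) * P by ring, abs_mul]
  calc |s₁ * s₂ - S₁ * S₂| * |P| ≤ 3 * (1 / ((N : ℝ) + 1)) * |P| :=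
        mul_le_mul_of_nonneg_right hprod (abs_nonneg _)
    _ = (3 * |P|) / ((N : ℝ) + 1) := by ring
    _ ≤ 1 / ((n : ℝ) + 1) := by
        rw [div_le_div_iff₀ hδ hn]
        linarith

/-! ### The main theorem, with the dependencies as hypotheses -/

/-- The statements of the modules M1–M4 of the S0170 interface that this module uses. -/
structure Deps : Prop where
  rat_add : Computable₂ (fun a b : ℚ => a + b)
  rat_mul : Computable₂ (fun a b : ℚ => a * b)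
  rat_abs : Computable (fun a : ℚ => |a|)
  rat_natCeil : Computable (fun a : ℚ => ⌈a⌉₊)
  stp_approx : ∃ A₀ : ℚ × ℕ → ℚ, Computable A₀ ∧
    ∀ (q : ℚ) (n : ℕ), |stp (q : ℝ) - (A₀ (q, n) : ℝ)| ≤ 1 / ((n : ℝ) + 1)
  stp_bound : ∃ B : ℕ → ℕ, Computable B ∧
    ∀ (m : ℕ) (x : ℝ), |iteratedDeriv m stp x| ≤ (B m : ℝ)
  eff1_of_approx_of_bound : ∀ {f : ℝ → ℝ} (_ : ContDiff ℝ ∞ f)
    (A₀ : ℚ × ℕ → ℚ) (_ : Computable A₀)
    (_ : ∀ (q : ℚ) (n : ℕ), |f (q : ℝ) - (A₀ (q, n) : ℝ)| ≤ 1 / ((n : ℝ) + 1))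
    (B : ℕ → ℕ) (_ : Computable B)
    (_ : ∀ (m : ℕ) (x : ℝ), |iteratedDeriv m f x| ≤ (B m : ℝ)), Eff1 f

/-- `eff1_base` of the interface, relative to the dependencies `Deps`. -/
theorem eff1_base_of (D : Deps) (a₁ b₁ a₂ b₂ c₀ c₁ c₂ : ℚ)
    (h : (0 < a₁ ∧ a₂ < 0) ∨ (c₁ = 0 ∧ c₂ = 0)) :
    Eff1 (base a₁ b₁ a₂ b₂ c₀ c₁ c₂) := by
  obtain ⟨A₀, hA₀c, hA₀⟩ := D.stp_approx
  obtain ⟨B, hBc, hB⟩ := D.stp_bound
  obtain ⟨Bd, hBdc, hBd⟩ := exists_bound_base hBc hB a₁ b₁ a₂ b₂ c₀ c₁ c₂ h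
  exact D.eff1_of_approx_of_bound (base_contDiff a₁ b₁ a₂ b₂ c₀ c₁ c₂)
    (approxBase A₀ a₁ b₁ a₂ b₂ c₀ c₁ c₂)
    (computable_approxBase D.rat_add D.rat_mul D.rat_abs D.rat_natCeil hA₀c a₁ b₁ a₂ b₂ c₀ c₁ c₂)
    (abs_base_sub_approxBase_le hA₀ a₁ b₁ a₂ b₂ c₀ c₁ c₂) Bd hBdc hBd

end Crest.Agent.S0170.Helper87
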