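import Crest.Agent.Lib.S0170.Defs

/-!
# S0170, module M4 `FinDiff`: iterated finite differences (helper94)

Value approximations at rational points together with computable bounds for all derivatives
give computable approximations of all derivatives (`Eff1`).

* `Helper94.eff1_deriv` has exactly the type of the interface statement `eff1_deriv`.
* `Helper94.eff1_of_approx_of_bound_core` is the interface statement
  `eff1_of_approx_of_bound` with the six facts of module M1 (`computable_rat_add`, `_mul`,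
  `_div`, `_pow`, `_natCast`, `computable_rat_sum_range` at `α = ℕ × ℚ × ℕ`) as explicit
  hypotheses, so that this file only imports `Defs`.

Construction: `A (m, q, n) = H ^ m * ∑ k ≤ m, (-1) ^ (m + k) * choose m k * A₀ (q + k / H, N)`
with `H = 2 (n + 1) m B (m + 1) + 1` and `N = 2 (n + 1) 2 ^ m H ^ m`: the `m`-th forward
difference quotient with step `1 / H` equals `f⁽ᵐ⁾ ξ` for some `ξ ∈ [q, q + m / H]`.
-/

set_option autoImplicit false

namespace Crest.Agent.S0170.Helper94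

open scoped ContDiff

/-- iterated forward difference with step `h` -/
noncomputable def fd (h : ℝ) : ℕ → (ℝ → ℝ) → ℝ → ℝ
  | 0, g => g
  | m + 1, g => fd h m (fun y => g (y + h) - g y)

theorem fd_zero (h : ℝ) (g : ℝ → ℝ) : fd h 0 g = g := rfl

theorem fd_succ (h : ℝ) (m : ℕ) (g : ℝ → ℝ) :
    fd h (m + 1) g = fd h m (fun y => g (y + h) - g y) := rfl

/-- closed form of the iterated difference -/
theorem fd_eq_sum (h : ℝ) (m : ℕ) (g : ℝ → ℝ) (x : ℝ) :
    fd h m g x =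
      ∑ k ∈ Finset.range (m + 1), (-1 : ℝ) ^ (m + k) * (Nat.choose m k : ℝ) * g (x + k * h) := by
  induction m generalizing g with
  | zero => simp [fd]
  | succ m ih =>
    rw [fd_succ, ih]
    -- right-hand side: split off `k = 0`, use Pascal
    have e1 : ∑ k ∈ Finset.range (m + 1 + 1),
        (-1 : ℝ) ^ (m + 1 + k) * (Nat.choose (m + 1) k : ℝ) * g (x + k * h)
        = ∑ k ∈ Finset.range (m + 1),
            (-1 : ℝ) ^ (m + k) * (Nat.choose m k : ℝ) * g (x + k * h + h)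
          + (∑ k ∈ Finset.range (m + 1),
              (-1 : ℝ) ^ (m + k) * (Nat.choose m (k + 1) : ℝ) * g (x + ((k + 1 : ℕ) : ℝ) * h)
            + (-1 : ℝ) ^ (m + 1) * g x) := by
      rw [Finset.sum_range_succ', ← add_assoc, ← Finset.sum_add_distrib]
      congr 1
      · refine Finset.sum_congr rfl fun k _ => ?_
        have h1 : (-1 : ℝ) ^ (m + 1 + (k + 1)) = (-1 : ℝ) ^ (m + k) := by
          rw [show m + 1 + (k + 1) = m + k + 2 by ring, pow_add]; simp
        have h2 : x + ((k + 1 : ℕ) : ℝ) * h = x + k * h + h := by push_cast; ring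
        rw [Nat.choose_succ_succ', h1, h2]
        push_cast
        ring
      · simp
    have e2 : ∑ k ∈ Finset.range (m + 1),
              (-1 : ℝ) ^ (m + k) * (Nat.choose m (k + 1) : ℝ) * g (x + ((k + 1 : ℕ) : ℝ) * h)
            + (-1 : ℝ) ^ (m + 1) * g x
        = - ∑ k ∈ Finset.range (m + 1),
            (-1 : ℝ) ^ (m + k) * (Nat.choose m k : ℝ) * g (x + k * h) := by
      have e3 : ∑ k ∈ Finset.range (m + 1 + 1),
            (-1 : ℝ) ^ (m + k) * (Nat.choose m k : ℝ) * g (x + k * h)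
          = ∑ k ∈ Finset.range (m + 1),
            (-1 : ℝ) ^ (m + k) * (Nat.choose m k : ℝ) * g (x + k * h) := by
        rw [Finset.sum_range_succ]; simp
      have e4 := Finset.sum_range_succ'
        (fun k : ℕ => (-1 : ℝ) ^ (m + k) * (Nat.choose m k : ℝ) * g (x + k * h)) (m + 1)
      rw [e3] at e4
      have e5 : ∑ k ∈ Finset.range (m + 1), (-1 : ℝ) ^ (m + (k + 1)) *
            (Nat.choose m (k + 1) : ℝ) * g (x + ((k + 1 : ℕ) : ℝ) * h)
          = - ∑ k ∈ Finset.range (m + 1), (-1 : ℝ) ^ (m + k) *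
            (Nat.choose m (k + 1) : ℝ) * g (x + ((k + 1 : ℕ) : ℝ) * h) := by
        rw [← Finset.sum_neg_distrib]
        refine Finset.sum_congr rfl fun k _ => ?_
        rw [← add_assoc, pow_succ]; ring
      have e6 : (-1 : ℝ) ^ (m + 0) * (Nat.choose m 0 : ℝ) * g (x + ((0 : ℕ) : ℝ) * h)
          = (-1 : ℝ) ^ m * g x := by simp
      rw [e5, e6] at e4
      rw [pow_succ]
      linarith
    rw [e1, e2]
    simp only [mul_sub, Finset.sum_sub_distrib]
    ring

theorem contDiff_shift_sub {g : ℝ → ℝ} (hg : ContDiff ℝ ∞ g) (h : ℝ) :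
    ContDiff ℝ ∞ (fun y => g (y + h) - g y) :=
  (hg.comp (contDiff_id.add contDiff_const)).sub hg

theorem iteratedDeriv_shift_sub {g : ℝ → ℝ} (hg : ContDiff ℝ ∞ g) (h : ℝ) (m : ℕ) (x : ℝ) :
    iteratedDeriv m (fun y => g (y + h) - g y) x
      = iteratedDeriv m g (x + h) - iteratedDeriv m g x := by
  have h1 : ContDiff ℝ ∞ (fun y => g (y + h)) := hg.comp (contDiff_id.add contDiff_const)
  have h2 := iteratedDeriv_sub (n := m) (x := x) (f := fun y => g (y + h)) (g := g)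
    (h1.contDiffAt.of_le (by exact_mod_cast le_top)) (hg.contDiffAt.of_le (by exact_mod_cast le_top))
  have h3 : (fun y => g (y + h) - g y) = (fun y => g (y + h)) - g := rfl
  rw [h3, h2, iteratedDeriv_comp_add_const]

/-- mean value form of the iterated difference -/
theorem fd_exists (h : ℝ) (hh : 0 < h) (m : ℕ) :
    ∀ g : ℝ → ℝ, ContDiff ℝ ∞ g → ∀ x : ℝ,
      ∃ ξ ∈ Set.Icc x (x + m * h), fd h m g x = h ^ m * iteratedDeriv m g ξ := by
  induction m with
  | zero =>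
    intro g _ x
    exact ⟨x, by simp, by simp [fd]⟩
  | succ m ih =>
    intro g hg x
    obtain ⟨ξ₁, hξ₁, h1⟩ := ih _ (contDiff_shift_sub hg h) x
    rw [iteratedDeriv_shift_sub hg] at h1
    have hd : Differentiable ℝ (iteratedDeriv m g) :=
      hg.differentiable_iteratedDeriv m (by exact_mod_cast WithTop.coe_lt_top _)
    obtain ⟨ξ₂, hξ₂, h2⟩ := exists_deriv_eq_slope (iteratedDeriv m g)
      (show ξ₁ < ξ₁ + h by linarith) hd.continuous.continuousOn hd.differentiableOn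
    refine ⟨ξ₂, ⟨by linarith [hξ₁.1, hξ₂.1], ?_⟩, ?_⟩
    · have := hξ₁.2
      have := hξ₂.2
      push_cast
      linarith
    · have h3 : ξ₁ + h - ξ₁ = h := by ring
      rw [fd_succ, h1, iteratedDeriv_succ, h2, h3, pow_succ]
      field_simp

/-- the error of the difference quotient -/
theorem fd_err {g : ℝ → ℝ} (hg : ContDiff ℝ ∞ g) (m : ℕ) (C : ℝ)
    (hC : ∀ x, |iteratedDeriv (m + 1) g x| ≤ C) (h : ℝ) (hh : 0 < h) (x : ℝ) :
    |iteratedDeriv m g x - (1 / h) ^ m * fd h m g x| ≤ m * h * C := by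
  obtain ⟨ξ, hξ, h1⟩ := fd_exists h hh m g hg x
  have hd : Differentiable ℝ (iteratedDeriv m g) :=
    hg.differentiable_iteratedDeriv m (by exact_mod_cast WithTop.coe_lt_top _)
  have h2 : (1 / h) ^ m * fd h m g x = iteratedDeriv m g ξ := by
    rw [h1, ← mul_assoc, ← mul_pow]
    have : 1 / h * h = 1 := by field_simp
    rw [this]; simp
  have h3 := Convex.norm_image_sub_le_of_norm_deriv_le (f := iteratedDeriv m g) (C := C)
    (s := Set.univ) (x := ξ) (y := x) (fun y _ => hd y)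
    (fun y _ => by rw [← iteratedDeriv_succ, Real.norm_eq_abs]; exact hC y) convex_univ
    (Set.mem_univ _) (Set.mem_univ _)
  rw [Real.norm_eq_abs, Real.norm_eq_abs] at h3
  rw [h2]
  have hC0 : 0 ≤ C := le_trans (abs_nonneg _) (hC x)
  have h4 : |x - ξ| ≤ m * h := by
    rw [abs_le]; constructor <;> linarith [hξ.1, hξ.2, mul_nonneg (Nat.cast_nonneg (α := ℝ) m) hh.le]
  calc |iteratedDeriv m g x - iteratedDeriv m g ξ| ≤ C * |x - ξ| := h3
    _ ≤ C * (m * h) := mul_le_mul_of_nonneg_left h4 hC0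
    _ = m * h * C := by ring

/-! ### The approximating function -/

/-- denominator of the step: `h = 1 / Hf` -/
def Hf (B : ℕ → ℕ) (p : ℕ × ℚ × ℕ) : ℕ := 2 * (p.2.2 + 1) * p.1 * B (p.1 + 1) + 1

/-- precision requested from the value approximation -/
def Nf (B : ℕ → ℕ) (p : ℕ × ℚ × ℕ) : ℕ := 2 * (p.2.2 + 1) * 2 ^ p.1 * Hf B p ^ p.1

/-- one term of the difference quotient -/
def term (A₀ : ℚ × ℕ → ℚ) (B : ℕ → ℕ) (p : ℕ × ℚ × ℕ) (k : ℕ) : ℚ :=
  (-1 : ℚ) ^ (p.1 + k) * (Nat.choose p.1 k : ℚ) * A₀ (p.2.1 + (k : ℚ) / (Hf B p : ℚ), Nf B p)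

/-- the approximation of the `m`-th derivative at `q` with precision `1/(n+1)`, `p = (m, q, n)` -/
def Af (A₀ : ℚ × ℕ → ℚ) (B : ℕ → ℕ) (p : ℕ × ℚ × ℕ) : ℚ :=
  (Hf B p : ℚ) ^ p.1 * ∑ k ∈ Finset.range (p.1 + 1), term A₀ B p k

theorem Af_spec {f : ℝ → ℝ} (hf : ContDiff ℝ ∞ f) (A₀ : ℚ × ℕ → ℚ)
    (hA' : ∀ (q : ℚ) (n : ℕ), |f (q : ℝ) - (A₀ (q, n) : ℝ)| ≤ 1 / ((n : ℝ) + 1))
    (B : ℕ → ℕ) (hB' : ∀ (m : ℕ) (x : ℝ), |iteratedDeriv m f x| ≤ (B m : ℝ))
    (m : ℕ) (q : ℚ) (n : ℕ) :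
    |iteratedDeriv m f (q : ℝ) - (Af A₀ B (m, q, n) : ℝ)| ≤ 1 / ((n : ℝ) + 1) := by
  set H : ℕ := Hf B (m, q, n) with hH
  set N : ℕ := Nf B (m, q, n) with hN
  have hHdef : (H : ℝ) = 2 * ((n : ℝ) + 1) * m * B (m + 1) + 1 := by
    rw [hH]; simp [Hf]
  have hNdef : (N : ℝ) = 2 * ((n : ℝ) + 1) * 2 ^ m * (H : ℝ) ^ m := by
    rw [hN]; simp [Nf, hH]
  have hHpos : (0 : ℝ) < H := by rw [hHdef]; positivity
  set h : ℝ := 1 / (H : ℝ) with hh
  have hhpos : 0 < h := by positivity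
  have e1 := fd_err hf m (B (m + 1)) (hB' (m + 1)) h hhpos q
  have hinv : (1 / h) = (H : ℝ) := by rw [hh]; field_simp
  rw [hinv, fd_eq_sum] at e1
  have e2 : (Af A₀ B (m, q, n) : ℝ) = (H : ℝ) ^ m * ∑ k ∈ Finset.range (m + 1),
      (-1 : ℝ) ^ (m + k) * (Nat.choose m k : ℝ) * (A₀ (q + (k : ℚ) / (H : ℚ), N) : ℝ) := by
    simp only [Af, term]
    push_cast
    rfl
  have e3 : |(H : ℝ) ^ m * ∑ k ∈ Finset.range (m + 1),
        (-1 : ℝ) ^ (m + k) * (Nat.choose m k : ℝ) * f (q + k * h) - (Af A₀ B (m, q, n) : ℝ)|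
      ≤ (H : ℝ) ^ m * (2 ^ m / ((N : ℝ) + 1)) := by
    rw [e2, ← mul_sub, ← Finset.sum_sub_distrib, abs_mul, abs_of_nonneg (by positivity)]
    refine mul_le_mul_of_nonneg_left ?_ (by positivity)
    calc |∑ k ∈ Finset.range (m + 1), ((-1 : ℝ) ^ (m + k) * (Nat.choose m k : ℝ) * f (q + k * h)
            - (-1 : ℝ) ^ (m + k) * (Nat.choose m k : ℝ) * (A₀ (q + (k : ℚ) / (H : ℚ), N) : ℝ))|
        ≤ ∑ k ∈ Finset.range (m + 1), |(-1 : ℝ) ^ (m + k) * (Nat.choose m k : ℝ) * f (q + k * h)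
            - (-1 : ℝ) ^ (m + k) * (Nat.choose m k : ℝ) * (A₀ (q + (k : ℚ) / (H : ℚ), N) : ℝ)| :=
          Finset.abs_sum_le_sum_abs _ _
      _ ≤ ∑ k ∈ Finset.range (m + 1), (Nat.choose m k : ℝ) * (1 / ((N : ℝ) + 1)) := by
          refine Finset.sum_le_sum fun k _ => ?_
          rw [← mul_sub, abs_mul, abs_mul, abs_pow, abs_neg, abs_one, one_pow, one_mul,
            abs_of_nonneg (Nat.cast_nonneg _)]
          refine mul_le_mul_of_nonneg_left ?_ (Nat.cast_nonneg _)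
          have h5 := hA' (q + (k : ℚ) / (H : ℚ)) N
          have h6 : (((q + (k : ℚ) / (H : ℚ) : ℚ)) : ℝ) = (q : ℝ) + k * h := by
            rw [hh]; push_cast; ring
          rw [h6] at h5
          exact h5
      _ = 2 ^ m / ((N : ℝ) + 1) := by
          rw [← Finset.sum_mul, ← Nat.cast_sum, Nat.sum_range_choose]; push_cast; ring
  -- the two error terms are at most `1 / (2 (n + 1))` each
  have hn1 : (0 : ℝ) < (n : ℝ) + 1 := by positivity
  have hB0 : (0 : ℝ) ≤ B (m + 1) := Nat.cast_nonneg _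
  have b1 : (m : ℝ) * h * B (m + 1) ≤ 1 / (2 * ((n : ℝ) + 1)) := by
    rw [hh, le_div_iff₀ (by positivity)]
    have : (m : ℝ) * (1 / (H : ℝ)) * B (m + 1) * (2 * ((n : ℝ) + 1))
        = (2 * ((n : ℝ) + 1) * m * B (m + 1)) / H := by field_simp
    rw [this, div_le_one hHpos, hHdef]
    linarith
  have b2 : (H : ℝ) ^ m * (2 ^ m / ((N : ℝ) + 1)) ≤ 1 / (2 * ((n : ℝ) + 1)) := by
    have hN0 : (0 : ℝ) ≤ N := Nat.cast_nonneg _
    rw [le_div_iff₀ (by positivity)]
    have : (H : ℝ) ^ m * (2 ^ m / ((N : ℝ) + 1)) * (2 * ((n : ℝ) + 1)) = (N : ℝ) / ((N : ℝ) + 1) := by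
      rw [hNdef]; field_simp
    rw [this, div_le_one (by positivity)]
    linarith
  have e4 : iteratedDeriv m f (q : ℝ) - (Af A₀ B (m, q, n) : ℝ)
      = (iteratedDeriv m f (q : ℝ) - (H : ℝ) ^ m * ∑ k ∈ Finset.range (m + 1),
          (-1 : ℝ) ^ (m + k) * (Nat.choose m k : ℝ) * f (q + k * h))
        + ((H : ℝ) ^ m * ∑ k ∈ Finset.range (m + 1),
          (-1 : ℝ) ^ (m + k) * (Nat.choose m k : ℝ) * f (q + k * h) - (Af A₀ B (m, q, n) : ℝ)) := by
    ring
  rw [e4]
  have hsum : 1 / (2 * ((n : ℝ) + 1)) + 1 / (2 * ((n : ℝ) + 1)) = 1 / ((n : ℝ) + 1) := by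
    field_simp; ring
  calc _ ≤ _ := abs_add_le _ _
    _ ≤ 1 / (2 * ((n : ℝ) + 1)) + 1 / (2 * ((n : ℝ) + 1)) :=
        add_le_add (e1.trans b1) (e3.trans b2)
    _ = 1 / ((n : ℝ) + 1) := hsum

/-! ### Computability -/

theorem primrec_pow : Primrec₂ (fun a b : ℕ => a ^ b) := Primrec₂.unpaired'.1 Nat.Primrec.pow

theorem primrec_factorial : Primrec Nat.factorial :=
  (Primrec.nat_rec₁ (1 : ℕ)
    (Primrec.nat_mul.comp₂ (Primrec.succ.comp₂ Primrec₂.left) Primrec₂.right)).of_eq fun n => by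
      induction n with
      | zero => rfl
      | succ n ih => simp [Nat.factorial_succ, ← ih]

theorem primrec_choose : Primrec₂ Nat.choose := by
  have h : Primrec (fun p : ℕ × ℕ =>
      if p.2 ≤ p.1 then p.1.factorial / (p.2.factorial * (p.1 - p.2).factorial) else 0) :=
    Primrec.ite (Primrec.nat_le.comp Primrec.snd Primrec.fst)
      (Primrec.nat_div.comp (primrec_factorial.comp Primrec.fst)
        (Primrec.nat_mul.comp (primrec_factorial.comp Primrec.snd)
          (primrec_factorial.comp (Primrec.nat_sub.comp Primrec.fst Primrec.snd))))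
      (Primrec.const 0)
  refine Primrec₂.mk (h.of_eq fun p => ?_)
  split_ifs with hk
  · exact (Nat.choose_eq_factorial_div_factorial hk).symm
  · exact (Nat.choose_eq_zero_of_lt (not_le.1 hk)).symm

theorem computable_Hf {B : ℕ → ℕ} (hB : Computable B) : Computable (Hf B) := by
  have h1 : Computable (fun p : ℕ × ℚ × ℕ => p.1) := Computable.fst
  have h2 : Computable (fun p : ℕ × ℚ × ℕ => p.2.2) := Computable.snd.comp Computable.snd
  have hmul : Computable₂ (fun a b : ℕ => a * b) := Primrec.nat_mul.to_comp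
  have hadd : Computable₂ (fun a b : ℕ => a + b) := Primrec.nat_add.to_comp
  exact (hadd.comp (hmul.comp (hmul.comp (hmul.comp (Computable.const 2) (Computable.succ.comp h2))
    h1) (hB.comp (Computable.succ.comp h1))) (Computable.const 1)).of_eq fun p => rfl

theorem computable_Nf {B : ℕ → ℕ} (hB : Computable B) : Computable (Nf B) := by
  have h1 : Computable (fun p : ℕ × ℚ × ℕ => p.1) := Computable.fst
  have h2 : Computable (fun p : ℕ × ℚ × ℕ => p.2.2) := Computable.snd.comp Computable.snd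
  have hmul : Computable₂ (fun a b : ℕ => a * b) := Primrec.nat_mul.to_comp
  have hpow : Computable₂ (fun a b : ℕ => a ^ b) := primrec_pow.to_comp
  exact (hmul.comp (hmul.comp (hmul.comp (Computable.const 2) (Computable.succ.comp h2))
    (hpow.comp (Computable.const 2) h1)) (hpow.comp (computable_Hf hB) h1)).of_eq fun p => rfl

section M1

variable (hadd : Computable₂ (fun a b : ℚ => a + b)) (hmul : Computable₂ (fun a b : ℚ => a * b))
  (hdiv : Computable₂ (fun a b : ℚ => a / b)) (hpow : Computable₂ (fun (a : ℚ) (k : ℕ) => a ^ k))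
  (hcast : Computable (fun k : ℕ => (k : ℚ)))
  (hsum : ∀ {f : ℕ × ℚ × ℕ → ℕ → ℚ} {k : ℕ × ℚ × ℕ → ℕ}, Computable₂ f → Computable k →
    Computable (fun a => ∑ i ∈ Finset.range (k a), f a i))

include hadd hmul hdiv hpow hcast in
theorem computable_term {A₀ : ℚ × ℕ → ℚ} {B : ℕ → ℕ} (hA : Computable A₀) (hB : Computable B) :
    Computable₂ (term A₀ B) := by
  have hp1 : Computable (fun q : (ℕ × ℚ × ℕ) × ℕ => q.1.1) := Computable.fst.comp Computable.fst
  have hq : Computable (fun q : (ℕ × ℚ × ℕ) × ℕ => q.1.2.1) :=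
    Computable.fst.comp (Computable.snd.comp Computable.fst)
  have hk : Computable (fun q : (ℕ × ℚ × ℕ) × ℕ => q.2) := Computable.snd
  have hH : Computable (fun q : (ℕ × ℚ × ℕ) × ℕ => Hf B q.1) := (computable_Hf hB).comp Computable.fst
  have hN : Computable (fun q : (ℕ × ℚ × ℕ) × ℕ => Nf B q.1) := (computable_Nf hB).comp Computable.fst
  have hsign : Computable (fun q : (ℕ × ℚ × ℕ) × ℕ => (-1 : ℚ) ^ (q.1.1 + q.2)) :=
    hpow.comp (Computable.const (-1)) (Primrec.nat_add.to_comp.comp hp1 hk)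
  have hch : Computable (fun q : (ℕ × ℚ × ℕ) × ℕ => (Nat.choose q.1.1 q.2 : ℚ)) :=
    hcast.comp (primrec_choose.to_comp.comp hp1 hk)
  have harg : Computable (fun q : (ℕ × ℚ × ℕ) × ℕ => q.1.2.1 + (q.2 : ℚ) / (Hf B q.1 : ℚ)) :=
    hadd.comp hq (hdiv.comp (hcast.comp hk) (hcast.comp hH))
  have hA0 : Computable (fun q : (ℕ × ℚ × ℕ) × ℕ =>
      A₀ (q.1.2.1 + (q.2 : ℚ) / (Hf B q.1 : ℚ), Nf B q.1)) := hA.comp (harg.pair hN)
  exact (hmul.comp (hmul.comp hsign hch) hA0).of_eq fun q => rfl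

include hadd hmul hdiv hpow hcast hsum in
theorem computable_Af {A₀ : ℚ × ℕ → ℚ} {B : ℕ → ℕ} (hA : Computable A₀) (hB : Computable B) :
    Computable (Af A₀ B) := by
  have h1 : Computable (fun p : ℕ × ℚ × ℕ => p.1) := Computable.fst
  have hs := hsum (computable_term hadd hmul hdiv hpow hcast hA hB) (Computable.succ.comp h1)
  exact (hmul.comp (hpow.comp (hcast.comp (computable_Hf hB)) h1) hs).of_eq fun p => rfl

include hadd hmul hdiv hpow hcast hsum in
/-- The interface statement `eff1_of_approx_of_bound`, with the facts of module M1 that it uses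
(`computable_rat_add`, `computable_rat_mul`, `computable_rat_div`, `computable_rat_pow`,
`computable_rat_natCast`, `computable_rat_sum_range`) as explicit hypotheses. -/
theorem eff1_of_approx_of_bound_core {f : ℝ → ℝ} (hf : ContDiff ℝ ∞ f)
    (A₀ : ℚ × ℕ → ℚ) (hA : Computable A₀)
    (hA' : ∀ (q : ℚ) (n : ℕ), |f (q : ℝ) - (A₀ (q, n) : ℝ)| ≤ 1 / ((n : ℝ) + 1))
    (B : ℕ → ℕ) (hB : Computable B) (hB' : ∀ (m : ℕ) (x : ℝ), |iteratedDeriv m f x| ≤ (B m : ℝ)) :
    Eff1 f :=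
  ⟨hf, Af A₀ B, B, computable_Af hadd hmul hdiv hpow hcast hsum hA hB, hB,
    fun m q n => Af_spec hf A₀ hA' B hB' m q n, hB'⟩

end M1

theorem eff1_deriv {f : ℝ → ℝ} (h : Eff1 f) : Eff1 (deriv f) := by
  obtain ⟨hf, A, B, hA, hB, hA', hB'⟩ := h
  refine ⟨(contDiff_infty_iff_deriv.mp hf).2, fun p => A (p.1 + 1, p.2), fun m => B (m + 1),
    ?_, ?_, ?_, ?_⟩
  · exact hA.comp ((Computable.succ.comp Computable.fst).pair Computable.snd)
  · exact hB.comp Computable.succ
  · intro m q n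
    rw [← iteratedDeriv_succ']
    exact hA' (m + 1) q n
  · intro m x
    rw [← iteratedDeriv_succ']
    exact hB' (m + 1) x


end Crest.Agent.S0170.Helper94
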