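import Mathlib
import Crest.Agent.Lib.S0170.Defs
import Crest.Agent.Lib.S0170.Helper87BaseEff
import Crest.Agent.Lib.S0170.Helper51CompQ
import Crest.Agent.Lib.S0170.Helper52StpApprox
import Crest.Agent.Lib.S0170.Helper82StepBounds
import Crest.Agent.Lib.S0170.Helper94FinDiff

/-!
# S0170, module M4b (`BaseEff`), final form

`eff1_base` with exactly the type of the S0170 interface, obtained from the core
`Helper87.eff1_base_of` and the landed modules M1 (`Helper51CompQ`), M2 (`Helper52StpApprox`),
M3 (`Helper82StepBounds`) and M4 (`Helper94FinDiff`).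
-/

set_option autoImplicit false

namespace Crest.Agent.S0170.Helper87

open Crest.AnalysisR.BoxFlow
open scoped ContDiff
open Crest.Agent.S0170

/-- Interface M2, from `Helper52.stp_approx_of` and the M1 facts of `Helper51`. -/
theorem stp_approx : ∃ A₀ : ℚ × ℕ → ℚ, Computable A₀ ∧
    ∀ (q : ℚ) (n : ℕ), |stp (q : ℝ) - (A₀ (q, n) : ℝ)| ≤ 1 / ((n : ℝ) + 1) :=
  Helper52.stp_approx_of
    { le := Helper51.computable_rat_le
      add := Helper51.computable_rat_add
      sub := Helper51.computable_rat_sub
      neg := Helper51.computable_rat_neg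
      abs := Helper51.computable_rat_abs
      div := Helper51.computable_rat_div
      pow := Helper51.computable_rat_pow
      natCast := Helper51.computable_rat_natCast
      natCeil := Helper51.computable_rat_natCeil
      sum_range := fun hf hk => Helper51.computable_rat_sum_range hf hk }

/-- Interface M4, from `Helper94.eff1_of_approx_of_bound_core` and the M1 facts of `Helper51`. -/
theorem eff1_of_approx_of_bound {f : ℝ → ℝ} (hf : ContDiff ℝ ∞ f)
    (A₀ : ℚ × ℕ → ℚ) (hA : Computable A₀)
    (hA' : ∀ (q : ℚ) (n : ℕ), |f (q : ℝ) - (A₀ (q, n) : ℝ)| ≤ 1 / ((n : ℝ) + 1))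
    (B : ℕ → ℕ) (hB : Computable B) (hB' : ∀ (m : ℕ) (x : ℝ), |iteratedDeriv m f x| ≤ (B m : ℝ)) :
    Eff1 f :=
  Helper94.eff1_of_approx_of_bound_core Helper51.computable_rat_add Helper51.computable_rat_mul
    Helper51.computable_rat_div Helper51.computable_rat_pow Helper51.computable_rat_natCast
    (fun hf hk => Helper51.computable_rat_sum_range hf hk) hf A₀ hA hA' B hB hB'

/-- All dependencies of the core are now theorems. -/
theorem deps : Deps :=
  { rat_add := Helper51.computable_rat_add
    rat_mul := Helper51.computable_rat_mul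
    rat_abs := Helper51.computable_rat_abs
    rat_natCeil := Helper51.computable_rat_natCeil
    stp_approx := stp_approx
    stp_bound := Helper82.stp_bound
    eff1_of_approx_of_bound := fun hf A₀ hA hA' B hB hB' =>
      eff1_of_approx_of_bound hf A₀ hA hA' B hB hB' }

/-- Interface M4b: the one-dimensional building blocks are `Eff1`. -/
theorem eff1_base (a₁ b₁ a₂ b₂ c₀ c₁ c₂ : ℚ) (h : (0 < a₁ ∧ a₂ < 0) ∨ (c₁ = 0 ∧ c₂ = 0)) :
    Eff1 (base a₁ b₁ a₂ b₂ c₀ c₁ c₂) :=
  eff1_base_of deps a₁ b₁ a₂ b₂ c₀ c₁ c₂ h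

end Crest.Agent.S0170.Helper87
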