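import Crest.Agent.Lib.S0170.Helper51CompQ
import Crest.Agent.Lib.S0170.Helper52StpApprox
import Crest.Agent.Lib.S0170.Helper82StepBounds
import Crest.Agent.Lib.S0170.Helper94FinDiff
import Crest.Agent.Lib.S0170.Helper87BaseEff
import Crest.Agent.Lib.S0170.Helper83Tensor

/-!
# S0170: glue between the computability toolkit (M1) and the modules parametrised by it
-/

set_option autoImplicit false

namespace Crest.Agent.S0170.Helper88

open Crest.AnalysisR.BoxFlow
open scoped ContDiff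

theorem stp_approx : ∃ A₀ : ℚ × ℕ → ℚ, Computable A₀ ∧
    ∀ (q : ℚ) (n : ℕ), |stp (q : ℝ) - (A₀ (q, n) : ℝ)| ≤ 1 / ((n : ℝ) + 1) :=
  Helper52.stp_approx_of ⟨Helper51.computable_rat_le, Helper51.computable_rat_add,
    Helper51.computable_rat_sub, Helper51.computable_rat_neg, Helper51.computable_rat_abs,
    Helper51.computable_rat_div, Helper51.computable_rat_pow, Helper51.computable_rat_natCast,
    Helper51.computable_rat_natCeil, Helper51.computable_rat_sum_range⟩

theorem eff1_of_approx_of_bound {f : ℝ → ℝ} (hf : ContDiff ℝ ∞ f)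
    (A₀ : ℚ × ℕ → ℚ) (hA : Computable A₀)
    (hA' : ∀ (q : ℚ) (n : ℕ), |f (q : ℝ) - (A₀ (q, n) : ℝ)| ≤ 1 / ((n : ℝ) + 1))
    (B : ℕ → ℕ) (hB : Computable B) (hB' : ∀ (m : ℕ) (x : ℝ), |iteratedDeriv m f x| ≤ (B m : ℝ)) :
    Eff1 f :=
  Helper94.eff1_of_approx_of_bound_core Helper51.computable_rat_add Helper51.computable_rat_mul
    Helper51.computable_rat_div Helper51.computable_rat_pow Helper51.computable_rat_natCast
    Helper51.computable_rat_sum_range hf A₀ hA hA' B hB hB'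

theorem eff1_base (a₁ b₁ a₂ b₂ c₀ c₁ c₂ : ℚ) (h : (0 < a₁ ∧ a₂ < 0) ∨ (c₁ = 0 ∧ c₂ = 0)) :
    Eff1 (base a₁ b₁ a₂ b₂ c₀ c₁ c₂) :=
  Helper87.eff1_base_of ⟨Helper51.computable_rat_add, Helper51.computable_rat_mul,
    Helper51.computable_rat_abs, Helper51.computable_rat_natCeil, stp_approx,
    Helper82.stp_bound, eff1_of_approx_of_bound⟩ a₁ b₁ a₂ b₂ c₀ c₁ c₂ h

theorem effective_zero : Effective (0 : Field) := Helper83.effective_zero

theorem effective_add {U W : Field} (hU : ContDiff ℝ ∞ U) (hW : ContDiff ℝ ∞ W)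
    (eU : Effective U) (eW : Effective W) : Effective (U + W) :=
  Helper83.effective_add Helper51.computable_rat_add hU hW eU eW

/-- `tensorTerm` is a special case of helper83's `tensor`. -/
theorem tensorTerm_eq_tensor (j : Fin 3) (T : ℝ → ℝ) (F : Fin 3 → ℝ → ℝ) :
    tensorTerm j T F =
      Helper83.tensor (Fin.cons T F) (fun i => (((Pi.single j 1 : Fin 3 → ℚ) i : ℚ) : ℝ)) := by
  funext p
  ext i
  simp only [tensorTerm, Helper83.tensor, Fin.prod_univ_three, Pi.smul_apply, smul_eq_mul]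
  have h1 : (Fin.cons T F : Fin 4 → ℝ → ℝ) 0 = T := rfl
  have h2 : (Fin.cons T F : Fin 4 → ℝ → ℝ) 1 = F 0 := rfl
  have h3 : (Fin.cons T F : Fin 4 → ℝ → ℝ) 2 = F 1 := rfl
  have h4 : (Fin.cons T F : Fin 4 → ℝ → ℝ) 3 = F 2 := rfl
  rw [h1, h2, h3, h4]
  by_cases hij : i = j
  · subst hij; simp; ring
  · simp [Pi.single_eq_of_ne hij]

theorem tensorTerm_effective (j : Fin 3) {T : ℝ → ℝ} {F : Fin 3 → ℝ → ℝ}
    (hT : Eff1 T) (hF : ∀ i, Eff1 (F i)) : Effective (tensorTerm j T F) := by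
  rw [tensorTerm_eq_tensor]
  refine Helper83.effective_tensor Helper51.computable_rat_mul (f := Fin.cons T F) ?_ ?_ _
  · intro i
    refine Fin.cases ?_ (fun k => ?_) i
    · exact hT.1
    · exact (hF k).1
  · intro i
    refine Fin.cases ?_ (fun k => ?_) i
    · exact hT.2
    · exact (hF k).2

end Crest.Agent.S0170.Helper88
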