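import Crest.Agent.Lib.S0170.Helper68Flow
import Crest.Agent.Lib.S0170.Helper68MoveField
import Crest.Agent.Lib.S0170.Helper68Track
import Crest.Agent.Lib.S0170.Helper26Tensor
import Crest.Agent.Lib.S0170.Helper88Glue

/-!
# S0170, module M7b: assembly of the field and the flow from a reachability certificate
-/

set_option autoImplicit false

namespace Crest.Agent.S0170.Helper88

open Crest.AnalysisR.BoxFlow
open scoped ContDiff

variable {n : ℕ}

/-- A reachability certificate can be timed. -/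
theorem exists_timedSeq_aux (nbhd : Fin n → Set V) (G G' : Fin n → V → V)
    (h : Reach nbhd G G') :
    ∃ N : ℕ, ∀ T Δ : ℚ, 0 < Δ → T + N * Δ ≤ 3 / 4 → ∃ l, TimedSeq nbhd T G l G' := by
  induction h using Relation.ReflTransGen.head_induction_on with
  | refl =>
    exact ⟨0, fun T Δ _ hT => ⟨[], TimedSeq.nil T G' (by simpa using hT)⟩⟩
  | head hstep _ ih =>
    obtain ⟨N, hN⟩ := ih
    obtain ⟨m, mv, hv, hG⟩ := hstep
    refine ⟨N + 1, fun T Δ hΔ hT => ?_⟩
    obtain ⟨l, hl⟩ := hN (T + Δ) Δ hΔ (by push_cast at hT; linarith)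
    exact ⟨(m, T, Δ) :: l, TimedSeq.cons T _ _ _ m mv T Δ l le_rfl hΔ hv hG hl⟩

theorem exists_timedSeq_of_reach (nbhd : Fin n → Set V) (G G' : Fin n → V → V)
    (h : Reach nbhd G G') : ∃ l, TimedSeq nbhd (1 / 4) G l G' := by
  obtain ⟨N, hN⟩ := exists_timedSeq_aux nbhd G G' h
  refine hN (1 / 4) (1 / (2 * ((N : ℚ) + 1))) (by positivity) ?_
  have h1 : (N : ℚ) * (1 / (2 * ((N : ℚ) + 1))) ≤ 1 / 2 := by
    rw [mul_one_div, div_le_iff₀ (by positivity)]
    linarith
  linarith

theorem moveField_effective (m : SMove) (t₀ Δ : ℚ) : Effective (moveField m t₀ Δ) := by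
  have hδ : (0 : ℚ) < 1 / m.δ := one_div_pos.mpr m.hδ
  have hδ' : -(1 / m.δ) < (0 : ℚ) := by linarith
  have hT : Eff1 (deriv (timeStep t₀ Δ)) :=
    Helper94.eff1_deriv (eff1_base _ _ _ _ _ _ _ (Or.inr ⟨rfl, rfl⟩))
  have hcut : ∀ i, Eff1 (m.cut i) := fun i => eff1_base _ _ _ _ _ _ _ (Or.inl ⟨hδ, hδ'⟩)
  have hA : ∀ i, Eff1 (m.facA i) := by
    intro i
    unfold SMove.facA
    split_ifs
    · exact Helper94.eff1_deriv (eff1_base _ _ _ _ _ _ _ (Or.inl ⟨hδ, hδ'⟩))
    · exact hcut i
  have hB : ∀ i, Eff1 (m.facB i) := by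
    intro i
    unfold SMove.facB
    split_ifs
    · exact Helper94.eff1_deriv (hcut _)
    · exact eff1_base _ _ _ _ _ _ _ (Or.inl ⟨hδ, hδ'⟩)
    · exact hcut i
  exact effective_add (Helper26.tensorTerm_contDiff _ hT.1 fun i => (hA i).1)
    (Helper26.tensorTerm_contDiff _ hT.1 fun i => (hB i).1)
    (tensorTerm_effective _ hT hA) (tensorTerm_effective _ hT hB)

theorem timedSeq_le (nbhd : Fin n → Set V) {T : ℚ} {G G' : Fin n → V → V}
    {l : List (SMove × ℚ × ℚ)} (h : TimedSeq nbhd T G l G') : T ≤ 3 / 4 := by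
  induction h with
  | nil T G hT => exact hT
  | cons T G G' G'' m mv t₀ Δ l hT hΔ hv hG hl ih => linarith

theorem spaceDiv_add {U W : Field} (hU : ContDiff ℝ ∞ U) (hW : ContDiff ℝ ∞ W) (p : ℝ × V) :
    spaceDiv (U + W) p = spaceDiv U p + spaceDiv W p := by
  unfold spaceDiv
  have hU' : DifferentiableAt ℝ U p := (hU.differentiable (by simp)).differentiableAt
  have hW' : DifferentiableAt ℝ W p := (hW.differentiable (by simp)).differentiableAt
  rw [fderiv_add hU' hW']
  simp [Finset.sum_add_distrib]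

theorem spaceDiv_zero (p : ℝ × V) : spaceDiv (0 : Field) p = 0 := by
  unfold spaceDiv
  have : fderiv ℝ (0 : Field) p = 0 := by
    have : (0 : Field) = fun _ => (0 : Fin 3 → ℝ) := rfl
    rw [this, fderiv_fun_const]; rfl
  simp [this]

/-- All the properties of the field of a timed sequence. -/
theorem listField_props (nbhd : Fin n → Set V) {T : ℚ} {G G' : Fin n → V → V}
    {l : List (SMove × ℚ × ℚ)} (h : TimedSeq nbhd T G l G') :
    ContDiff ℝ ∞ (listField l) ∧ HasCompactSupport (listField l) ∧ Effective (listField l) ∧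
      (∀ p : ℝ × V, spaceDiv (listField l) p = 0) ∧
      (∀ p : ℝ × V, p.1 ∉ Set.Icc (T : ℝ) (3 / 4) → listField l p = 0) := by
  induction h with
  | nil T G hT =>
    refine ⟨contDiff_const, HasCompactSupport.zero, effective_zero, spaceDiv_zero, fun p _ => rfl⟩
  | cons T G G' G'' m mv t₀ Δ l hT hΔ hv hG hl ih =>
    obtain ⟨h1, h2, h3, h4, h5⟩ := ih
    have hm := Helper68.moveField_contDiff m t₀ Δ
    have hle := timedSeq_le nbhd hl
    refine ⟨hm.add h1, (Helper68.moveField_hasCompactSupport m t₀ Δ hΔ).add h2,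
      effective_add hm h1 (moveField_effective m t₀ Δ) h3, fun p => ?_, fun p hp => ?_⟩
    · show spaceDiv (moveField m t₀ Δ + listField l) p = 0
      rw [spaceDiv_add hm h1, Helper68.moveField_spaceDiv, h4, add_zero]
    · show moveField m t₀ Δ p + listField l p = 0
      have hT' : (T : ℝ) ≤ t₀ := by exact_mod_cast hT
      have hΔ' : (0 : ℝ) < Δ := by exact_mod_cast hΔ
      have hle' : (t₀ : ℝ) + Δ ≤ 3 / 4 := by
        have := (Rat.cast_le (K := ℝ)).mpr hle
        push_cast at this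
        linarith
      have e1 : moveField m t₀ Δ p = 0 := by
        rw [Helper68.moveField_apply, Helper68.deriv_timeStep_eq_zero t₀ Δ hΔ, zero_smul]
        intro hmem
        exact hp ⟨by linarith [hmem.1], by linarith [hmem.2]⟩
      have e2 : listField l p = 0 := by
        apply h5
        intro hmem
        refine hp ⟨?_, hmem.2⟩
        have := hmem.1
        push_cast at this
        linarith
      rw [e1, e2, add_zero]

theorem exists_flow_of_reach (nbhd : Fin n → Set V) (G : Fin n → V → V)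
    (h : Reach nbhd (fun _ => id) G) :
    ∃ (U : Field) (Φ : ℝ → V → V), ContDiff ℝ ∞ U ∧ HasCompactSupport U ∧ Effective U ∧
      (∀ p : ℝ × V, p.1 ∉ Set.Icc (1 / 4 : ℝ) (3 / 4) → U p = 0) ∧
      (∀ p : ℝ × V, spaceDiv U p = 0) ∧ IsFlow U Φ ∧
      ∀ i, ∀ x ∈ nbhd i, Φ 1 x = G i x := by
  obtain ⟨l, hl⟩ := exists_timedSeq_of_reach nbhd _ _ h
  obtain ⟨h1, h2, h3, h4, h5⟩ := listField_props nbhd hl
  have h5' : ∀ p : ℝ × V, p.1 ∉ Set.Icc (1 / 4 : ℝ) (3 / 4) → listField l p = 0 := by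
    intro p hp
    apply h5
    convert hp using 2
    push_cast; rfl
  obtain ⟨Φ, hΦ⟩ := Helper68.exists_isFlow (listField l) (h1.of_le (by simp)) h2 h5'
  refine ⟨listField l, Φ, h1, h2, h3, h5', h4, hΦ, ?_⟩
  have hstart : ∀ x, Φ (1 / 4 : ℝ) x = x := by
    intro x
    have := Helper68.isFlow_eq_of_field_eq_zero hΦ (a := 0) (b := 1 / 4)
      (fun t ht z => h5' (t, z) (fun hmem => by
        have := hmem.1; have := ht.2; simp only at *; linarith)) x (1 / 4) ⟨by norm_num, le_rfl⟩
    rw [this, hΦ.1]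
  exact Helper68.flow_track nbhd (listField l) Φ h1 h2 hΦ (1 / 4) (fun _ => id) G l hl (fun p _ => rfl)
    (fun i x _ => by
      have := hstart x
      push_cast
      simpa using this)

end Crest.Agent.S0170.Helper88
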