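import Crest.Agent.Lib.S0170.PlanSteps

/-!
# S0170, module M8b: motion planning for disjoint axis-parallel boxes
-/

set_option autoImplicit false

namespace Crest.Agent.S0170.Helper88

open Crest.AnalysisR.BoxFlow

variable {n : ℕ}

theorem reach_trans {nbhd : Fin n → Set V} {G G' G'' : Fin n → V → V}
    (h₁ : Reach nbhd G G') (h₂ : Reach nbhd G' G'') : Reach nbhd G G'' :=
  Relation.ReflTransGen.trans h₁ h₂

theorem reach_of_step {nbhd : Fin n → Set V} {G G' : Fin n → V → V}
    (h : Step nbhd G G') : Reach nbhd G G' :=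
  Relation.ReflTransGen.single h

theorem reach_refl {nbhd : Fin n → Set V} (G : Fin n → V → V) : Reach nbhd G G :=
  Relation.ReflTransGen.refl

/-- If the boxes are pairwise separated in the coordinate `j₀`, the other coordinates of the
centres can be changed at will. -/
theorem slab_move (a w c c' Λ : Fin n → Fin 3 → ℚ) (hw : ∀ i j, 0 < w i j)
    (hΛ : ∀ i j, 0 < Λ i j) (j₀ : Fin 3)
    (hsep : ∀ i i', i ≠ i' → Λ i j₀ * w i j₀ + Λ i' j₀ * w i' j₀ < |c i j₀ - c i' j₀|)
    (hc : ∀ i, c' i j₀ = c i j₀) :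
    Reach (obox a w) (dstate a c Λ) (dstate a c' Λ) := by
  classical
  -- centres after fixing the coordinates in `S`
  let cS : Finset (Fin n × Fin 3) → Fin n → Fin 3 → ℚ :=
    fun S i j => if (i, j) ∈ S then c' i j else c i j
  have key : ∀ S : Finset (Fin n × Fin 3), Reach (obox a w) (dstate a c Λ) (dstate a (cS S) Λ) := by
    intro S
    induction S using Finset.induction_on with
    | empty =>
      have : cS ∅ = c := by funext i j; simp [cS]
      rw [this]; exact reach_refl _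
    | insert p S hp ih =>
      obtain ⟨i₀, α⟩ := p
      by_cases hα : α = j₀
      · have : cS (insert (i₀, α) S) = cS S := by
          funext i j
          simp only [cS, Finset.mem_insert, Prod.mk.injEq]
          by_cases h1 : i = i₀ ∧ j = α
          · obtain ⟨rfl, rfl⟩ := h1
            simp [hp, hα, hc]
          · simp [h1]
        rw [this]; exact ih
      · refine reach_trans ih (reach_of_step ?_)
        have hstep := step_translate a w (cS S) Λ hw hΛ i₀ α (c' i₀ α - cS S i₀ α) ?_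
        · have : cS (insert (i₀, α) S) =
              Function.update (cS S) i₀ (Function.update (cS S i₀) α
                (cS S i₀ α + (c' i₀ α - cS S i₀ α))) := by
            funext i j
            by_cases hi : i = i₀
            · subst hi
              by_cases hj : j = α
              · subst hj; simp [cS]
              · simp [cS, hj, Function.update_of_ne hj]
            · simp [cS, hi, Function.update_of_ne hi]
          rw [this]; exact hstep
        · intro i hi
          refine ⟨j₀, ?_⟩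
          have hne : ¬ (j₀ = α) := fun h => hα h.symm
          simp only [hne, if_false, add_zero]
          have h1 : cS S i j₀ = c i j₀ := by
            simp only [cS]; split_ifs <;> simp [hc]
          have h2 : cS S i₀ j₀ = c i₀ j₀ := by
            simp only [cS]; split_ifs <;> simp [hc]
          rw [h1, h2]
          have := hsep i i₀ hi
          rcases lt_abs.mp this with h | h
          · right; linarith
          · left; linarith
  have : cS Finset.univ = c' := by funext i j; simp [cS]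
  rw [← this]; exact key _

/-- Extraction: the box with the largest top in coordinate `0` is never blocked in the
direction `+e₀`; lifting the boxes in that order makes them pairwise separated in coordinate `0`. -/
theorem lift_aux (a w Λ : Fin n → Fin 3 → ℚ) (hw : ∀ i j, 0 < w i j)
    (hΛ : ∀ i j, 0 < Λ i j) (H : ℚ) (hH : 0 < H) :
    ∀ (k : ℕ) (S : Finset (Fin n)), S.card = k → ∀ c : Fin n → Fin 3 → ℚ,
      (∀ i ∈ S, |c i 0| + Λ i 0 * w i 0 ≤ H) →
      (∀ i, i ∉ S → 4 * H * k + 3 * H ≤ c i 0 - Λ i 0 * w i 0) →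
      (∀ i i', i ≠ i' → ∃ j, Λ i j * w i j + Λ i' j * w i' j < |c i j - c i' j|) →
      (∀ i i', i ∉ S → i' ∉ S → i ≠ i' → Λ i 0 * w i 0 + Λ i' 0 * w i' 0 < |c i 0 - c i' 0|) →
      ∃ c' : Fin n → Fin 3 → ℚ, Reach (obox a w) (dstate a c Λ) (dstate a c' Λ) ∧
        (∀ i j, j ≠ 0 → c' i j = c i j) ∧
        (∀ i i', i ≠ i' → Λ i 0 * w i 0 + Λ i' 0 * w i' 0 < |c' i 0 - c' i' 0|) := by
  classical
  intro k
  induction k with
  | zero =>
    intro S hS c _ _ _ hD
    have hS' : S = ∅ := Finset.card_eq_zero.mp hS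
    subst hS'
    exact ⟨c, reach_refl _, fun _ _ _ => rfl, fun i i' hii' => hD i i' (by simp) (by simp) hii'⟩
  | succ k ih =>
    intro S hS c hA hB hC hD
    have hne : S.Nonempty := by
      rw [← Finset.card_pos]; omega
    obtain ⟨is, his, hmax⟩ := Finset.exists_max_image S (fun i => c i 0 + Λ i 0 * w i 0) hne
    set d : ℚ := 4 * H * ((k : ℚ) + 1) with hd
    have hd0 : 0 ≤ d := by positivity
    have hu : ∀ i j, 0 < Λ i j * w i j := fun i j => mul_pos (hΛ i j) (hw i j)
    have hAs := hA is his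
    have hAs1 : c is 0 + Λ is 0 * w is 0 ≤ H := by
      have := le_abs_self (c is 0); linarith
    have hAs2 : -H ≤ c is 0 - Λ is 0 * w is 0 := by
      have := neg_abs_le (c is 0); linarith
    set c₁ : Fin n → Fin 3 → ℚ :=
      Function.update c is (Function.update (c is) 0 (c is 0 + d)) with hc₁
    have hc₁_ne : ∀ i, i ≠ is → c₁ i = c i := fun i hi => by simp [hc₁, hi]
    have hc₁_is0 : c₁ is 0 = c is 0 + d := by simp [hc₁]
    have hc₁_isj : ∀ j, j ≠ 0 → c₁ is j = c is j := fun j hj => by simp [hc₁, hj]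
    have hBcast : ∀ i, i ∉ S → 4 * H * ((k : ℚ) + 1) + 3 * H ≤ c i 0 - Λ i 0 * w i 0 := by
      intro i hi; have := hB i hi; push_cast at this; exact this
    -- the step
    have hstep : Step (obox a w) (dstate a c Λ) (dstate a c₁ Λ) := by
      refine step_translate a w c Λ hw hΛ is 0 d ?_
      intro i hi
      by_cases hiS : i ∈ S
      · obtain ⟨j, hj⟩ := hC i is hi
        refine ⟨j, ?_⟩
        by_cases hj0 : j = 0
        · subst hj0
          simp only [if_true, min_eq_left hd0, max_eq_right hd0, add_zero]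
          have hm := hmax i hiS
          rcases lt_abs.mp hj with h | h
          · exfalso; have := hu i 0; linarith
          · left; linarith
        · simp only [hj0, if_false, add_zero]
          rcases lt_abs.mp hj with h | h
          · right; linarith
          · left; linarith
      · refine ⟨0, Or.inr ?_⟩
        simp only [if_true, max_eq_right hd0]
        have := hBcast i hiS
        linarith
    -- invariants for the smaller set
    have hcard : (S.erase is).card = k := by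
      rw [Finset.card_erase_of_mem his]; omega
    have hA' : ∀ i ∈ S.erase is, |c₁ i 0| + Λ i 0 * w i 0 ≤ H := by
      intro i hi
      have hi' := Finset.mem_erase.mp hi
      rw [hc₁_ne i hi'.1]; exact hA i hi'.2
    have hB' : ∀ i, i ∉ S.erase is → 4 * H * k + 3 * H ≤ c₁ i 0 - Λ i 0 * w i 0 := by
      intro i hi
      by_cases hiis : i = is
      · subst hiis; rw [hc₁_is0]; linarith
      · have hiS : i ∉ S := fun h => hi (Finset.mem_erase.mpr ⟨hiis, h⟩)
        rw [hc₁_ne i hiis]; have := hBcast i hiS; nlinarith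
    -- separation of the lifted box from everything else, in coordinate 0
    have hsep0 : ∀ i, i ≠ is → Λ i 0 * w i 0 + Λ is 0 * w is 0 < |c₁ i 0 - c₁ is 0| := by
      intro i hi
      rw [hc₁_ne i hi, hc₁_is0]
      by_cases hiS : i ∈ S
      · have h1 := hA i hiS
        have h2 := le_abs_self (c i 0)
        have h3 : (0:ℚ) ≤ k := Nat.cast_nonneg k
        rw [abs_sub_comm]
        apply lt_of_lt_of_le _ (le_abs_self _)
        nlinarith
      · have := hBcast i hiS
        apply lt_of_lt_of_le _ (le_abs_self _)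
        linarith
    have hC' : ∀ i i', i ≠ i' → ∃ j, Λ i j * w i j + Λ i' j * w i' j < |c₁ i j - c₁ i' j| := by
      intro i i' hii'
      by_cases h1 : i = is
      · subst h1
        refine ⟨0, ?_⟩
        have := hsep0 i' (Ne.symm hii')
        rw [abs_sub_comm]; linarith
      · by_cases h2 : i' = is
        · subst h2; exact ⟨0, hsep0 i h1⟩
        · rw [hc₁_ne i h1, hc₁_ne i' h2]; exact hC i i' hii'
    have hD' : ∀ i i', i ∉ S.erase is → i' ∉ S.erase is → i ≠ i' →
        Λ i 0 * w i 0 + Λ i' 0 * w i' 0 < |c₁ i 0 - c₁ i' 0| := by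
      intro i i' hi hi' hii'
      by_cases h1 : i = is
      · subst h1
        have := hsep0 i' (Ne.symm hii')
        rw [abs_sub_comm]; linarith
      · by_cases h2 : i' = is
        · subst h2; exact hsep0 i h1
        · have hiS : i ∉ S := fun h => hi (Finset.mem_erase.mpr ⟨h1, h⟩)
          have hiS' : i' ∉ S := fun h => hi' (Finset.mem_erase.mpr ⟨h2, h⟩)
          rw [hc₁_ne i h1, hc₁_ne i' h2]; exact hD i i' hiS hiS' hii'
    obtain ⟨c', hr, hc', hsep'⟩ := ih (S.erase is) hcard c₁ hA' hB' hC' hD'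
    refine ⟨c', reach_trans (reach_of_step hstep) hr, ?_, hsep'⟩
    intro i j hj
    rw [hc' i j hj]
    by_cases hi : i = is
    · subst hi; exact hc₁_isj j hj
    · rw [hc₁_ne i hi]

theorem lift (a w c Λ : Fin n → Fin 3 → ℚ) (hw : ∀ i j, 0 < w i j)
    (hΛ : ∀ i j, 0 < Λ i j) (H : ℚ) (hH : 0 < H)
    (hb : ∀ i, |c i 0| + Λ i 0 * w i 0 ≤ H)
    (hsep : ∀ i i', i ≠ i' → ∃ j, Λ i j * w i j + Λ i' j * w i' j < |c i j - c i' j|) :
    ∃ c' : Fin n → Fin 3 → ℚ, Reach (obox a w) (dstate a c Λ) (dstate a c' Λ) ∧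
      (∀ i j, j ≠ 0 → c' i j = c i j) ∧
      (∀ i i', i ≠ i' → Λ i 0 * w i 0 + Λ i' 0 * w i' 0 < |c' i 0 - c' i' 0|) :=
  lift_aux a w Λ hw hΛ H hH _ Finset.univ rfl c (fun i _ => hb i)
    (fun i hi => absurd (Finset.mem_univ i) hi) hsep
    (fun i _ hi => absurd (Finset.mem_univ i) hi)

/-- Canonical centres: box `i` sits at `(0, 4 H (i+1), 0)`. -/
def canonC (H : ℚ) (i : Fin n) (j : Fin 3) : ℚ :=
  if j = 1 then 4 * H * (((i : ℕ) : ℚ) + 1) else 0

/-- Canonical scalings. -/
def canonΛ (h Λ : Fin n → Fin 3 → ℚ) (i : Fin n) (j : Fin 3) : ℚ :=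
  if j = 0 then Λ i 0 * (Λ i 1 * h i 1) * (Λ i 2 * h i 2) else 1 / h i j

theorem canonC_sep (H : ℚ) (hH : 0 < H) (i i' : Fin n) (hii' : i ≠ i') :
    4 * H ≤ |canonC H i 1 - canonC H i' 1| := by
  simp only [canonC, if_true]
  have h1 : (i : ℕ) ≠ (i' : ℕ) := fun h => hii' (Fin.ext h)
  have h2 : (1 : ℚ) ≤ |((i : ℕ) : ℚ) - ((i' : ℕ) : ℚ)| := by
    rcases Nat.lt_or_gt_of_ne h1 with h | h
    · have : ((i : ℕ) : ℚ) + 1 ≤ ((i' : ℕ) : ℚ) := by exact_mod_cast h
      rw [abs_sub_comm]; exact le_trans (by linarith) (le_abs_self _)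
    · have : ((i' : ℕ) : ℚ) + 1 ≤ ((i : ℕ) : ℚ) := by exact_mod_cast h
      exact le_trans (by linarith) (le_abs_self _)
  have h3 : 4 * H * (((i : ℕ) : ℚ) + 1) - 4 * H * (((i' : ℕ) : ℚ) + 1) =
      4 * H * (((i : ℕ) : ℚ) - ((i' : ℕ) : ℚ)) := by ring
  rw [h3, abs_mul, abs_of_pos (by positivity : (0:ℚ) < 4 * H)]
  nlinarith

/-- Bring all centres to the canonical positions. -/
theorem to_canonC (a w c Λ : Fin n → Fin 3 → ℚ) (hw : ∀ i j, 0 < w i j)
    (hΛ : ∀ i j, 0 < Λ i j) (H : ℚ) (hH : 0 < H)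
    (hb : ∀ i j, |c i j| + Λ i j * w i j ≤ H)
    (hsep : ∀ i i', i ≠ i' → ∃ j, Λ i j * w i j + Λ i' j * w i' j < |c i j - c i' j|) :
    Reach (obox a w) (dstate a c Λ) (dstate a (canonC H) Λ) := by
  obtain ⟨c₁, hr₁, hc₁, hsep₁⟩ := lift a w c Λ hw hΛ H hH (fun i => hb i 0) hsep
  -- second centres: keep coordinate 0, canonical otherwise
  set c₂ : Fin n → Fin 3 → ℚ := fun i j => if j = 0 then c₁ i 0 else canonC H i j with hc₂
  have hr₂ : Reach (obox a w) (dstate a c₁ Λ) (dstate a c₂ Λ) :=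
    slab_move a w c₁ c₂ Λ hw hΛ 0 hsep₁ (fun i => by simp [hc₂])
  have hu : ∀ i j, Λ i j * w i j ≤ H := fun i j => by
    have := hb i j; have := abs_nonneg (c i j); linarith
  have hsep₂ : ∀ i i', i ≠ i' → Λ i 1 * w i 1 + Λ i' 1 * w i' 1 < |c₂ i 1 - c₂ i' 1| := by
    intro i i' hii'
    have h1 : c₂ i 1 = canonC H i 1 := by simp [hc₂]
    have h2 : c₂ i' 1 = canonC H i' 1 := by simp [hc₂]
    rw [h1, h2]
    have := canonC_sep H hH i i' hii'
    have := hu i 1; have := hu i' 1
    linarith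
  have hr₃ : Reach (obox a w) (dstate a c₂ Λ) (dstate a (canonC H) Λ) :=
    slab_move a w c₂ (canonC H) Λ hw hΛ 1 hsep₂ (fun i => by simp [hc₂])
  exact reach_trans hr₁ (reach_trans hr₂ hr₃)

theorem rescaleRadius_pos (r R₀ : ℚ) (hr : 0 < r) (hR : 0 ≤ R₀) : 0 < rescaleRadius r R₀ := by
  unfold rescaleRadius
  have h1 : 0 ≤ |r - 1| := abs_nonneg _
  have h2 : 0 ≤ |1 - r| / r := div_nonneg (abs_nonneg _) hr.le
  have h3 : 0 < 1 / r := by positivity
  positivity

/-- Rescale all boxes, one at a time, inside private cubes around the canonical centres. -/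
theorem rescale_all (a w h Λ : Fin n → Fin 3 → ℚ) (hw : ∀ i j, 0 < w i j)
    (hΛ : ∀ i j, 0 < Λ i j) (hh : ∀ i j, 0 < h i j) (H : ℚ) (hH : 0 < H)
    (hu : ∀ i, Λ i 1 * w i 1 ≤ H)
    (hU : ∀ i, w i 1 / h i 1 ≤ H)
    (hR1 : ∀ i, rescaleRadius (Λ i 1 * h i 1) (∑ j, Λ i j * w i j) ≤ H)
    (hR2 : ∀ i, rescaleRadius (Λ i 2 * h i 2)
      (Λ i 1 * h i 1 * Λ i 0 * w i 0 + w i 1 / h i 1 + Λ i 2 * w i 2) ≤ H) :
    Reach (obox a w) (dstate a (canonC H) Λ) (dstate a (canonC H) (canonΛ h Λ)) := by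
  classical
  let ΛS : Finset (Fin n) → Fin n → Fin 3 → ℚ := fun S i => if i ∈ S then canonΛ h Λ i else Λ i
  have hcanon_pos : ∀ i j, 0 < canonΛ h Λ i j := by
    intro i j
    unfold canonΛ
    split_ifs
    · have := hΛ i 0; have := hΛ i 1; have := hΛ i 2; have := hh i 1; have := hh i 2
      positivity
    · have := hh i j; positivity
  have hΛS_pos : ∀ S i j, 0 < ΛS S i j := by
    intro S i j
    simp only [ΛS]; split_ifs
    · exact hcanon_pos i j
    · exact hΛ i j
  have hΛS1 : ∀ S i, ΛS S i 1 * w i 1 ≤ H := by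
    intro S i
    simp only [ΛS]; split_ifs
    · have : canonΛ h Λ i 1 * w i 1 = w i 1 / h i 1 := by
        simp [canonΛ]; ring
      rw [this]; exact hU i
    · exact hu i
  have key : ∀ S : Finset (Fin n),
      Reach (obox a w) (dstate a (canonC H) Λ) (dstate a (canonC H) (ΛS S)) := by
    intro S
    induction S using Finset.induction_on with
    | empty =>
      have : ΛS ∅ = Λ := by funext i j; simp [ΛS]
      rw [this]; exact reach_refl _
    | insert i₀ S hi₀ ih =>
      refine reach_trans ih ?_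
      have hfar : ∀ (L : Fin n → Fin 3 → ℚ) (R : ℚ), (∀ i, i ≠ i₀ → L i 1 * w i 1 ≤ H) → R ≤ H →
          ∀ i, i ≠ i₀ → ∃ j, L i j * w i j + R < |canonC H i j - canonC H i₀ j| := by
        intro L R hL hR i hi
        refine ⟨1, ?_⟩
        have := canonC_sep H hH i i₀ hi
        have := hL i hi
        linarith
      have hS_i₀ : ΛS S i₀ = Λ i₀ := by simp [ΛS, hi₀]
      set r₁ : ℚ := Λ i₀ 1 * h i₀ 1 with hr₁
      set r₂ : ℚ := Λ i₀ 2 * h i₀ 2 with hr₂
      have hr₁pos : 0 < r₁ := mul_pos (hΛ i₀ 1) (hh i₀ 1)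
      have hr₂pos : 0 < r₂ := mul_pos (hΛ i₀ 2) (hh i₀ 2)
      have hupos : ∀ j, 0 < Λ i₀ j * w i₀ j := fun j => mul_pos (hΛ i₀ j) (hw i₀ j)
      -- first rescale
      have step1 := reach_rescale a w (canonC H) (ΛS S) hw (hΛS_pos S) i₀ 0 1 (by decide) r₁ hr₁pos
        (∑ j, Λ i₀ j * w i₀ j)
        (fun j => by
          rw [hS_i₀]
          exact Finset.single_le_sum (f := fun j => Λ i₀ j * w i₀ j)
            (fun j _ => (hupos j).le) (Finset.mem_univ j))
        (hfar (ΛS S) _ (fun i _ => hΛS1 S i) (hR1 i₀))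
      set Λ₁ : Fin n → Fin 3 → ℚ := Function.update (ΛS S) i₀
        (Function.update (Function.update (ΛS S i₀) 0 (r₁ * ΛS S i₀ 0)) 1 (ΛS S i₀ 1 / r₁)) with hΛ₁
      have hΛ₁_ne : ∀ i, i ≠ i₀ → Λ₁ i = ΛS S i := fun i hi => by simp [hΛ₁, hi]
      have hΛ₁0 : Λ₁ i₀ 0 = r₁ * Λ i₀ 0 := by simp [hΛ₁, hS_i₀]
      have hΛ₁1 : Λ₁ i₀ 1 = 1 / h i₀ 1 := by
        simp only [hΛ₁, Function.update_self, hS_i₀, hr₁]
        have := (hΛ i₀ 1).ne'; have := (hh i₀ 1).ne'
        field_simp
      have hΛ₁2 : Λ₁ i₀ 2 = Λ i₀ 2 := by simp [hΛ₁, hS_i₀]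
      have hΛ₁_pos : ∀ i j, 0 < Λ₁ i j := by
        intro i j
        by_cases hi : i = i₀
        · subst hi
          fin_cases j
          · show 0 < Λ₁ i 0
            rw [hΛ₁0]; exact mul_pos hr₁pos (hΛ i 0)
          · show 0 < Λ₁ i 1
            rw [hΛ₁1]; have := hh i 1; positivity
          · show 0 < Λ₁ i 2
            rw [hΛ₁2]; exact hΛ i 2
        · rw [hΛ₁_ne i hi]; exact hΛS_pos S i j
      -- second rescale
      have step2 := reach_rescale a w (canonC H) Λ₁ hw hΛ₁_pos i₀ 0 2 (by decide) r₂ hr₂pos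
        (Λ i₀ 1 * h i₀ 1 * Λ i₀ 0 * w i₀ 0 + w i₀ 1 / h i₀ 1 + Λ i₀ 2 * w i₀ 2)
        (fun j => by
          have e0 : 0 < Λ i₀ 1 * h i₀ 1 * Λ i₀ 0 * w i₀ 0 := by
            have := hΛ i₀ 1; have := hh i₀ 1; have := hΛ i₀ 0; have := hw i₀ 0; positivity
          have e1 : 0 < w i₀ 1 / h i₀ 1 := div_pos (hw i₀ 1) (hh i₀ 1)
          have e2 := hupos 2
          fin_cases j
          · show Λ₁ i₀ 0 * w i₀ 0 ≤ _
            rw [hΛ₁0, hr₁]; linarith
          · show Λ₁ i₀ 1 * w i₀ 1 ≤ _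
            rw [hΛ₁1]
            have : 1 / h i₀ 1 * w i₀ 1 = w i₀ 1 / h i₀ 1 := by ring
            rw [this]; linarith
          · show Λ₁ i₀ 2 * w i₀ 2 ≤ _
            rw [hΛ₁2]; linarith)
        (hfar Λ₁ _ (fun i hi => by rw [hΛ₁_ne i hi]; exact hΛS1 S i) (hR2 i₀))
      have hfin : Function.update Λ₁ i₀
          (Function.update (Function.update (Λ₁ i₀) 0 (r₂ * Λ₁ i₀ 0)) 2 (Λ₁ i₀ 2 / r₂)) =
          ΛS (insert i₀ S) := by
        funext i j
        by_cases hi : i = i₀
        · subst hi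
          simp only [Function.update_self, ΛS, Finset.mem_insert, true_or, if_true]
          fin_cases j
          · show Function.update (Function.update (Λ₁ i) 0 (r₂ * Λ₁ i 0)) 2 (Λ₁ i 2 / r₂) 0 =
              canonΛ h Λ i 0
            rw [Function.update_of_ne (by decide), Function.update_self, hΛ₁0]
            simp only [canonΛ, if_true, hr₁, hr₂]; ring
          · show Function.update (Function.update (Λ₁ i) 0 (r₂ * Λ₁ i 0)) 2 (Λ₁ i 2 / r₂) 1 =
              canonΛ h Λ i 1
            rw [Function.update_of_ne (by decide), Function.update_of_ne (by decide), hΛ₁1]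
            simp [canonΛ]
          · show Function.update (Function.update (Λ₁ i) 0 (r₂ * Λ₁ i 0)) 2 (Λ₁ i 2 / r₂) 2 =
              canonΛ h Λ i 2
            rw [Function.update_self, hΛ₁2]
            have := (hΛ i 2).ne'; have := (hh i 2).ne'
            simp only [canonΛ, hr₂]
            rw [if_neg (by decide)]
            field_simp
        · rw [Function.update_of_ne hi, hΛ₁_ne i hi]
          simp [ΛS, hi]
      rw [← hfin]
      exact reach_trans step1 step2
  have : ΛS Finset.univ = canonΛ h Λ := by funext i j; simp [ΛS]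
  rw [← this]; exact key _

/-- Disjoint closed boxes are separated in some coordinate. -/
theorem sep_of_disjoint (c c' u u' : Fin 3 → ℚ) (hu : ∀ j, 0 < u j) (hu' : ∀ j, 0 < u' j)
    (hd : Disjoint (box c u) (box c' u')) : ∃ j, u j + u' j < |c j - c' j| := by
  by_contra hcon
  push Not at hcon
  -- a common point
  let x : Fin 3 → ℝ := fun j => ((c j * u' j + c' j * u j) / (u j + u' j) : ℚ)
  have hx : x ∈ box c u := by
    intro j
    have h1 : (0 : ℚ) < u j + u' j := add_pos (hu j) (hu' j)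
    have h2 : (c j * u' j + c' j * u j) / (u j + u' j) - c j = (c' j - c j) * (u j / (u j + u' j)) := by
      field_simp; ring
    have h3 : |(c' j - c j) * (u j / (u j + u' j))| ≤ u j := by
      rw [abs_mul, abs_of_pos (div_pos (hu j) h1)]
      have h4 : |c' j - c j| ≤ u j + u' j := by rw [abs_sub_comm]; exact hcon j
      calc |c' j - c j| * (u j / (u j + u' j)) ≤ (u j + u' j) * (u j / (u j + u' j)) :=
            mul_le_mul_of_nonneg_right h4 (div_pos (hu j) h1).le
        _ = u j := by field_simp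
    have : |x j - (c j : ℝ)| = ((|(c' j - c j) * (u j / (u j + u' j))| : ℚ) : ℝ) := by
      simp only [x]; rw [← h2]; push_cast; rfl
    rw [this]; exact_mod_cast h3
  have hx' : x ∈ box c' u' := by
    intro j
    have h1 : (0 : ℚ) < u j + u' j := add_pos (hu j) (hu' j)
    have h2 : (c j * u' j + c' j * u j) / (u j + u' j) - c' j = (c j - c' j) * (u' j / (u j + u' j)) := by
      field_simp; ring
    have h3 : |(c j - c' j) * (u' j / (u j + u' j))| ≤ u' j := by
      rw [abs_mul, abs_of_pos (div_pos (hu' j) h1)]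
      calc |c j - c' j| * (u' j / (u j + u' j)) ≤ (u j + u' j) * (u' j / (u j + u' j)) :=
            mul_le_mul_of_nonneg_right (hcon j) (div_pos (hu' j) h1).le
        _ = u' j := by field_simp
    have : |x j - (c' j : ℝ)| = ((|(c j - c' j) * (u' j / (u j + u' j))| : ℚ) : ℝ) := by
      simp only [x]; rw [← h2]; push_cast; rfl
    rw [this]; exact_mod_cast h3
  exact Set.disjoint_left.mp hd hx hx'

/-- A uniform positive bound below finitely many positive gaps. -/
theorem exists_uniform_gap {ι : Type} [Fintype ι] (P : ι → ℚ → Prop)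
    (hP : ∀ x, ∃ g, 0 < g ∧ P x g) (hmono : ∀ x g g', 0 < g' → g' ≤ g → P x g → P x g') :
    ∃ g, 0 < g ∧ ∀ x, P x g := by
  classical
  have key : ∀ S : Finset ι, ∃ g, 0 < g ∧ ∀ x ∈ S, P x g := by
    intro S
    induction S using Finset.induction_on with
    | empty => exact ⟨1, one_pos, fun x hx => absurd hx (Finset.notMem_empty x)⟩
    | insert y S hy ih =>
      obtain ⟨g₁, hg₁, h₁⟩ := ih
      obtain ⟨g₂, hg₂, h₂⟩ := hP y
      refine ⟨min g₁ g₂, lt_min hg₁ hg₂, fun x hx => ?_⟩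
      rcases Finset.mem_insert.mp hx with rfl | hx
      · exact hmono _ _ _ (lt_min hg₁ hg₂) (min_le_right _ _) h₂
      · exact hmono _ _ _ (lt_min hg₁ hg₂) (min_le_left _ _) (h₁ x hx)
  obtain ⟨g, hg, h⟩ := key Finset.univ
  exact ⟨g, hg, fun x => h x (Finset.mem_univ x)⟩

/-- A uniform upper bound for a finite family. -/
theorem exists_upper {ι : Type} [Fintype ι] (f : ι → ℚ) : ∃ H, 0 < H ∧ ∀ x, f x ≤ H := by
  refine ⟨1 + ∑ x, |f x|, ?_, fun x => ?_⟩
  · have : 0 ≤ ∑ x, |f x| := Finset.sum_nonneg fun x _ => abs_nonneg _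
    linarith
  · have h1 : |f x| ≤ ∑ x, |f x| :=
      Finset.single_le_sum (f := fun x => |f x|) (fun x _ => abs_nonneg _) (Finset.mem_univ x)
    have := le_abs_self (f x)
    linarith

/-- Canonicalisation of a configuration of separated boxes. -/
theorem reach_canon (a w h c Λ : Fin n → Fin 3 → ℚ) (hw : ∀ i j, 0 < w i j)
    (hΛ : ∀ i j, 0 < Λ i j) (hh : ∀ i j, 0 < h i j) (H : ℚ) (hH : 0 < H)
    (hsep : ∀ i i', i ≠ i' → ∃ j, Λ i j * w i j + Λ i' j * w i' j < |c i j - c i' j|)
    (hb : ∀ i j, |c i j| + Λ i j * w i j ≤ H)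
    (hU : ∀ i, w i 1 / h i 1 ≤ H)
    (hR1 : ∀ i, rescaleRadius (Λ i 1 * h i 1) (∑ j, Λ i j * w i j) ≤ H)
    (hR2 : ∀ i, rescaleRadius (Λ i 2 * h i 2)
      (Λ i 1 * h i 1 * Λ i 0 * w i 0 + w i 1 / h i 1 + Λ i 2 * w i 2) ≤ H) :
    Reach (obox a w) (dstate a c Λ) (dstate a (canonC H) (canonΛ h Λ)) := by
  refine reach_trans (to_canonC a w c Λ hw hΛ H hH hb hsep)
    (rescale_all a w h Λ hw hΛ hh H hH (fun i => ?_) hU hR1 hR2)
  have := hb i 1; have := abs_nonneg (c i 1); linarith

/-- **Planning** (module M8b). -/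
theorem planning (n : ℕ) (a b h k : Fin n → Fin 3 → ℚ)
    (hh : ∀ i j, 0 < h i j) (hk : ∀ i j, 0 < k i j)
    (ha : Pairwise fun i i' => Disjoint (box (a i) (h i)) (box (a i') (h i')))
    (hb : Pairwise fun i i' => Disjoint (box (b i) (k i)) (box (b i') (k i')))
    (hvol : ∀ i, ∏ j : Fin 3, k i j / h i j = 1) :
    ∃ ε : ℚ, 0 < ε ∧
      Reach (obox a (fun i j => h i j + ε)) (fun _ => id)
        (dstate a b (fun i j => k i j / h i j)) := by
  classical
  -- the scalings of the target state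
  set Λt : Fin n → Fin 3 → ℚ := fun i j => k i j / h i j with hΛt
  have hΛt_pos : ∀ i j, 0 < Λt i j := fun i j => div_pos (hk i j) (hh i j)
  -- a bound for the scalings
  obtain ⟨K, hK, hKb⟩ := exists_upper (fun p : Fin n × Fin 3 => Λt p.1 p.2)
  -- uniform gap
  have hgap : ∃ g, 0 < g ∧ ∀ p : Fin n × Fin n, p.1 ≠ p.2 →
      (∃ j, h p.1 j + h p.2 j + g ≤ |a p.1 j - a p.2 j|) ∧
      (∃ j, k p.1 j + k p.2 j + g ≤ |b p.1 j - b p.2 j|) := by
    refine exists_uniform_gap (fun (p : Fin n × Fin n) g => p.1 ≠ p.2 →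
      (∃ j, h p.1 j + h p.2 j + g ≤ |a p.1 j - a p.2 j|) ∧
      (∃ j, k p.1 j + k p.2 j + g ≤ |b p.1 j - b p.2 j|)) ?_ ?_
    · rintro ⟨i, i'⟩
      by_cases hii' : i = i'
      · exact ⟨1, one_pos, fun hne => absurd hii' hne⟩
      · obtain ⟨j₁, hj₁⟩ := sep_of_disjoint _ _ _ _ (hh i) (hh i') (ha hii')
        obtain ⟨j₂, hj₂⟩ := sep_of_disjoint _ _ _ _ (hk i) (hk i') (hb hii')
        refine ⟨min (|a i j₁ - a i' j₁| - (h i j₁ + h i' j₁)) (|b i j₂ - b i' j₂| - (k i j₂ + k i' j₂)),
          lt_min (by linarith) (by linarith), fun _ => ⟨⟨j₁, ?_⟩, ⟨j₂, ?_⟩⟩⟩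
        · have := min_le_left (|a i j₁ - a i' j₁| - (h i j₁ + h i' j₁))
            (|b i j₂ - b i' j₂| - (k i j₂ + k i' j₂))
          simp only; linarith
        · have := min_le_right (|a i j₁ - a i' j₁| - (h i j₁ + h i' j₁))
            (|b i j₂ - b i' j₂| - (k i j₂ + k i' j₂))
          simp only; linarith
    · rintro ⟨i, i'⟩ g g' _ hg' hP hne
      obtain ⟨⟨j₁, hj₁⟩, ⟨j₂, hj₂⟩⟩ := hP hne
      exact ⟨⟨j₁, by simp only at hj₁ ⊢; linarith⟩, ⟨j₂, by simp only at hj₂ ⊢; linarith⟩⟩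
  obtain ⟨g, hg, hgap⟩ := hgap
  -- choice of ε
  set ε : ℚ := g / (4 * (1 + K)) with hε
  have hε_pos : 0 < ε := by positivity
  have hε1 : 2 * ε < g := by
    rw [hε, ← sub_pos]
    have : g - 2 * (g / (4 * (1 + K))) = g * (1 + 2 * K) / (2 * (1 + K)) := by field_simp; ring
    rw [this]; positivity
  have hε2 : 2 * K * ε < g := by
    rw [hε, ← sub_pos]
    have : g - 2 * K * (g / (4 * (1 + K))) = g * (2 + K) / (2 * (1 + K)) := by field_simp; ring
    rw [this]; positivity
  refine ⟨ε, hε_pos, ?_⟩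
  set w : Fin n → Fin 3 → ℚ := fun i j => h i j + ε with hw_def
  have hw : ∀ i j, 0 < w i j := fun i j => add_pos (hh i j) hε_pos
  set Λs : Fin n → Fin 3 → ℚ := fun _ _ => 1 with hΛs
  have hΛs_pos : ∀ i j, 0 < Λs i j := fun _ _ => one_pos
  -- separation for the two configurations
  have hsep_s : ∀ i i', i ≠ i' → ∃ j, Λs i j * w i j + Λs i' j * w i' j < |a i j - a i' j| := by
    intro i i' hii'
    obtain ⟨⟨j, hj⟩, -⟩ := hgap (i, i') hii'
    refine ⟨j, ?_⟩
    simp only [hΛs, hw_def, one_mul]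
    simp only at hj
    linarith
  have hsep_t : ∀ i i', i ≠ i' → ∃ j, Λt i j * w i j + Λt i' j * w i' j < |b i j - b i' j| := by
    intro i i' hii'
    obtain ⟨-, ⟨j, hj⟩⟩ := hgap (i, i') hii'
    refine ⟨j, ?_⟩
    have e1 : Λt i j * w i j = k i j + Λt i j * ε := by
      simp only [hΛt, hw_def]; have := (hh i j).ne'; field_simp
    have e2 : Λt i' j * w i' j = k i' j + Λt i' j * ε := by
      simp only [hΛt, hw_def]; have := (hh i' j).ne'; field_simp
    rw [e1, e2]
    have b1 : Λt i j * ε ≤ K * ε := mul_le_mul_of_nonneg_right (hKb (i, j)) hε_pos.le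
    have b2 : Λt i' j * ε ≤ K * ε := mul_le_mul_of_nonneg_right (hKb (i', j)) hε_pos.le
    simp only at hj
    linarith
  -- the common constant H
  obtain ⟨H₁, hH₁, hb₁⟩ := exists_upper (fun p : Fin n × Fin 3 => |a p.1 p.2| + Λs p.1 p.2 * w p.1 p.2)
  obtain ⟨H₂, hH₂, hb₂⟩ := exists_upper (fun p : Fin n × Fin 3 => |b p.1 p.2| + Λt p.1 p.2 * w p.1 p.2)
  obtain ⟨H₃, hH₃, hb₃⟩ := exists_upper (fun i : Fin n => w i 1 / h i 1)
  obtain ⟨H₄, hH₄, hb₄⟩ := exists_upper
    (fun i : Fin n => rescaleRadius (Λs i 1 * h i 1) (∑ j, Λs i j * w i j))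
  obtain ⟨H₅, hH₅, hb₅⟩ := exists_upper
    (fun i : Fin n => rescaleRadius (Λs i 2 * h i 2)
      (Λs i 1 * h i 1 * Λs i 0 * w i 0 + w i 1 / h i 1 + Λs i 2 * w i 2))
  obtain ⟨H₆, hH₆, hb₆⟩ := exists_upper
    (fun i : Fin n => rescaleRadius (Λt i 1 * h i 1) (∑ j, Λt i j * w i j))
  obtain ⟨H₇, hH₇, hb₇⟩ := exists_upper
    (fun i : Fin n => rescaleRadius (Λt i 2 * h i 2)
      (Λt i 1 * h i 1 * Λt i 0 * w i 0 + w i 1 / h i 1 + Λt i 2 * w i 2))
  set H : ℚ := H₁ + H₂ + H₃ + H₄ + H₅ + H₆ + H₇ with hH_def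
  have hH : 0 < H := by positivity
  have rs := reach_canon a w h a Λs hw hΛs_pos hh H hH hsep_s
    (fun i j => (hb₁ (i, j)).trans (by linarith))
    (fun i => (hb₃ i).trans (by linarith))
    (fun i => (hb₄ i).trans (by linarith))
    (fun i => (hb₅ i).trans (by linarith))
  have rt := reach_canon a w h b Λt hw hΛt_pos hh H hH hsep_t
    (fun i j => (hb₂ (i, j)).trans (by linarith))
    (fun i => (hb₃ i).trans (by linarith))
    (fun i => (hb₆ i).trans (by linarith))
    (fun i => (hb₇ i).trans (by linarith))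
  have hcanon : canonΛ h Λs = canonΛ h Λt := by
    funext i j
    unfold canonΛ
    split_ifs with hj
    · have hv := hvol i
      rw [Fin.prod_univ_three] at hv
      have h0 := (hh i 0).ne'; have h1 := (hh i 1).ne'; have h2 := (hh i 2).ne'
      simp only [hΛs, hΛt]
      field_simp at hv ⊢
      linarith
    · rfl
  rw [hcanon] at rs
  have hid : (fun _ => id : Fin n → V → V) = dstate a a Λs := by
    funext i x j
    simp [dstate, hΛs]
  rw [hid]
  exact reach_trans rs (reach_symm _ rt)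

end Crest.Agent.S0170.Helper88
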