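import Crest.Agent.Lib.S0170.Defs

/-!
# S0170, module M4b `BaseEff` (helper89; imports only `Defs`, complete proofs, no stubs)

Everything lives in the namespace `Crest.Agent.S0170.Helper89`.

* `Helper89.base_contDiff`: `base a₁ b₁ a₂ b₂ c₀ c₁ c₂` is smooth (exact interface type);
* `Helper89.eff1_base_of`: `base …` is `Eff1` when it is compactly supported (`a₁ > 0 > a₂`) or
  the polynomial factor is constant (`c₁ = c₂ = 0`), GIVEN the statements of the modules M1 (four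
  computability facts on `ℚ`), M2 (`stp_approx`), M3 (`stp_bound`) and M4
  (`eff1_of_approx_of_bound`) as hypotheses.  The interface statement `eff1_base` is its
  one-line instantiation.
* the two halves separately: `Helper89.computable_approx` + `Helper89.abs_base_sub_approx_le`
  (computable rational approximation of the values at rational points) and
  `Helper89.computable_bound` + `Helper89.exists_bound` (computable bound of all derivatives).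

Values at rational points: products of the approximations of `stp` given by `stp_approx`.
Derivative bounds: Leibniz rule twice with a monotone majorant of the bound `stp_bound`; the
derivatives of the polynomial factor are bounded on the support of the cut-off.
-/

set_option autoImplicit false

namespace Crest.Agent.S0170

open scoped ContDiff

namespace Helper89

/-! ### Smoothness -/

theorem stp_smooth : ContDiff ℝ ∞ stp := by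
  have h : ContDiff ℝ ((⊤ : ℕ∞) : WithTop ℕ∞) Real.smoothTransition :=
    Real.smoothTransition.contDiff
  exact h

/-- an affinely reparametrised step -/
noncomputable def stepA (a b : ℚ) (x : ℝ) : ℝ := stp ((a : ℝ) * x + (b : ℝ))

/-- the polynomial factor -/
noncomputable def poly (c₀ c₁ c₂ : ℚ) (x : ℝ) : ℝ := (c₀ : ℝ) + (c₁ : ℝ) * x + (c₂ : ℝ) * x ^ 2

theorem stepA_contDiff (a b : ℚ) : ContDiff ℝ ∞ (stepA a b) := by
  unfold stepA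
  exact stp_smooth.comp ((contDiff_const.mul contDiff_id).add contDiff_const)

theorem poly_contDiff (c₀ c₁ c₂ : ℚ) : ContDiff ℝ ∞ (poly c₀ c₁ c₂) := by
  unfold poly
  exact (contDiff_const.add (contDiff_const.mul contDiff_id)).add
    (contDiff_const.mul (contDiff_id.pow 2))

theorem base_eq (a₁ b₁ a₂ b₂ c₀ c₁ c₂ : ℚ) :
    base a₁ b₁ a₂ b₂ c₀ c₁ c₂ = (stepA a₁ b₁ * stepA a₂ b₂) * poly c₀ c₁ c₂ := rfl

/-! ### Derivatives of the factors -/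

theorem iteratedDeriv_stepA (a b : ℚ) (k : ℕ) (x : ℝ) :
    iteratedDeriv k (stepA a b) x = (a : ℝ) ^ k * iteratedDeriv k stp ((a : ℝ) * x + (b : ℝ)) := by
  have h1 : ContDiff ℝ k (fun y : ℝ => stp (y + (b : ℝ))) :=
    (stp_smooth.comp (contDiff_id.add contDiff_const)).of_le (mod_cast le_top)
  have h2 := iteratedDeriv_comp_const_mul h1 (a : ℝ)
  have h3 := iteratedDeriv_comp_add_const k stp (b : ℝ)
  have h4 : stepA a b = fun x : ℝ => (fun y : ℝ => stp (y + (b : ℝ))) ((a : ℝ) * x) := rfl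
  rw [h4, h2, h3]

theorem abs_iteratedDeriv_stepA_le (a b : ℚ) (Bs : ℕ → ℕ)
    (hBs : ∀ (m : ℕ) (x : ℝ), |iteratedDeriv m stp x| ≤ (Bs m : ℝ)) (k : ℕ) (x : ℝ) :
    |iteratedDeriv k (stepA a b) x| ≤ |(a : ℝ)| ^ k * (Bs k : ℝ) := by
  rw [iteratedDeriv_stepA, abs_mul, abs_pow]
  exact mul_le_mul_of_nonneg_left (hBs k _) (by positivity)

/-- Leibniz rule with uniform bounds on the factors. -/
theorem leibniz_bound {f g : ℝ → ℝ} (hf : ContDiff ℝ ∞ f) (hg : ContDiff ℝ ∞ g) (x : ℝ) (m : ℕ)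
    (F G : ℝ) (hF : ∀ i ≤ m, |iteratedDeriv i f x| ≤ F)
    (hG : ∀ i ≤ m, |iteratedDeriv i g x| ≤ G) :
    |iteratedDeriv m (f * g) x| ≤ 2 ^ m * (F * G) := by
  have hF0 : 0 ≤ F := (abs_nonneg _).trans (hF 0 (Nat.zero_le _))
  have hG0 : 0 ≤ G := (abs_nonneg _).trans (hG 0 (Nat.zero_le _))
  rw [iteratedDeriv_mul (hf.contDiffAt.of_le (mod_cast le_top))
    (hg.contDiffAt.of_le (mod_cast le_top))]
  calc |∑ i ∈ Finset.range (m + 1),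
          (m.choose i : ℝ) * iteratedDeriv i f x * iteratedDeriv (m - i) g x|
      ≤ ∑ i ∈ Finset.range (m + 1),
          |(m.choose i : ℝ) * iteratedDeriv i f x * iteratedDeriv (m - i) g x| :=
        Finset.abs_sum_le_sum_abs _ _
    _ ≤ ∑ i ∈ Finset.range (m + 1), (m.choose i : ℝ) * (F * G) := by
        refine Finset.sum_le_sum fun i hi => ?_
        have hi' : i ≤ m := Nat.lt_succ_iff.1 (Finset.mem_range.1 hi)
        rw [abs_mul, abs_mul, Nat.abs_cast, mul_assoc]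
        exact mul_le_mul_of_nonneg_left
          (mul_le_mul (hF i hi') (hG (m - i) (Nat.sub_le _ _)) (abs_nonneg _) hF0)
          (Nat.cast_nonneg _)
    _ = 2 ^ m * (F * G) := by
        rw [← Finset.sum_mul, ← Nat.cast_sum, Nat.sum_range_choose]
        push_cast
        ring

/-! ### Derivatives of the polynomial factor -/

theorem deriv_poly (c₀ c₁ c₂ : ℚ) :
    deriv (poly c₀ c₁ c₂) = fun x : ℝ => (c₁ : ℝ) + 2 * (c₂ : ℝ) * x := by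
  funext x
  have h : HasDerivAt (poly c₀ c₁ c₂) ((c₁ : ℝ) + 2 * (c₂ : ℝ) * x) x := by
    have h1 : HasDerivAt (fun x : ℝ => (c₁ : ℝ) * x) (c₁ : ℝ) x := by
      simpa using (hasDerivAt_id x).const_mul (c₁ : ℝ)
    have h2 : HasDerivAt (fun x : ℝ => (c₂ : ℝ) * x ^ 2) ((c₂ : ℝ) * (2 * x)) x := by
      simpa using ((hasDerivAt_id x).pow 2).const_mul (c₂ : ℝ)
    have h3 : HasDerivAt (poly c₀ c₁ c₂) (0 + (c₁ : ℝ) + (c₂ : ℝ) * (2 * x)) x :=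
      ((hasDerivAt_const x (c₀ : ℝ)).add h1).add h2
    have h4 : (0 + (c₁ : ℝ) + (c₂ : ℝ) * (2 * x)) = (c₁ : ℝ) + 2 * (c₂ : ℝ) * x := by ring
    rw [h4] at h3
    exact h3
  exact h.deriv

theorem deriv2_poly (c₀ c₁ c₂ : ℚ) :
    deriv (deriv (poly c₀ c₁ c₂)) = fun _ : ℝ => 2 * (c₂ : ℝ) := by
  rw [deriv_poly]
  funext x
  have h : HasDerivAt (fun x : ℝ => (c₁ : ℝ) + 2 * (c₂ : ℝ) * x) (2 * (c₂ : ℝ)) x := by
    simpa using ((hasDerivAt_id x).const_mul (2 * (c₂ : ℝ))).const_add (c₁ : ℝ)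
  exact h.deriv

theorem abs_iteratedDeriv_poly_le (c₀ c₁ c₂ : ℚ) (k : ℕ) (x : ℝ) :
    |iteratedDeriv k (poly c₀ c₁ c₂) x| ≤
      |(c₀ : ℝ)| + |(c₁ : ℝ)| * (|x| + 1) + 2 * |(c₂ : ℝ)| * (|x| + 1) ^ 2 := by
  have hx := abs_nonneg x
  have h0 := abs_nonneg (c₀ : ℝ)
  have h1 := abs_nonneg (c₁ : ℝ)
  have h2 := abs_nonneg (c₂ : ℝ)
  rcases k with _ | _ | _ | k
  · rw [iteratedDeriv_zero]
    unfold poly
    calc |(c₀ : ℝ) + (c₁ : ℝ) * x + (c₂ : ℝ) * x ^ 2|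
        ≤ |(c₀ : ℝ)| + |(c₁ : ℝ) * x| + |(c₂ : ℝ) * x ^ 2| := abs_add_three _ _ _
      _ = |(c₀ : ℝ)| + |(c₁ : ℝ)| * |x| + |(c₂ : ℝ)| * |x| ^ 2 := by
          rw [abs_mul, abs_mul, abs_pow]
      _ ≤ _ := by nlinarith [mul_nonneg h1 hx, mul_nonneg h2 hx, mul_nonneg h2 (sq_nonneg |x|)]
  · rw [iteratedDeriv_succ, iteratedDeriv_zero, deriv_poly]
    calc |(c₁ : ℝ) + 2 * (c₂ : ℝ) * x| ≤ |(c₁ : ℝ)| + |2 * (c₂ : ℝ) * x| := abs_add_le _ _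
      _ = |(c₁ : ℝ)| + 2 * |(c₂ : ℝ)| * |x| := by
          rw [abs_mul, abs_mul, abs_two]
      _ ≤ _ := by nlinarith [mul_nonneg h1 hx, mul_nonneg h2 hx, mul_nonneg h2 (sq_nonneg |x|)]
  · rw [iteratedDeriv_succ, iteratedDeriv_succ, iteratedDeriv_zero, deriv2_poly]
    show |2 * (c₂ : ℝ)| ≤ _
    rw [abs_mul, abs_two]
    nlinarith [mul_nonneg h1 hx, mul_nonneg h2 hx, mul_nonneg h2 (sq_nonneg |x|)]
  · rw [iteratedDeriv_succ', iteratedDeriv_succ', iteratedDeriv_succ', deriv2_poly]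
    have h3 : deriv (fun _ : ℝ => 2 * (c₂ : ℝ)) = fun _ : ℝ => (0 : ℝ) := by
      funext y
      simp
    rw [h3, iteratedDeriv_fun_const_zero, abs_zero]
    positivity

/-! ### The computable bound -/

/-- monotone majorant of a sequence of natural numbers -/
def majorant (Bs : ℕ → ℕ) (m : ℕ) : ℕ := ∑ k ∈ Finset.range (m + 1), Bs k

theorem le_majorant (Bs : ℕ → ℕ) {i m : ℕ} (h : i ≤ m) : Bs i ≤ majorant Bs m :=
  Finset.single_le_sum (f := Bs) (fun _ _ => Nat.zero_le _)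
    (Finset.mem_range.2 (Nat.lt_succ_of_le h))

theorem computable_nat_mul : Computable₂ (fun a b : ℕ => a * b) := Primrec.nat_mul.to_comp

theorem computable_nat_add : Computable₂ (fun a b : ℕ => a + b) := Primrec.nat_add.to_comp

theorem computable_const_pow (c : ℕ) : Computable (fun m : ℕ => c ^ m) := by
  have hh : Computable₂ (fun (_ : ℕ) (p : ℕ × ℕ) => p.2 * c) :=
    (computable_nat_mul.comp (Computable.snd.comp Computable.snd) (Computable.const c)).to₂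
  have h := Computable.nat_rec (f := fun m : ℕ => m) (g := fun _ : ℕ => (1 : ℕ))
    (h := fun (_ : ℕ) (p : ℕ × ℕ) => p.2 * c) Computable.id (Computable.const 1) hh
  refine h.of_eq fun m => ?_
  induction m with
  | zero => simp
  | succ k ih =>
    show Nat.rec (motive := fun _ => ℕ) 1 (fun y IH => IH * c) k * c = c ^ (k + 1)
    rw [ih, pow_succ]

theorem computable_majorant {Bs : ℕ → ℕ} (hBs : Computable Bs) : Computable (majorant Bs) := by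
  have hh : Computable₂ (fun (_ : ℕ) (p : ℕ × ℕ) => p.2 + Bs (p.1 + 1)) :=
    (computable_nat_add.comp (Computable.snd.comp Computable.snd)
      (hBs.comp (Computable.succ.comp (Computable.fst.comp Computable.snd)))).to₂
  have h := Computable.nat_rec (f := fun m : ℕ => m) (g := fun _ : ℕ => Bs 0)
    (h := fun (_ : ℕ) (p : ℕ × ℕ) => p.2 + Bs (p.1 + 1)) Computable.id (Computable.const (Bs 0)) hh
  refine h.of_eq fun m => ?_
  induction m with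
  | zero => simp [majorant]
  | succ k ih =>
    show Nat.rec (motive := fun _ => ℕ) (Bs 0) (fun y IH => IH + Bs (y + 1)) k + Bs (k + 1)
      = majorant Bs (k + 1)
    rw [ih, majorant, majorant, Finset.sum_range_succ _ (k + 1)]

/-- the bound for the `m`-th derivative of `base` -/
def bound (A Qn : ℕ) (Bs : ℕ → ℕ) (m : ℕ) : ℕ :=
  2 ^ m * ((2 ^ m * ((A ^ m * majorant Bs m) * (A ^ m * majorant Bs m))) * Qn)

theorem computable_bound (A Qn : ℕ) {Bs : ℕ → ℕ} (hBs : Computable Bs) :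
    Computable (bound A Qn Bs) := by
  have hF : Computable (fun m : ℕ => A ^ m * majorant Bs m) :=
    computable_nat_mul.comp (computable_const_pow A) (computable_majorant hBs)
  have h2 : Computable (fun m : ℕ => 2 ^ m) := computable_const_pow 2
  exact computable_nat_mul.comp h2
    (computable_nat_mul.comp (computable_nat_mul.comp h2 (computable_nat_mul.comp hF hF))
      (Computable.const Qn))

theorem abs_iteratedDeriv_base_le (a₁ b₁ a₂ b₂ c₀ c₁ c₂ : ℚ) (Bs : ℕ → ℕ)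
    (hBs : ∀ (m : ℕ) (x : ℝ), |iteratedDeriv m stp x| ≤ (Bs m : ℝ))
    (A : ℕ) (hA : 1 ≤ A) (ha₁ : |(a₁ : ℝ)| ≤ (A : ℝ)) (ha₂ : |(a₂ : ℝ)| ≤ (A : ℝ))
    (Qn : ℕ) (x : ℝ) (hQ : ∀ k, |iteratedDeriv k (poly c₀ c₁ c₂) x| ≤ (Qn : ℝ)) (m : ℕ) :
    |iteratedDeriv m (base a₁ b₁ a₂ b₂ c₀ c₁ c₂) x| ≤ (bound A Qn Bs m : ℝ) := by
  have hA' : (1 : ℝ) ≤ (A : ℝ) := by exact_mod_cast hA
  set F : ℝ := (A : ℝ) ^ m * (majorant Bs m : ℝ) with hFdef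
  have hF0 : 0 ≤ F := by positivity
  have hstep : ∀ (a b : ℚ), |(a : ℝ)| ≤ (A : ℝ) → ∀ i ≤ m,
      |iteratedDeriv i (stepA a b) x| ≤ F := by
    intro a b ha i hi
    refine (abs_iteratedDeriv_stepA_le a b Bs hBs i x).trans ?_
    have h1 : |(a : ℝ)| ^ i ≤ (A : ℝ) ^ m :=
      (pow_le_pow_left₀ (abs_nonneg _) ha i).trans (pow_le_pow_right₀ hA' hi)
    have h2 : (Bs i : ℝ) ≤ (majorant Bs m : ℝ) := by exact_mod_cast le_majorant Bs hi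
    exact mul_le_mul h1 h2 (Nat.cast_nonneg _) (by positivity)
  have huv : ∀ i ≤ m, |iteratedDeriv i (stepA a₁ b₁ * stepA a₂ b₂) x| ≤ 2 ^ m * (F * F) := by
    intro i hi
    refine (leibniz_bound (stepA_contDiff a₁ b₁) (stepA_contDiff a₂ b₂) x i F F
      (fun j hj => hstep a₁ b₁ ha₁ j (hj.trans hi))
      (fun j hj => hstep a₂ b₂ ha₂ j (hj.trans hi))).trans ?_
    exact mul_le_mul_of_nonneg_right (pow_le_pow_right₀ one_le_two hi) (mul_nonneg hF0 hF0)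
  have hfin := leibniz_bound ((stepA_contDiff a₁ b₁).mul (stepA_contDiff a₂ b₂))
    (poly_contDiff c₀ c₁ c₂) x m (2 ^ m * (F * F)) (Qn : ℝ) huv (fun k _ => hQ k)
  rw [base_eq]
  refine hfin.trans (le_of_eq ?_)
  rw [hFdef]
  unfold bound
  push_cast
  ring

/-- outside the support of one of the steps all derivatives of `base` vanish -/
theorem iteratedDeriv_base_eq_zero (a₁ b₁ a₂ b₂ c₀ c₁ c₂ : ℚ) (m : ℕ) (x : ℝ)
    (hx : (a₁ : ℝ) * x + (b₁ : ℝ) < 0 ∨ (a₂ : ℝ) * x + (b₂ : ℝ) < 0) :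
    iteratedDeriv m (base a₁ b₁ a₂ b₂ c₀ c₁ c₂) x = 0 := by
  have hev : base a₁ b₁ a₂ b₂ c₀ c₁ c₂ =ᶠ[nhds x] fun _ => (0 : ℝ) := by
    rcases hx with hx | hx
    · have ho : IsOpen {y : ℝ | (a₁ : ℝ) * y + (b₁ : ℝ) < 0} :=
        isOpen_lt (by fun_prop) continuous_const
      filter_upwards [ho.mem_nhds hx] with y hy
      have hy' : (a₁ : ℝ) * y + (b₁ : ℝ) ≤ 0 := le_of_lt hy
      simp only [base, stp, Real.smoothTransition.zero_of_nonpos hy', zero_mul]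
    · have ho : IsOpen {y : ℝ | (a₂ : ℝ) * y + (b₂ : ℝ) < 0} :=
        isOpen_lt (by fun_prop) continuous_const
      filter_upwards [ho.mem_nhds hx] with y hy
      have hy' : (a₂ : ℝ) * y + (b₂ : ℝ) ≤ 0 := le_of_lt hy
      simp only [base, stp, Real.smoothTransition.zero_of_nonpos hy', zero_mul, mul_zero]
  rw [hev.iteratedDeriv_eq m, iteratedDeriv_fun_const_zero]

/-- the global derivative bound -/
theorem exists_bound (a₁ b₁ a₂ b₂ c₀ c₁ c₂ : ℚ) (h : (0 < a₁ ∧ a₂ < 0) ∨ (c₁ = 0 ∧ c₂ = 0))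
    (Bs : ℕ → ℕ) (hBs : ∀ (m : ℕ) (x : ℝ), |iteratedDeriv m stp x| ≤ (Bs m : ℝ)) :
    ∃ A Qn : ℕ, ∀ (m : ℕ) (x : ℝ),
      |iteratedDeriv m (base a₁ b₁ a₂ b₂ c₀ c₁ c₂) x| ≤ (bound A Qn Bs m : ℝ) := by
  set M : ℝ := |(b₁ : ℝ) / (a₁ : ℝ)| + |(b₂ : ℝ) / (a₂ : ℝ)| with hM
  have hM0 : 0 ≤ M := by positivity
  set Q : ℝ := |(c₀ : ℝ)| + |(c₁ : ℝ)| * (M + 1) + 2 * |(c₂ : ℝ)| * (M + 1) ^ 2 with hQdef
  have hQ0 : 0 ≤ Q := by positivity
  refine ⟨⌈|(a₁ : ℝ)|⌉₊ + ⌈|(a₂ : ℝ)|⌉₊ + 1, ⌈Q⌉₊, fun m x => ?_⟩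
  have hA : 1 ≤ ⌈|(a₁ : ℝ)|⌉₊ + ⌈|(a₂ : ℝ)|⌉₊ + 1 := Nat.le_add_left _ _
  have ha₁ : |(a₁ : ℝ)| ≤ ((⌈|(a₁ : ℝ)|⌉₊ + ⌈|(a₂ : ℝ)|⌉₊ + 1 : ℕ) : ℝ) := by
    have := Nat.le_ceil |(a₁ : ℝ)|
    push_cast
    have h2 : (0 : ℝ) ≤ (⌈|(a₂ : ℝ)|⌉₊ : ℝ) := Nat.cast_nonneg _
    linarith
  have ha₂ : |(a₂ : ℝ)| ≤ ((⌈|(a₁ : ℝ)|⌉₊ + ⌈|(a₂ : ℝ)|⌉₊ + 1 : ℕ) : ℝ) := by
    have := Nat.le_ceil |(a₂ : ℝ)|
    push_cast
    have h2 : (0 : ℝ) ≤ (⌈|(a₁ : ℝ)|⌉₊ : ℝ) := Nat.cast_nonneg _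
    linarith
  have hQn : Q ≤ (⌈Q⌉₊ : ℝ) := Nat.le_ceil Q
  -- it suffices to bound the derivatives of the polynomial factor at `x` by `Q`
  have key : (∀ k, |iteratedDeriv k (poly c₀ c₁ c₂) x| ≤ Q) →
      |iteratedDeriv m (base a₁ b₁ a₂ b₂ c₀ c₁ c₂) x| ≤
        (bound (⌈|(a₁ : ℝ)|⌉₊ + ⌈|(a₂ : ℝ)|⌉₊ + 1) ⌈Q⌉₊ Bs m : ℝ) := fun hk =>
    abs_iteratedDeriv_base_le a₁ b₁ a₂ b₂ c₀ c₁ c₂ Bs hBs _ hA ha₁ ha₂ ⌈Q⌉₊ x
      (fun k => (hk k).trans hQn) m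
  rcases h with ⟨h1, h2⟩ | ⟨h1, h2⟩
  · -- compactly supported case
    by_cases hx1 : (a₁ : ℝ) * x + (b₁ : ℝ) < 0
    · rw [iteratedDeriv_base_eq_zero a₁ b₁ a₂ b₂ c₀ c₁ c₂ m x (Or.inl hx1), abs_zero]
      exact Nat.cast_nonneg _
    by_cases hx2 : (a₂ : ℝ) * x + (b₂ : ℝ) < 0
    · rw [iteratedDeriv_base_eq_zero a₁ b₁ a₂ b₂ c₀ c₁ c₂ m x (Or.inr hx2), abs_zero]
      exact Nat.cast_nonneg _
    have hx1' : 0 ≤ (a₁ : ℝ) * x + (b₁ : ℝ) := not_lt.1 hx1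
    have hx2' : 0 ≤ (a₂ : ℝ) * x + (b₂ : ℝ) := not_lt.1 hx2
    have ha₁' : (0 : ℝ) < (a₁ : ℝ) := by exact_mod_cast h1
    have ha₂' : (a₂ : ℝ) < 0 := by exact_mod_cast h2
    have hxM : |x| ≤ M := by
      have e1 : x = ((a₁ : ℝ) * x + (b₁ : ℝ)) / (a₁ : ℝ) - (b₁ : ℝ) / (a₁ : ℝ) := by
        field_simp
        ring
      have e2 : x = ((a₂ : ℝ) * x + (b₂ : ℝ)) / (a₂ : ℝ) - (b₂ : ℝ) / (a₂ : ℝ) := by
        have : (a₂ : ℝ) ≠ 0 := ne_of_lt ha₂'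
        field_simp
        ring
      have p1 : 0 ≤ ((a₁ : ℝ) * x + (b₁ : ℝ)) / (a₁ : ℝ) := div_nonneg hx1' ha₁'.le
      have p2 : ((a₂ : ℝ) * x + (b₂ : ℝ)) / (a₂ : ℝ) ≤ 0 :=
        div_nonpos_of_nonneg_of_nonpos hx2' ha₂'.le
      have q1 := le_abs_self ((b₁ : ℝ) / (a₁ : ℝ))
      have q2 := neg_abs_le ((b₂ : ℝ) / (a₂ : ℝ))
      have q3 := abs_nonneg ((b₁ : ℝ) / (a₁ : ℝ))
      have q4 := abs_nonneg ((b₂ : ℝ) / (a₂ : ℝ))
      rw [abs_le]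
      constructor <;> linarith
    refine key fun k => (abs_iteratedDeriv_poly_le c₀ c₁ c₂ k x).trans ?_
    have hx0 := abs_nonneg x
    rw [hQdef]
    gcongr
  · -- constant polynomial factor
    refine key fun k => (abs_iteratedDeriv_poly_le c₀ c₁ c₂ k x).trans ?_
    rw [hQdef, h1, h2]
    simp

/-! ### Values at rational points -/

/-- the polynomial factor at a rational point -/
def polyQ (c₀ c₁ c₂ q : ℚ) : ℚ := c₀ + c₁ * q + c₂ * (q * q)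

/-- the precision requested from the approximation of `stp` -/
def prec (c₀ c₁ c₂ q : ℚ) (n : ℕ) : ℕ := 3 * (⌈|polyQ c₀ c₁ c₂ q|⌉₊ + 1) * (n + 1)

/-- the approximation of `base` at rational points -/
def approx (As : ℚ × ℕ → ℚ) (a₁ b₁ a₂ b₂ c₀ c₁ c₂ : ℚ) (p : ℚ × ℕ) : ℚ :=
  As (a₁ * p.1 + b₁, prec c₀ c₁ c₂ p.1 p.2) * As (a₂ * p.1 + b₂, prec c₀ c₁ c₂ p.1 p.2) *
    polyQ c₀ c₁ c₂ p.1

section Comp

variable (hadd : Computable₂ (fun a b : ℚ => a + b)) (hmul : Computable₂ (fun a b : ℚ => a * b))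
  (habs : Computable (fun a : ℚ => |a|)) (hceil : Computable (fun a : ℚ => ⌈a⌉₊))

include hadd hmul in
theorem computable_polyQ (c₀ c₁ c₂ : ℚ) : Computable (fun p : ℚ × ℕ => polyQ c₀ c₁ c₂ p.1) := by
  have hq : Computable (fun p : ℚ × ℕ => p.1) := Computable.fst
  exact hadd.comp
    (hadd.comp (Computable.const c₀) (hmul.comp (Computable.const c₁) hq))
    (hmul.comp (Computable.const c₂) (hmul.comp hq hq))

include hadd hmul habs hceil in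
theorem computable_prec (c₀ c₁ c₂ : ℚ) :
    Computable (fun p : ℚ × ℕ => prec c₀ c₁ c₂ p.1 p.2) := by
  have h1 : Computable (fun p : ℚ × ℕ => ⌈|polyQ c₀ c₁ c₂ p.1|⌉₊) :=
    hceil.comp (habs.comp (computable_polyQ hadd hmul c₀ c₁ c₂))
  have h2 : Computable (fun p : ℚ × ℕ => ⌈|polyQ c₀ c₁ c₂ p.1|⌉₊ + 1) := Computable.succ.comp h1
  have h3 : Computable (fun p : ℚ × ℕ => p.2 + 1) := Computable.succ.comp Computable.snd
  exact computable_nat_mul.comp (computable_nat_mul.comp (Computable.const 3) h2) h3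

include hadd hmul habs hceil in
theorem computable_approx {As : ℚ × ℕ → ℚ} (hAs : Computable As) (a₁ b₁ a₂ b₂ c₀ c₁ c₂ : ℚ) :
    Computable (approx As a₁ b₁ a₂ b₂ c₀ c₁ c₂) := by
  have hq : Computable (fun p : ℚ × ℕ => p.1) := Computable.fst
  have hN := computable_prec hadd hmul habs hceil c₀ c₁ c₂
  have hlin : ∀ a b : ℚ, Computable (fun p : ℚ × ℕ => a * p.1 + b) := fun a b =>
    hadd.comp (hmul.comp (Computable.const a) hq) (Computable.const b)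
  have hs : ∀ a b : ℚ, Computable (fun p : ℚ × ℕ => As (a * p.1 + b, prec c₀ c₁ c₂ p.1 p.2)) :=
    fun a b => hAs.comp (Computable.pair (hlin a b) hN)
  exact hmul.comp (hmul.comp (hs a₁ b₁) (hs a₂ b₂))
    (computable_polyQ hadd hmul c₀ c₁ c₂)

end Comp

theorem abs_base_sub_approx_le (As : ℚ × ℕ → ℚ)
    (hAs : ∀ (q : ℚ) (n : ℕ), |stp (q : ℝ) - (As (q, n) : ℝ)| ≤ 1 / ((n : ℝ) + 1))
    (a₁ b₁ a₂ b₂ c₀ c₁ c₂ : ℚ) (q : ℚ) (n : ℕ) :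
    |base a₁ b₁ a₂ b₂ c₀ c₁ c₂ (q : ℝ) - (approx As a₁ b₁ a₂ b₂ c₀ c₁ c₂ (q, n) : ℝ)| ≤
      1 / ((n : ℝ) + 1) := by
  set N : ℕ := prec c₀ c₁ c₂ q n with hN
  set K : ℕ := ⌈|polyQ c₀ c₁ c₂ q|⌉₊ + 1 with hK
  have hNK : (N : ℝ) = 3 * (K : ℝ) * ((n : ℝ) + 1) := by
    rw [hN, hK]
    unfold prec
    push_cast
    ring
  have hK1 : (1 : ℝ) ≤ (K : ℝ) := by
    rw [hK]
    push_cast
    have : (0 : ℝ) ≤ (⌈|polyQ c₀ c₁ c₂ q|⌉₊ : ℝ) := Nat.cast_nonneg _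
    linarith
  have hn0 : (0 : ℝ) ≤ (n : ℝ) := Nat.cast_nonneg _
  set p : ℝ := (polyQ c₀ c₁ c₂ q : ℝ) with hp
  have hpK : |p| ≤ (K : ℝ) := by
    have h1 : |polyQ c₀ c₁ c₂ q| ≤ ((⌈|polyQ c₀ c₁ c₂ q|⌉₊ : ℕ) : ℚ) := Nat.le_ceil _
    have h2 : ((|polyQ c₀ c₁ c₂ q| : ℚ) : ℝ) ≤ (((⌈|polyQ c₀ c₁ c₂ q|⌉₊ : ℕ) : ℚ) : ℝ) :=
      Rat.cast_le.2 h1
    rw [Rat.cast_abs, Rat.cast_natCast] at h2
    rw [hK]
    push_cast
    linarith
  set s₁ : ℝ := stp ((a₁ : ℝ) * (q : ℝ) + (b₁ : ℝ)) with hs₁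
  set s₂ : ℝ := stp ((a₂ : ℝ) * (q : ℝ) + (b₂ : ℝ)) with hs₂
  set σ₁ : ℝ := (As (a₁ * q + b₁, N) : ℝ) with hσ₁
  set σ₂ : ℝ := (As (a₂ * q + b₂, N) : ℝ) with hσ₂
  set ε : ℝ := 1 / ((N : ℝ) + 1) with hε
  have hN0 : (0 : ℝ) ≤ (N : ℝ) := Nat.cast_nonneg _
  have hε0 : 0 ≤ ε := by positivity
  have hε1 : ε ≤ 1 := by
    rw [hε, div_le_one (by positivity)]
    linarith
  have e₁ : |s₁ - σ₁| ≤ ε := by
    have := hAs (a₁ * q + b₁) N
    rw [hs₁, hσ₁, hε]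
    convert this using 3
    push_cast
    ring
  have e₂ : |s₂ - σ₂| ≤ ε := by
    have := hAs (a₂ * q + b₂) N
    rw [hs₂, hσ₂, hε]
    convert this using 3
    push_cast
    ring
  have b₁0 : 0 ≤ s₁ := Real.smoothTransition.nonneg _
  have b₁1 : s₁ ≤ 1 := Real.smoothTransition.le_one _
  have b₂0 : 0 ≤ s₂ := Real.smoothTransition.nonneg _
  have b₂1 : s₂ ≤ 1 := Real.smoothTransition.le_one _
  have hbase : base a₁ b₁ a₂ b₂ c₀ c₁ c₂ (q : ℝ) = s₁ * s₂ * p := by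
    rw [hs₁, hs₂, hp, polyQ]
    unfold base
    push_cast
    ring
  have happ : (approx As a₁ b₁ a₂ b₂ c₀ c₁ c₂ (q, n) : ℝ) = σ₁ * σ₂ * p := by
    rw [hσ₁, hσ₂, hp]
    unfold approx
    push_cast
    rfl
  rw [hbase, happ]
  have hdiff : s₁ * s₂ * p - σ₁ * σ₂ * p = (s₁ * (s₂ - σ₂) + σ₂ * (s₁ - σ₁)) * p := by ring
  have hσ₂abs : |σ₂| ≤ 2 := by
    have h1 : |σ₂| ≤ |s₂| + |s₂ - σ₂| := by
      have := abs_sub_abs_le_abs_sub σ₂ s₂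
      rw [abs_sub_comm σ₂ s₂] at this
      linarith
    rw [abs_of_nonneg b₂0] at h1
    linarith
  have hmain : |s₁ * (s₂ - σ₂) + σ₂ * (s₁ - σ₁)| ≤ 3 * ε := by
    calc |s₁ * (s₂ - σ₂) + σ₂ * (s₁ - σ₁)| ≤ |s₁ * (s₂ - σ₂)| + |σ₂ * (s₁ - σ₁)| := abs_add_le _ _
      _ = |s₁| * |s₂ - σ₂| + |σ₂| * |s₁ - σ₁| := by rw [abs_mul, abs_mul]
      _ ≤ 1 * ε + 2 * ε := by
          have : |s₁| ≤ 1 := by rw [abs_of_nonneg b₁0]; exact b₁1
          exact add_le_add (mul_le_mul this e₂ (abs_nonneg _) zero_le_one)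
            (mul_le_mul hσ₂abs e₁ (abs_nonneg _) zero_le_two)
      _ = 3 * ε := by ring
  rw [hdiff, abs_mul]
  calc |s₁ * (s₂ - σ₂) + σ₂ * (s₁ - σ₁)| * |p| ≤ 3 * ε * (K : ℝ) :=
        mul_le_mul hmain hpK (abs_nonneg _) (by positivity)
    _ ≤ 1 / ((n : ℝ) + 1) := by
        rw [hε, hNK]
        have hpos : (0 : ℝ) < 3 * (K : ℝ) * ((n : ℝ) + 1) + 1 := by positivity
        rw [le_div_iff₀ (by positivity)]
        have : 3 * (1 / (3 * (K : ℝ) * ((n : ℝ) + 1) + 1)) * (K : ℝ) * ((n : ℝ) + 1)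
            = (3 * (K : ℝ) * ((n : ℝ) + 1)) / (3 * (K : ℝ) * ((n : ℝ) + 1) + 1) := by
          field_simp
        rw [this, div_le_one hpos]
        linarith

/-! ### Smoothness of `base` (interface statement) -/

theorem base_contDiff (a₁ b₁ a₂ b₂ c₀ c₁ c₂ : ℚ) :
    ContDiff ℝ ∞ (base a₁ b₁ a₂ b₂ c₀ c₁ c₂) := by
  rw [base_eq]
  exact ((stepA_contDiff a₁ b₁).mul (stepA_contDiff a₂ b₂)).mul
    (poly_contDiff c₀ c₁ c₂)

/-- `eff1_base`, with the statements of the modules M1, M2, M3, M4 it uses as hypotheses. -/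
theorem eff1_base_of
    (hadd : Computable₂ (fun a b : ℚ => a + b)) (hmul : Computable₂ (fun a b : ℚ => a * b))
    (habs : Computable (fun a : ℚ => |a|)) (hceil : Computable (fun a : ℚ => ⌈a⌉₊))
    (happrox : ∃ A₀ : ℚ × ℕ → ℚ, Computable A₀ ∧
      ∀ (q : ℚ) (n : ℕ), |stp (q : ℝ) - (A₀ (q, n) : ℝ)| ≤ 1 / ((n : ℝ) + 1))
    (hbound : ∃ B : ℕ → ℕ, Computable B ∧
      ∀ (m : ℕ) (x : ℝ), |iteratedDeriv m stp x| ≤ (B m : ℝ))
    (hfd : ∀ {f : ℝ → ℝ}, ContDiff ℝ ∞ f → ∀ A₀ : ℚ × ℕ → ℚ, Computable A₀ →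
      (∀ (q : ℚ) (n : ℕ), |f (q : ℝ) - (A₀ (q, n) : ℝ)| ≤ 1 / ((n : ℝ) + 1)) →
      ∀ B : ℕ → ℕ, Computable B → (∀ (m : ℕ) (x : ℝ), |iteratedDeriv m f x| ≤ (B m : ℝ)) →
      Eff1 f)
    (a₁ b₁ a₂ b₂ c₀ c₁ c₂ : ℚ) (h : (0 < a₁ ∧ a₂ < 0) ∨ (c₁ = 0 ∧ c₂ = 0)) :
    Eff1 (base a₁ b₁ a₂ b₂ c₀ c₁ c₂) := by
  obtain ⟨As, hAs, hAs'⟩ := happrox
  obtain ⟨Bs, hBs, hBs'⟩ := hbound
  obtain ⟨A, Qn, hB⟩ := exists_bound a₁ b₁ a₂ b₂ c₀ c₁ c₂ h Bs hBs'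
  exact hfd (base_contDiff a₁ b₁ a₂ b₂ c₀ c₁ c₂)
    (approx As a₁ b₁ a₂ b₂ c₀ c₁ c₂)
    (computable_approx hadd hmul habs hceil hAs a₁ b₁ a₂ b₂ c₀ c₁ c₂)
    (abs_base_sub_approx_le As hAs' a₁ b₁ a₂ b₂ c₀ c₁ c₂)
    (bound A Qn Bs) (computable_bound A Qn hBs) hB

end Helper89

end Crest.Agent.S0170
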