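import Crest.Agent.Lib.S0170.Helper94FinDiff
import Crest.Agent.Lib.S0170.Helper51CompQ

/-!
# S0170, module M4 `FinDiff`: the interface statement `eff1_of_approx_of_bound` (helper94)

Glue of `Helper94.eff1_of_approx_of_bound_core` with the `ℚ`-computability toolkit
`Helper51CompQ` (module M1).
-/

set_option autoImplicit false

namespace Crest.Agent.S0170.Helper94

open scoped ContDiff

/-- Value approximations at rational points and computable bounds for all derivatives give
`Eff1` (exact interface type). -/
theorem eff1_of_approx_of_bound {f : ℝ → ℝ} (hf : ContDiff ℝ ∞ f)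
    (A₀ : ℚ × ℕ → ℚ) (hA : Computable A₀)
    (hA' : ∀ (q : ℚ) (n : ℕ), |f (q : ℝ) - (A₀ (q, n) : ℝ)| ≤ 1 / ((n : ℝ) + 1))
    (B : ℕ → ℕ) (hB : Computable B) (hB' : ∀ (m : ℕ) (x : ℝ), |iteratedDeriv m f x| ≤ (B m : ℝ)) :
    Eff1 f :=
  eff1_of_approx_of_bound_core Helper51.computable_rat_add Helper51.computable_rat_mul
    Helper51.computable_rat_div Helper51.computable_rat_pow Helper51.computable_rat_natCast
    (fun hf hk => Helper51.computable_rat_sum_range hf hk) hf A₀ hA hA' B hB hB'

end Crest.Agent.S0170.Helper94
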