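import Crest.Agent.Lib.S0170.Defs

/-!
# S0170, M1c (arithmetic half): computable rational arithmetic from the encoding core

`Core` bundles the M1a facts (numerator, denominator, `z / d`) and the M1b facts (integer
arithmetic).  From them we derive that all field operations and comparisons of `ℚ` are
`Computable` (with respect to `Primcodable.ofDenumerable ℚ`).
-/

set_option autoImplicit false

namespace Crest.Agent.S0170.Helper96

/-- The encoding core: statements of M1a and M1b. -/
structure Core : Prop where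
  rat_num : Computable (fun q : ℚ => q.num)
  rat_den : Computable (fun q : ℚ => q.den)
  rat_divInt : Computable₂ (fun (z : ℤ) (d : ℕ) => (z : ℚ) / (d : ℚ))
  int_add : Computable₂ (fun a b : ℤ => a + b)
  int_mul : Computable₂ (fun a b : ℤ => a * b)
  int_neg : Computable (fun a : ℤ => -a)
  int_natAbs : Computable (fun a : ℤ => a.natAbs)
  int_ofNat : Computable (fun a : ℕ => (a : ℤ))
  int_le : Computable₂ (fun a b : ℤ => decide (a ≤ b))

theorem den_cast_ne_zero (a : ℚ) : (a.den : ℚ) ≠ 0 := by
  exact_mod_cast a.den_ne_zero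

theorem rat_add (H : Core) : Computable₂ (fun a b : ℚ => a + b) := by
  have h : Computable (fun p : ℚ × ℚ =>
      ((p.1.num * (p.2.den : ℤ) + p.2.num * (p.1.den : ℤ) : ℤ) : ℚ) /
        ((p.1.den * p.2.den : ℕ) : ℚ)) :=
    H.rat_divInt.comp
      (H.int_add.comp
        (H.int_mul.comp (H.rat_num.comp Computable.fst)
          (H.int_ofNat.comp (H.rat_den.comp Computable.snd)))
        (H.int_mul.comp (H.rat_num.comp Computable.snd)
          (H.int_ofNat.comp (H.rat_den.comp Computable.fst))))
      (Primrec.nat_mul.to_comp.comp (H.rat_den.comp Computable.fst)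
        (H.rat_den.comp Computable.snd))
  refine h.of_eq fun p => ?_
  obtain ⟨a, b⟩ := p
  have ha := den_cast_ne_zero a
  have hb := den_cast_ne_zero b
  show _ = a + b
  conv_rhs => rw [← Rat.num_div_den a, ← Rat.num_div_den b]
  push_cast
  field_simp

theorem rat_mul (H : Core) : Computable₂ (fun a b : ℚ => a * b) := by
  have h : Computable (fun p : ℚ × ℚ =>
      ((p.1.num * p.2.num : ℤ) : ℚ) / ((p.1.den * p.2.den : ℕ) : ℚ)) :=
    H.rat_divInt.comp
      (H.int_mul.comp (H.rat_num.comp Computable.fst) (H.rat_num.comp Computable.snd))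
      (Primrec.nat_mul.to_comp.comp (H.rat_den.comp Computable.fst)
        (H.rat_den.comp Computable.snd))
  refine h.of_eq fun p => ?_
  obtain ⟨a, b⟩ := p
  have ha := den_cast_ne_zero a
  have hb := den_cast_ne_zero b
  show _ = a * b
  conv_rhs => rw [← Rat.num_div_den a, ← Rat.num_div_den b]
  push_cast
  field_simp

theorem rat_neg (H : Core) : Computable (fun a : ℚ => -a) := by
  have h : Computable (fun a : ℚ => ((-a.num : ℤ) : ℚ) / ((a.den : ℕ) : ℚ)) :=
    H.rat_divInt.comp (H.int_neg.comp H.rat_num) H.rat_den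
  refine h.of_eq fun a => ?_
  have ha := den_cast_ne_zero a
  show _ = -a
  conv_rhs => rw [← Rat.num_div_den a]
  push_cast
  field_simp

theorem rat_sub (H : Core) : Computable₂ (fun a b : ℚ => a - b) := by
  have h : Computable (fun p : ℚ × ℚ => p.1 + -p.2) :=
    (rat_add H).comp Computable.fst ((rat_neg H).comp Computable.snd)
  exact h.of_eq fun p => (sub_eq_add_neg _ _).symm

theorem rat_inv (H : Core) : Computable (fun a : ℚ => a⁻¹) := by
  have h : Computable (fun a : ℚ =>
      ((a.num * (a.den : ℤ) : ℤ) : ℚ) / ((a.num.natAbs * a.num.natAbs : ℕ) : ℚ)) :=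
    H.rat_divInt.comp (H.int_mul.comp H.rat_num (H.int_ofNat.comp H.rat_den))
      (Primrec.nat_mul.to_comp.comp (H.int_natAbs.comp H.rat_num) (H.int_natAbs.comp H.rat_num))
  refine h.of_eq fun a => ?_
  have ha := den_cast_ne_zero a
  show _ = a⁻¹
  have habs : ((a.num.natAbs : ℕ) : ℚ) = |(a.num : ℚ)| := by
    rw [Nat.cast_natAbs, Int.cast_abs]
  by_cases h0 : a.num = 0
  · have : a = 0 := Rat.num_eq_zero.mp h0
    subst this
    simp
  · have hn : (a.num : ℚ) ≠ 0 := by exact_mod_cast h0
    conv_rhs => rw [← Rat.num_div_den a]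
    push_cast
    rw [habs, abs_mul_abs_self, inv_div]
    field_simp

theorem rat_div (H : Core) : Computable₂ (fun a b : ℚ => a / b) := by
  have h : Computable (fun p : ℚ × ℚ => p.1 * p.2⁻¹) :=
    (rat_mul H).comp Computable.fst ((rat_inv H).comp Computable.snd)
  exact h.of_eq fun p => (div_eq_mul_inv _ _).symm

theorem rat_abs (H : Core) : Computable (fun a : ℚ => |a|) := by
  have h : Computable (fun a : ℚ => (((a.num.natAbs : ℕ) : ℤ) : ℚ) / ((a.den : ℕ) : ℚ)) :=
    H.rat_divInt.comp (H.int_ofNat.comp (H.int_natAbs.comp H.rat_num)) H.rat_den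
  refine h.of_eq fun a => ?_
  have ha := den_cast_ne_zero a
  show _ = |a|
  have habs : (((a.num.natAbs : ℕ) : ℤ) : ℚ) = |(a.num : ℚ)| := by
    rw [Int.natCast_natAbs, Int.cast_abs]
  conv_rhs => rw [← Rat.num_div_den a]
  rw [habs, abs_div, Nat.abs_cast]

theorem rat_pow (H : Core) : Computable₂ (fun (a : ℚ) (k : ℕ) => a ^ k) := by
  have h : Computable (fun p : ℚ × ℕ =>
      Nat.rec (motive := fun _ => ℚ) (1 : ℚ) (fun _ IH => IH * p.1) p.2) :=
    Computable.nat_rec (f := fun p : ℚ × ℕ => p.2) (g := fun _ => (1 : ℚ))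
      (h := fun (p : ℚ × ℕ) (q : ℕ × ℚ) => q.2 * p.1) Computable.snd (Computable.const 1)
      ((rat_mul H).comp (Computable.snd.comp Computable.snd)
        (Computable.fst.comp Computable.fst))
  refine h.of_eq fun p => ?_
  obtain ⟨a, k⟩ := p
  show Nat.rec (motive := fun _ => ℚ) (1 : ℚ) (fun _ IH => IH * a) k = a ^ k
  induction k with
  | zero => simp
  | succ k ih => rw [pow_succ, ← ih]

theorem rat_natCast (H : Core) : Computable (fun k : ℕ => (k : ℚ)) := by
  have h : Computable (fun k : ℕ => (((k : ℤ) : ℤ) : ℚ) / (((1 : ℕ) : ℕ) : ℚ)) :=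
    H.rat_divInt.comp H.int_ofNat (Computable.const 1)
  exact h.of_eq fun k => by simp

theorem rat_intCast (H : Core) : Computable (fun k : ℤ => (k : ℚ)) := by
  have h : Computable (fun k : ℤ => (k : ℚ) / (((1 : ℕ) : ℕ) : ℚ)) :=
    H.rat_divInt.comp Computable.id (Computable.const 1)
  exact h.of_eq fun k => by simp

theorem rat_le (H : Core) : Computable₂ (fun a b : ℚ => decide (a ≤ b)) := by
  have h : Computable (fun p : ℚ × ℚ =>
      decide (p.1.num * (p.2.den : ℤ) ≤ p.2.num * (p.1.den : ℤ))) :=
    H.int_le.comp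
      (H.int_mul.comp (H.rat_num.comp Computable.fst)
        (H.int_ofNat.comp (H.rat_den.comp Computable.snd)))
      (H.int_mul.comp (H.rat_num.comp Computable.snd)
        (H.int_ofNat.comp (H.rat_den.comp Computable.fst)))
  refine h.of_eq fun p => ?_
  obtain ⟨a, b⟩ := p
  show decide (a.num * (b.den : ℤ) ≤ b.num * (a.den : ℤ)) = decide (a ≤ b)
  exact decide_eq_decide.mpr (Rat.le_iff a b).symm

theorem rat_lt (H : Core) : Computable₂ (fun a b : ℚ => decide (a < b)) := by
  have h : Computable (fun p : ℚ × ℚ => !decide (p.2 ≤ p.1)) :=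
    Primrec.not.to_comp.comp ((rat_le H).comp Computable.snd Computable.fst)
  refine h.of_eq fun p => ?_
  obtain ⟨a, b⟩ := p
  show (!decide (b ≤ a)) = decide (a < b)
  rw [← decide_not]
  exact decide_eq_decide.mpr not_le

theorem natCeil_eq (a : ℚ) :
    ⌈a⌉₊ = ((a.num + (a.num.natAbs : ℤ)).natAbs / 2 + a.den - 1) / a.den := by
  have hd : 0 < a.den := a.den_pos
  have h1 : (a.num + (a.num.natAbs : ℤ)).natAbs / 2 = a.num.toNat := by omega
  rw [h1]
  rcases le_or_gt a.num 0 with hn | hn
  · have h2 : a.num.toNat = 0 := by omega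
    have h3 : a ≤ 0 := Rat.num_nonpos.mp hn
    rw [h2, Nat.ceil_eq_zero.mpr h3, Nat.zero_add]
    exact (Nat.div_eq_of_lt (by omega)).symm
  · set m : ℕ := a.num.toNat with hm
    have hmn : (m : ℤ) = a.num := by omega
    have ha : a = (m : ℚ) / (a.den : ℚ) := by
      conv_lhs => rw [← Rat.num_div_den a]
      rw [← hmn]
      simp
    have hdq : (0 : ℚ) < (a.den : ℚ) := by exact_mod_cast hd
    apply eq_of_forall_ge_iff
    intro k
    rw [Nat.ceil_le]
    constructor
    · intro h
      rw [ha, div_le_iff₀ hdq] at h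
      have h' : m ≤ k * a.den := by exact_mod_cast h
      have : m + a.den - 1 < (k + 1) * a.den := by
        have : (k + 1) * a.den = k * a.den + a.den := by ring
        omega
      exact Nat.lt_succ_iff.mp ((Nat.div_lt_iff_lt_mul hd).mpr this)
    · intro h
      have h' : m + a.den - 1 < (k + 1) * a.den :=
        (Nat.div_lt_iff_lt_mul hd).mp (Nat.lt_succ_iff.mpr h)
      have h'' : m ≤ k * a.den := by
        have : (k + 1) * a.den = k * a.den + a.den := by ring
        omega
      rw [ha, div_le_iff₀ hdq]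
      exact_mod_cast h''

theorem rat_natCeil (H : Core) : Computable (fun a : ℚ => ⌈a⌉₊) := by
  have hT : Computable (fun a : ℚ => (a.num + (a.num.natAbs : ℤ)).natAbs / 2) :=
    Primrec.nat_div.to_comp.comp
      (H.int_natAbs.comp (H.int_add.comp H.rat_num (H.int_ofNat.comp (H.int_natAbs.comp H.rat_num))))
      (Computable.const 2)
  have h : Computable (fun a : ℚ =>
      ((a.num + (a.num.natAbs : ℤ)).natAbs / 2 + a.den - 1) / a.den) :=
    Primrec.nat_div.to_comp.comp
      (Primrec.nat_sub.to_comp.comp (Primrec.nat_add.to_comp.comp hT H.rat_den)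
        (Computable.const 1))
      H.rat_den
  exact h.of_eq fun a => (natCeil_eq a).symm

end Crest.Agent.S0170.Helper96
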