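import Mathlib
import Crest.Agent.Lib.S0170.Defs

/-!
# S0170, module M8a: elementary planning steps

`step_symm`, `reach_symm`, `step_translate`, `reach_rescale`.
-/

set_option autoImplicit false
set_option linter.unusedVariables false

namespace Crest.Agent.S0170

open Crest.AnalysisR.BoxFlow

namespace PlanSteps

/-- the inverse move: same cut-off data, opposite coefficients -/
def invMove (m : SMove) : SMove := { m with c₀ := -m.c₀, c₁ := -m.c₁ }

lemma invMove_plateau (m : SMove) : (invMove m).plateau = m.plateau := rfl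

lemma invMove_support (m : SMove) : (invMove m).support = m.support := rfl

lemma map_apply_a (m : SMove) (y : V) :
    m.map y m.a = y m.a + ((m.c₀ : ℝ) + (m.c₁ : ℝ) * y m.b) := by
  simp [SMove.map]

lemma map_apply_of_ne (m : SMove) (y : V) {j : Fin 3} (hj : j ≠ m.a) : m.map y j = y j := by
  simp [SMove.map, Function.update_of_ne hj]

lemma invMove_map_map (m : SMove) (y : V) : (invMove m).map (m.map y) = y := by
  funext j
  by_cases hj : j = m.a
  · subst hj
    have h1 : (invMove m).map (m.map y) m.a =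
        m.map y m.a + (((invMove m).c₀ : ℝ) + ((invMove m).c₁ : ℝ) * m.map y m.b) :=
      map_apply_a (invMove m) (m.map y)
    rw [h1, map_apply_a, map_apply_of_ne m y m.hab.symm]
    simp only [invMove, Rat.cast_neg]
    ring
  · have h1 : (invMove m).map (m.map y) j = m.map y j := map_apply_of_ne (invMove m) _ hj
    rw [h1, map_apply_of_ne m y hj]

/-- a common positive lower bound for finitely many positive thresholds -/
lemma exists_delta {n : ℕ} (P : Fin n → ℚ → Prop)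
    (hP : ∀ i, ∃ g : ℚ, 0 < g ∧ ∀ g' : ℚ, 0 < g' → g' ≤ g → P i g') :
    ∃ δ : ℚ, 0 < δ ∧ δ ≤ 1 ∧ ∀ i, P i δ := by
  choose g hg0 hg using hP
  have hne : (insert (1 : ℚ) (Finset.univ.image g)).Nonempty := Finset.insert_nonempty _ _
  refine ⟨(insert (1 : ℚ) (Finset.univ.image g)).min' hne, ?_, ?_, ?_⟩
  · have hmem := Finset.min'_mem _ hne
    rcases Finset.mem_insert.mp hmem with h | h
    · rw [h]; exact one_pos
    · obtain ⟨i, -, hi⟩ := Finset.mem_image.mp h
      rw [← hi]; exact hg0 i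
  · exact Finset.min'_le _ _ (Finset.mem_insert_self _ _)
  · intro i
    refine hg i _ ?_ ?_
    · have hmem := Finset.min'_mem _ hne
      rcases Finset.mem_insert.mp hmem with h | h
      · rw [h]; exact one_pos
      · obtain ⟨i', -, hi'⟩ := Finset.mem_image.mp h
        rw [← hi']; exact hg0 i'
    · exact Finset.min'_le _ _
        (Finset.mem_insert_of_mem (Finset.mem_image_of_mem g (Finset.mem_univ i)))

/-- the image of the open box `obox a w i` under a diagonal state lies in the open box with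
centre `c i` and half-widths `Λ i j * w i j` -/
lemma dstate_mem {n : ℕ} (a w c Λ : Fin n → Fin 3 → ℚ) (hΛ : ∀ i j, 0 < Λ i j)
    {i : Fin n} {x : V} (hx : x ∈ obox a w i) (j : Fin 3) :
    (c i j : ℝ) - (Λ i j : ℝ) * (w i j : ℝ) < dstate a c Λ i x j ∧
      dstate a c Λ i x j < (c i j : ℝ) + (Λ i j : ℝ) * (w i j : ℝ) := by
  have h := hx j
  rw [abs_lt] at h
  have hΛ' : (0 : ℝ) < (Λ i j : ℝ) := by exact_mod_cast hΛ i j
  unfold dstate
  constructor <;> nlinarith [h.1, h.2]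

lemma cast_ite_min (j α : Fin 3) (d : ℚ) :
    (((if j = α then min 0 d else 0 : ℚ)) : ℝ) = if j = α then min 0 (d : ℝ) else 0 := by
  split_ifs <;> simp [Rat.cast_min]

lemma cast_ite_max (j α : Fin 3) (d : ℚ) :
    (((if j = α then max 0 d else 0 : ℚ)) : ℝ) = if j = α then max 0 (d : ℝ) else 0 := by
  split_ifs <;> simp [Rat.cast_max]

/-- a coordinate different from `α` -/
def other (α : Fin 3) : Fin 3 := if α = 0 then 1 else 0

lemma ne_other (α : Fin 3) : α ≠ other α := by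
  unfold other
  fin_cases α <;> simp

/-- sheared state: box `i₀` carries the linear map with matrix `[[A, B], [C, D]]` in the
coordinates `p, q` (relative to the diagonal state `dstate a c Λ`); other boxes are untouched -/
def shst {n : ℕ} (a c Λ : Fin n → Fin 3 → ℚ) (i₀ : Fin n) (p q : Fin 3) (A B C D : ℚ) :
    Fin n → V → V := fun i x =>
  if i = i₀ then fun j =>
    if j = p then (c i₀ p : ℝ) + ((A : ℝ) * ((Λ i₀ p : ℝ) * (x p - (a i₀ p : ℝ))) +
        (B : ℝ) * ((Λ i₀ q : ℝ) * (x q - (a i₀ q : ℝ))))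
    else if j = q then (c i₀ q : ℝ) + ((C : ℝ) * ((Λ i₀ p : ℝ) * (x p - (a i₀ p : ℝ))) +
        (D : ℝ) * ((Λ i₀ q : ℝ) * (x q - (a i₀ q : ℝ))))
    else (c i₀ j : ℝ) + (Λ i₀ j : ℝ) * (x j - (a i₀ j : ℝ))
  else dstate a c Λ i x

section shst

variable {n : ℕ} (a w c Λ : Fin n → Fin 3 → ℚ) (i₀ : Fin n) (p q : Fin 3)

lemma shst_of_ne (A B C D : ℚ) {i : Fin n} (hi : i ≠ i₀) (x : V) :
    shst a c Λ i₀ p q A B C D i x = dstate a c Λ i x := if_neg hi

lemma shst_self_p (A B C D : ℚ) (x : V) :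
    shst a c Λ i₀ p q A B C D i₀ x p =
      (c i₀ p : ℝ) + ((A : ℝ) * ((Λ i₀ p : ℝ) * (x p - (a i₀ p : ℝ))) +
        (B : ℝ) * ((Λ i₀ q : ℝ) * (x q - (a i₀ q : ℝ)))) := by
  simp [shst]

lemma shst_self_q (hpq : p ≠ q) (A B C D : ℚ) (x : V) :
    shst a c Λ i₀ p q A B C D i₀ x q =
      (c i₀ q : ℝ) + ((C : ℝ) * ((Λ i₀ p : ℝ) * (x p - (a i₀ p : ℝ))) +
        (D : ℝ) * ((Λ i₀ q : ℝ) * (x q - (a i₀ q : ℝ)))) := by
  simp [shst, hpq.symm]

lemma shst_self_other (A B C D : ℚ) (x : V) {j : Fin 3} (hjp : j ≠ p) (hjq : j ≠ q) :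
    shst a c Λ i₀ p q A B C D i₀ x j =
      (c i₀ j : ℝ) + (Λ i₀ j : ℝ) * (x j - (a i₀ j : ℝ)) := by
  simp [shst, hjp, hjq]

lemma shst_swap (hpq : p ≠ q) (A B C D : ℚ) :
    shst a c Λ i₀ p q A B C D = shst a c Λ i₀ q p D C B A := by
  funext i x
  by_cases hi : i = i₀
  · subst hi
    funext j
    by_cases hjp : j = p
    · subst hjp
      rw [shst_self_p, shst_self_q _ _ _ _ _ _ hpq.symm]
      ring
    · by_cases hjq : j = q
      · subst hjq
        rw [shst_self_q _ _ _ _ _ _ hpq, shst_self_p]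
        ring
      · rw [shst_self_other _ _ _ _ _ _ _ _ _ _ _ hjp hjq,
          shst_self_other _ _ _ _ _ _ _ _ _ _ _ hjq hjp]
  · rw [shst_of_ne _ _ _ _ _ _ _ _ _ _ hi, shst_of_ne _ _ _ _ _ _ _ _ _ _ hi]

lemma shst_one (hpq : p ≠ q) : shst a c Λ i₀ p q 1 0 0 1 = dstate a c Λ := by
  funext i x
  by_cases hi : i = i₀
  · subst hi
    funext j
    by_cases hjp : j = p
    · subst hjp
      rw [shst_self_p]
      simp [dstate]
    · by_cases hjq : j = q
      · subst hjq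
        rw [shst_self_q _ _ _ _ _ _ hpq]
        simp [dstate]
      · rw [shst_self_other _ _ _ _ _ _ _ _ _ _ _ hjp hjq]
        rfl
  · rw [shst_of_ne _ _ _ _ _ _ _ _ _ _ hi]

lemma shst_final (hpq : p ≠ q) (r : ℚ) :
    shst a c Λ i₀ p q r 0 0 (1 / r) =
      dstate a c (Function.update Λ i₀
        (Function.update (Function.update (Λ i₀) p (r * Λ i₀ p)) q (Λ i₀ q / r))) := by
  funext i x
  by_cases hi : i = i₀
  · subst hi
    funext j
    by_cases hjp : j = p
    · subst hjp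
      rw [shst_self_p]
      simp only [dstate, Function.update_self, Function.update_of_ne hpq]
      push_cast
      ring
    · by_cases hjq : j = q
      · subst hjq
        rw [shst_self_q _ _ _ _ _ _ hpq]
        simp only [dstate, Function.update_self]
        push_cast
        ring
      · rw [shst_self_other _ _ _ _ _ _ _ _ _ _ _ hjp hjq]
        simp only [dstate, Function.update_self, Function.update_of_ne hjq,
          Function.update_of_ne hjp]
  · rw [shst_of_ne _ _ _ _ _ _ _ _ _ _ hi]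
    funext j
    unfold dstate
    rw [Function.update_of_ne hi]

/-- offsets of a point of the box `i₀` are bounded by `R₀` -/
lemma offset_le (hΛ : ∀ i j, 0 < Λ i j) (R₀ : ℚ) (hR₀ : ∀ j, Λ i₀ j * w i₀ j ≤ R₀)
    {x : V} (hx : x ∈ obox a w i₀) (j : Fin 3) :
    |(Λ i₀ j : ℝ) * (x j - (a i₀ j : ℝ))| ≤ (R₀ : ℝ) := by
  have h := hx j
  have hΛ' : (0 : ℝ) < (Λ i₀ j : ℝ) := by exact_mod_cast hΛ i₀ j
  have h2 : (Λ i₀ j : ℝ) * (w i₀ j : ℝ) ≤ (R₀ : ℝ) := by exact_mod_cast hR₀ j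
  rw [abs_mul, abs_of_pos hΛ']
  nlinarith

/-- a sheared state with bounded coefficients keeps the box `i₀` inside the cube of radius
`κ * R₀` around its centre -/
lemma shst_bound (hΛ : ∀ i j, 0 < Λ i j) (hpq : p ≠ q) (R₀ κ : ℚ)
    (hR₀ : ∀ j, Λ i₀ j * w i₀ j ≤ R₀) (hκ : 1 ≤ κ)
    (A B C D : ℚ) (hAB : |A| + |B| ≤ κ) (hCD : |C| + |D| ≤ κ)
    {x : V} (hx : x ∈ obox a w i₀) (j : Fin 3) :
    |shst a c Λ i₀ p q A B C D i₀ x j - (c i₀ j : ℝ)| ≤ (κ : ℝ) * (R₀ : ℝ) := by
  have hX := offset_le a w Λ i₀ hΛ R₀ hR₀ hx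
  have hR0 : (0 : ℝ) ≤ (R₀ : ℝ) := le_trans (abs_nonneg _) (hX p)
  have hκ' : (1 : ℝ) ≤ (κ : ℝ) := by exact_mod_cast hκ
  have key : ∀ (E F : ℚ), |E| + |F| ≤ κ →
      |(E : ℝ) * ((Λ i₀ p : ℝ) * (x p - (a i₀ p : ℝ))) +
        (F : ℝ) * ((Λ i₀ q : ℝ) * (x q - (a i₀ q : ℝ)))| ≤ (κ : ℝ) * (R₀ : ℝ) := by
    intro E F hEF
    have hEF' : |(E : ℝ)| + |(F : ℝ)| ≤ (κ : ℝ) := by
      have : ((|E| + |F| : ℚ) : ℝ) ≤ (κ : ℝ) := by exact_mod_cast hEF
      simpa [Rat.cast_abs] using this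
    calc |(E : ℝ) * ((Λ i₀ p : ℝ) * (x p - (a i₀ p : ℝ))) +
          (F : ℝ) * ((Λ i₀ q : ℝ) * (x q - (a i₀ q : ℝ)))|
        ≤ |(E : ℝ) * ((Λ i₀ p : ℝ) * (x p - (a i₀ p : ℝ)))| +
          |(F : ℝ) * ((Λ i₀ q : ℝ) * (x q - (a i₀ q : ℝ)))| := abs_add_le _ _
      _ = |(E : ℝ)| * |(Λ i₀ p : ℝ) * (x p - (a i₀ p : ℝ))| +
          |(F : ℝ)| * |(Λ i₀ q : ℝ) * (x q - (a i₀ q : ℝ))| := by
            rw [abs_mul (E : ℝ), abs_mul (F : ℝ)]
      _ ≤ |(E : ℝ)| * (R₀ : ℝ) + |(F : ℝ)| * (R₀ : ℝ) :=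
          add_le_add (mul_le_mul_of_nonneg_left (hX p) (abs_nonneg _))
            (mul_le_mul_of_nonneg_left (hX q) (abs_nonneg _))
      _ = (|(E : ℝ)| + |(F : ℝ)|) * (R₀ : ℝ) := by ring
      _ ≤ (κ : ℝ) * (R₀ : ℝ) := mul_le_mul_of_nonneg_right hEF' hR0
  by_cases hjp : j = p
  · subst hjp
    rw [shst_self_p, add_sub_cancel_left]
    exact key A B hAB
  · by_cases hjq : j = q
    · subst hjq
      rw [shst_self_q _ _ _ _ _ _ hpq, add_sub_cancel_left]
      exact key C D hCD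
    · rw [shst_self_other _ _ _ _ _ _ _ _ _ _ _ hjp hjq, add_sub_cancel_left]
      calc |(Λ i₀ j : ℝ) * (x j - (a i₀ j : ℝ))| ≤ (R₀ : ℝ) := hX j
        _ = 1 * (R₀ : ℝ) := (one_mul _).symm
        _ ≤ (κ : ℝ) * (R₀ : ℝ) := mul_le_mul_of_nonneg_right hκ' hR0

/-- one shear of the box `i₀` in the direction `p` (proportional to the `q`-offset), inside
the private cube of radius `κ * R₀` -/
lemma shear_step (hΛ : ∀ i j, 0 < Λ i j) (hpq : p ≠ q) (R₀ κ : ℚ)
    (hR₀ : ∀ j, Λ i₀ j * w i₀ j ≤ R₀) (hκ : 1 ≤ κ)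
    (hfar : ∀ i, i ≠ i₀ → ∃ j, Λ i j * w i j + (κ * R₀ + 1) < |c i j - c i₀ j|)
    (A B C D s A' B' : ℚ) (hA' : A' = A + s * C) (hB' : B' = B + s * D)
    (hAB : |A| + |B| ≤ κ) (hCD : |C| + |D| ≤ κ) (hAB' : |A'| + |B'| ≤ κ) :
    Step (obox a w) (shst a c Λ i₀ p q A B C D) (shst a c Λ i₀ p q A' B' C D) := by
  let m : SMove :=
    { a := p
      b := q
      hab := hpq
      lo := fun j => c i₀ j - κ * R₀
      hi := fun j => c i₀ j + κ * R₀
      δ := 1
      hδ := one_pos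
      c₀ := -(s * c i₀ q)
      c₁ := s }
  have hlo : ∀ j, (m.lo j : ℝ) = (c i₀ j : ℝ) - (κ : ℝ) * (R₀ : ℝ) := by
    intro j
    show (((c i₀ j - κ * R₀ : ℚ)) : ℝ) = _
    push_cast; ring
  have hhi : ∀ j, (m.hi j : ℝ) = (c i₀ j : ℝ) + (κ : ℝ) * (R₀ : ℝ) := by
    intro j
    show (((c i₀ j + κ * R₀ : ℚ)) : ℝ) = _
    push_cast; ring
  have hδ1 : (m.δ : ℝ) = 1 := by
    show (((1 : ℚ)) : ℝ) = 1
    norm_num
  have hmap : ∀ x : V, m.map (shst a c Λ i₀ p q A B C D i₀ x) =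
      shst a c Λ i₀ p q A' B' C D i₀ x := by
    intro x
    funext j
    by_cases hjp : j = p
    · subst hjp
      have h1 : m.map (shst a c Λ i₀ j q A B C D i₀ x) j =
          shst a c Λ i₀ j q A B C D i₀ x j +
            (((-(s * c i₀ q) : ℚ) : ℝ) + ((s : ℚ) : ℝ) * shst a c Λ i₀ j q A B C D i₀ x q) :=
        map_apply_a m _
      rw [h1, shst_self_p, shst_self_p, shst_self_q _ _ _ _ _ _ hpq, hA', hB']
      push_cast
      ring
    · have h1 : m.map (shst a c Λ i₀ p q A B C D i₀ x) j =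
          shst a c Λ i₀ p q A B C D i₀ x j := map_apply_of_ne m _ hjp
      rw [h1]
      by_cases hjq : j = q
      · subst hjq
        rw [shst_self_q _ _ _ _ _ _ hpq, shst_self_q _ _ _ _ _ _ hpq]
      · rw [shst_self_other _ _ _ _ _ _ _ _ _ _ _ hjp hjq,
          shst_self_other _ _ _ _ _ _ _ _ _ _ _ hjp hjq]
  have hplat : ∀ (E F : ℚ), |E| + |F| ≤ κ → ∀ x ∈ obox a w i₀,
      shst a c Λ i₀ p q E F C D i₀ x ∈ m.plateau := by
    intro E F hEF x hx j
    have hb := shst_bound a w c Λ i₀ p q hΛ hpq R₀ κ hR₀ hκ E F C D hEF hCD hx j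
    rw [abs_le] at hb
    rw [hlo, hhi]
    constructor <;> linarith [hb.1, hb.2]
  refine ⟨m, fun i => decide (i = i₀), ?_, ?_⟩
  · intro i
    refine ⟨fun hi x hx => ?_, fun hi x hx => ?_⟩
    · have hi' : i = i₀ := by simpa using hi
      subst hi'
      refine ⟨hplat A B hAB x hx, ?_⟩
      rw [hmap]
      exact hplat A' B' hAB' x hx
    · have hi' : i ≠ i₀ := by simpa using hi
      rw [shst_of_ne _ _ _ _ _ _ _ _ _ _ hi']
      obtain ⟨j, hj⟩ := hfar i hi'
      have hj' : (Λ i j : ℝ) * (w i j : ℝ) + ((κ : ℝ) * (R₀ : ℝ) + 1) <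
          |(c i j : ℝ) - (c i₀ j : ℝ)| := by
        have : ((Λ i j * w i j + (κ * R₀ + 1) : ℚ) : ℝ) < ((|c i j - c i₀ j| : ℚ) : ℝ) := by
          exact_mod_cast hj
        rw [Rat.cast_abs] at this
        push_cast at this
        exact this
      have hb := dstate_mem a w c Λ hΛ hx j
      intro hsupp
      have hs := hsupp j
      rw [hlo, hhi, hδ1] at hs
      rcases lt_abs.mp hj' with h | h
      · linarith [hs.1, hs.2, hb.1, hb.2]
      · linarith [hs.1, hs.2, hb.1, hb.2]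
  · intro i x hx
    by_cases hi : i = i₀
    · subst hi
      rw [if_pos (by simp), hmap]
    · rw [if_neg (by simp [hi]), shst_of_ne _ _ _ _ _ _ _ _ _ _ hi,
        shst_of_ne _ _ _ _ _ _ _ _ _ _ hi]

end shst

lemma kappa_ge (u t v : ℚ) (hu : 0 ≤ u) (ht : 0 ≤ t) (hv : 0 ≤ v) :
    1 + u + t + u * t ≤ 2 * (1 + u) * (1 + t) * (1 + v) := by
  have h1 : 0 ≤ (1 + u) * (1 + t) := by positivity
  nlinarith [mul_nonneg h1 hv]

end PlanSteps

open PlanSteps in
theorem step_symm {n : ℕ} (nbhd : Fin n → Set V) {G G' : Fin n → V → V}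
    (h : Step nbhd G G') : Step nbhd G' G := by
  obtain ⟨m, mv, hv, hG⟩ := h
  refine ⟨invMove m, mv, ?_, ?_⟩
  · intro i
    refine ⟨fun hi x hx => ?_, fun hi x hx => ?_⟩
    · have h1 := (hv i).1 hi x hx
      have h2 := hG i x hx
      rw [if_pos hi] at h2
      rw [h2, invMove_map_map, invMove_plateau]
      exact ⟨h1.2, h1.1⟩
    · have h1 := (hv i).2 hi x hx
      have h2 := hG i x hx
      rw [if_neg (by simp [hi])] at h2
      rw [h2, invMove_support]
      exact h1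
  · intro i x hx
    have h2 := hG i x hx
    by_cases hi : mv i = true
    · rw [if_pos hi] at h2 ⊢
      rw [h2, invMove_map_map]
    · rw [if_neg hi] at h2 ⊢
      rw [h2]

theorem reach_symm {n : ℕ} (nbhd : Fin n → Set V) {G G' : Fin n → V → V}
    (h : Reach nbhd G G') : Reach nbhd G' G := by
  induction h with
  | refl => exact Relation.ReflTransGen.refl
  | tail _ hbc ih => exact Relation.ReflTransGen.head (step_symm nbhd hbc) ih

open PlanSteps in
/-- M8a: translating one box along the axis `α` by `d` is one valid move, provided every other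
box is separated (in some coordinate) from the hull swept by the moving box. -/
theorem step_translate {n : ℕ} (a w c Λ : Fin n → Fin 3 → ℚ) (hw : ∀ i j, 0 < w i j)
    (hΛ : ∀ i j, 0 < Λ i j) (i₀ : Fin n) (α : Fin 3) (d : ℚ)
    (hsep : ∀ i, i ≠ i₀ → ∃ j,
      c i j + Λ i j * w i j < c i₀ j - Λ i₀ j * w i₀ j + (if j = α then min 0 d else 0) ∨
      c i₀ j + Λ i₀ j * w i₀ j + (if j = α then max 0 d else 0) < c i j - Λ i j * w i j) :
    Step (obox a w) (dstate a c Λ)
      (dstate a (Function.update c i₀ (Function.update (c i₀) α (c i₀ α + d))) Λ) := by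
  -- the collar width
  obtain ⟨δ, hδ, -, hδP⟩ := exists_delta (n := n)
    (fun i δ => i ≠ i₀ → ∃ j,
      c i j + Λ i j * w i j + δ ≤ c i₀ j - Λ i₀ j * w i₀ j + (if j = α then min 0 d else 0) ∨
      c i₀ j + Λ i₀ j * w i₀ j + (if j = α then max 0 d else 0) + δ ≤ c i j - Λ i j * w i j)
    (by
      intro i
      by_cases hi : i = i₀
      · exact ⟨1, one_pos, fun _ _ _ h => absurd hi h⟩
      · obtain ⟨j, hj⟩ := hsep i hi
        rcases hj with hj | hj
        · refine ⟨c i₀ j - Λ i₀ j * w i₀ j + (if j = α then min 0 d else 0) -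
            (c i j + Λ i j * w i j), by linarith, fun g' _ hg' _ => ⟨j, Or.inl ?_⟩⟩
          linarith
        · refine ⟨c i j - Λ i j * w i j -
            (c i₀ j + Λ i₀ j * w i₀ j + (if j = α then max 0 d else 0)), by linarith,
            fun g' _ hg' _ => ⟨j, Or.inr ?_⟩⟩
          linarith)
  let m : SMove :=
    { a := α
      b := other α
      hab := ne_other α
      lo := fun j => c i₀ j - Λ i₀ j * w i₀ j + (if j = α then min 0 d else 0)
      hi := fun j => c i₀ j + Λ i₀ j * w i₀ j + (if j = α then max 0 d else 0)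
      δ := δ
      hδ := hδ
      c₀ := d
      c₁ := 0 }
  have hmap : ∀ y : V, m.map y = Function.update y α (y α + (d : ℝ)) := by
    intro y
    show Function.update y α (y α + (((d : ℚ) : ℝ) + ((0 : ℚ) : ℝ) * y (other α))) = _
    simp
  have hlo : ∀ j, (m.lo j : ℝ) =
      (c i₀ j : ℝ) - (Λ i₀ j : ℝ) * (w i₀ j : ℝ) + (if j = α then min 0 (d : ℝ) else 0) := by
    intro j
    show (((c i₀ j - Λ i₀ j * w i₀ j + (if j = α then min 0 d else 0) : ℚ)) : ℝ) = _
    rw [Rat.cast_add, cast_ite_min]; push_cast; ring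
  have hhi : ∀ j, (m.hi j : ℝ) =
      (c i₀ j : ℝ) + (Λ i₀ j : ℝ) * (w i₀ j : ℝ) + (if j = α then max 0 (d : ℝ) else 0) := by
    intro j
    show (((c i₀ j + Λ i₀ j * w i₀ j + (if j = α then max 0 d else 0) : ℚ)) : ℝ) = _
    rw [Rat.cast_add, cast_ite_max]; push_cast; ring
  refine ⟨m, fun i => decide (i = i₀), ?_, ?_⟩
  · intro i
    refine ⟨fun hi x hx => ?_, fun hi x hx => ?_⟩
    · have hi' : i = i₀ := by simpa using hi
      subst hi'
      have hb := dstate_mem a w c Λ hΛ hx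
      refine ⟨fun j => ?_, fun j => ?_⟩
      · rw [hlo, hhi]
        have := hb j
        split_ifs with hj
        · constructor
          · have := min_le_left (0 : ℝ) (d : ℝ); linarith
          · have := le_max_left (0 : ℝ) (d : ℝ); linarith
        · constructor <;> linarith
      · rw [hlo, hhi, hmap]
        have := hb j
        by_cases hj : j = α
        · subst hj
          rw [Function.update_self, if_pos rfl, if_pos rfl]
          constructor
          · have := min_le_right (0 : ℝ) (d : ℝ); linarith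
          · have := le_max_right (0 : ℝ) (d : ℝ); linarith
        · rw [Function.update_of_ne hj, if_neg hj, if_neg hj]
          constructor <;> linarith
    · have hi' : i ≠ i₀ := by simpa using hi
      obtain ⟨j, hj⟩ := hδP i hi'
      have hb := dstate_mem a w c Λ hΛ hx j
      intro hsupp
      have hs := hsupp j
      rcases hj with hj | hj
      · have hj' : (c i j : ℝ) + (Λ i j : ℝ) * (w i j : ℝ) + (δ : ℝ) ≤ (m.lo j : ℝ) := by
          have : ((c i j + Λ i j * w i j + δ : ℚ) : ℝ) ≤ (m.lo j : ℝ) := by exact_mod_cast hj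
          push_cast at this
          linarith
        have h1 : (m.lo j : ℝ) - (m.δ : ℝ) < dstate a c Λ i x j := hs.1
        have h2 : (m.δ : ℝ) = (δ : ℝ) := rfl
        linarith [hb.2]
      · have hj' : (m.hi j : ℝ) + (δ : ℝ) ≤ (c i j : ℝ) - (Λ i j : ℝ) * (w i j : ℝ) := by
          have : (m.hi j : ℝ) + (δ : ℝ) ≤ ((c i j - Λ i j * w i j : ℚ) : ℝ) := by
            have h3 : ((m.hi j + δ : ℚ) : ℝ) ≤ ((c i j - Λ i j * w i j : ℚ) : ℝ) := by
              exact_mod_cast hj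
            push_cast at h3 ⊢
            linarith
          push_cast at this
          linarith
        have h1 : dstate a c Λ i x j < (m.hi j : ℝ) + (m.δ : ℝ) := hs.2
        have h2 : (m.δ : ℝ) = (δ : ℝ) := rfl
        linarith [hb.1]
  · intro i x hx
    by_cases hi : i = i₀
    · subst hi
      rw [if_pos (by simp), hmap]
      funext j
      unfold dstate
      by_cases hj : j = α
      · subst hj
        simp only [Function.update_self]
        push_cast
        ring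
      · simp only [Function.update_self, Function.update_of_ne hj]
    · rw [if_neg (by simp [hi])]
      funext j
      unfold dstate
      rw [Function.update_of_ne hi]

open PlanSteps in
/-- M8a: rescaling one box by `r` in coordinate `p` and `1/r` in coordinate `q` (four shears)
inside a private cube of radius `rescaleRadius r R₀` around its centre. -/
theorem reach_rescale {n : ℕ} (a w c Λ : Fin n → Fin 3 → ℚ) (hw : ∀ i j, 0 < w i j)
    (hΛ : ∀ i j, 0 < Λ i j) (i₀ : Fin n) (p q : Fin 3) (hpq : p ≠ q) (r : ℚ) (hr : 0 < r)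
    (R₀ : ℚ) (hR₀ : ∀ j, Λ i₀ j * w i₀ j ≤ R₀)
    (hfar : ∀ i, i ≠ i₀ → ∃ j, Λ i j * w i j + rescaleRadius r R₀ < |c i j - c i₀ j|) :
    Reach (obox a w) (dstate a c Λ)
      (dstate a c (Function.update Λ i₀
        (Function.update (Function.update (Λ i₀) p (r * Λ i₀ p)) q (Λ i₀ q / r)))) := by
  obtain ⟨κ, hκdef⟩ : ∃ κ : ℚ, κ = 2 * (1 + 1 / r) * (1 + |r - 1|) * (1 + |1 - r| / r) :=
    ⟨_, rfl⟩
  have hu : 0 < 1 / r := one_div_pos.mpr hr
  have ht : 0 ≤ |r - 1| := abs_nonneg _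
  have hv : 0 ≤ |1 - r| / r := div_nonneg (abs_nonneg _) hr.le
  have hrt : r ≤ 1 + |r - 1| := by have := le_abs_self (r - 1); linarith
  have hκge : 1 + 1 / r + |r - 1| + 1 / r * |r - 1| ≤ κ := by
    rw [hκdef]; exact kappa_ge _ _ _ hu.le ht hv
  have hut : 0 ≤ 1 / r * |r - 1| := mul_nonneg hu.le ht
  have hκ1 : 1 ≤ κ := by linarith
  have hfar' : ∀ i, i ≠ i₀ → ∃ j, Λ i j * w i j + (κ * R₀ + 1) < |c i j - c i₀ j| := by
    intro i hi
    obtain ⟨j, hj⟩ := hfar i hi
    refine ⟨j, ?_⟩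
    rw [hκdef]
    exact hj
  have a1 : |(1 : ℚ)| = 1 := abs_one
  have a0 : |(0 : ℚ)| = 0 := abs_zero
  have au : |(-(1 / r) : ℚ)| = 1 / r := by rw [abs_neg, abs_of_pos hu]
  have au' : |(1 / r : ℚ)| = 1 / r := abs_of_pos hu
  have ar : |r| = r := abs_of_pos hr
  have hrne : r ≠ 0 := hr.ne'
  -- step 1: shear in `p` by `-1/r`
  have s1 : Step (obox a w) (shst a c Λ i₀ p q 1 0 0 1)
      (shst a c Λ i₀ p q 1 (-(1 / r)) 0 1) :=
    shear_step a w c Λ i₀ p q hΛ hpq R₀ κ hR₀ hκ1 hfar' 1 0 0 1 (-(1 / r)) 1 (-(1 / r))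
      (by ring) (by ring) (by rw [a1, a0]; linarith) (by rw [a1, a0]; linarith)
      (by rw [a1, au]; linarith)
  -- step 2: shear in `q` by `r - 1`
  have s2 : Step (obox a w) (shst a c Λ i₀ q p 1 0 (-(1 / r)) 1)
      (shst a c Λ i₀ q p (1 / r) (r - 1) (-(1 / r)) 1) :=
    shear_step a w c Λ i₀ q p hΛ hpq.symm R₀ κ hR₀ hκ1 hfar' 1 0 (-(1 / r)) 1 (r - 1)
      (1 / r) (r - 1)
      (by field_simp; ring) (by ring) (by rw [a1, a0]; linarith) (by rw [au, a1]; linarith)
      (by rw [au']; linarith)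
  -- step 3: shear in `p` by `1`
  have s3 : Step (obox a w) (shst a c Λ i₀ p q 1 (-(1 / r)) (r - 1) (1 / r))
      (shst a c Λ i₀ p q r 0 (r - 1) (1 / r)) :=
    shear_step a w c Λ i₀ p q hΛ hpq R₀ κ hR₀ hκ1 hfar' 1 (-(1 / r)) (r - 1) (1 / r) 1 r 0
      (by ring) (by ring) (by rw [a1, au]; linarith) (by rw [au']; linarith)
      (by rw [ar, a0]; linarith)
  -- step 4: shear in `q` by `(1 - r) / r`
  have s4 : Step (obox a w) (shst a c Λ i₀ q p (1 / r) (r - 1) 0 r)
      (shst a c Λ i₀ q p (1 / r) 0 0 r) :=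
    shear_step a w c Λ i₀ q p hΛ hpq.symm R₀ κ hR₀ hκ1 hfar' (1 / r) (r - 1) 0 r
      ((1 - r) / r) (1 / r) 0
      (by ring) (by field_simp; ring) (by rw [au']; linarith) (by rw [a0, ar]; linarith)
      (by rw [au', a0]; linarith)
  rw [shst_swap a c Λ i₀ q p hpq.symm 1 0 (-(1 / r)) 1,
    shst_swap a c Λ i₀ q p hpq.symm (1 / r) (r - 1) (-(1 / r)) 1] at s2
  rw [shst_swap a c Λ i₀ q p hpq.symm (1 / r) (r - 1) 0 r,
    shst_swap a c Λ i₀ q p hpq.symm (1 / r) 0 0 r] at s4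
  rw [← shst_one a c Λ i₀ p q hpq, ← shst_final a c Λ i₀ p q hpq r]
  exact (((Relation.ReflTransGen.single s1).tail s2).tail s3).tail s4

end Crest.Agent.S0170
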